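/-
# Row 291 (S0539): Prop 2.4 (history order), wall factorisation (2.5), Lemma 9.1 (first half), Lemma 9.8, ABSTRACT (160 + 133)

TEX[prop:history-order] TEX[discrete:wall-factor] TEX[annulus:ambient] TEX[annulus:plus-equalities]

EXITS: `cs_assoc`, `cs_order`, `cs_order_gen` (extra open cells; `CsHist.LeG`) (cross multiplied), `cs_Ex_assoc`, `cs_Ex_order` (normalised).

ROUTE (differs from the paper in the status step: no `S₊ / S₋` blocks, no kernels, no coupling).
 P1 `cs_stage_fkg`, `cs_stage_holley` : two-stage lemmas on a product `α × β` of finite distributive lattices: lattice condition for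
    the `α`-marginals + four-function condition in the fibre for `a ≤ a'`  ⟹  FKG / Holley for the joint weight.   (160)
 P2 `cs_wall_factor`, `cs_split_of_SC` : `Z(a⁺) Z(a⁻) = K Z(a⁺ + a⁻)`.                                               (160)
 P3 `cs_wf_eq`  : `wf h ω = K * wt h ω`,  `wf` = factorised weight  `1{pins} ∏ kf · Z(op) · Z(om)`.                    (160)
 P4 `cs_mf_eq`  : `∑ τ, wf h (b, τ) = mf h b`,  `mf` = formula (2.5) `1{pins} ∏ rf · Z(ap) · Z(am)`.                   (160)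
 P5 `cs_fibre`  : for `b ≤ c`: `wf h₁ (b,τ) wf h₂ (c,τ') ≤ wf h₁ (b,τ ⊓ τ') wf h₂ (c,τ ⊔ τ')`.                         (133)
 P6 `cs_marg`   : two-law inequality (2.8): `mf h₁ b · mf h₂ c ≤ mf h₁ (b ⊓ c) · mf h₂ (b ⊔ c)`.                       (133)
 P7 assembly.                                                                                                        (160)
-/
import Claimed.Agent.R291.Defs.CellSys

set_option autoImplicit false
set_option linter.unusedSectionVars false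
set_option linter.unusedVariables false
set_option linter.unusedSimpArgs false

namespace Claimed.Agent.R291

open Finset

/-! ## P1: two-stage lemmas (Mathlib only) -/

section Stage

variable {α β : Type*} [DistribLattice α] [Fintype α] [DistribLattice β] [Fintype β]

/-- fibre comparison. -/
theorem cs_stage_fib {u₁ u₂ φ₁ φ₂ : β → ℝ} (h1 : ∀ t, 0 ≤ u₁ t) (h2 : ∀ t, 0 ≤ u₂ t)
    (hφ₁ : ∀ t, 0 ≤ φ₁ t) (hφ : ∀ t t', φ₁ t ≤ φ₂ (t ⊔ t'))
    (hf : ∀ t t', u₁ t * u₂ t' ≤ u₁ (t ⊓ t') * u₂ (t ⊔ t')) :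
    (∑ t, u₁ t * φ₁ t) * ∑ t, u₂ t ≤ (∑ t, u₁ t) * ∑ t, u₂ t * φ₂ t := by
  have hφ₂ : ∀ t, 0 ≤ φ₂ t := fun t => by
    have := hφ t t
    rw [sup_idem] at this
    exact (hφ₁ t).trans this
  refine four_functions_theorem_univ (fun t => u₁ t * φ₁ t) u₂ u₁ (fun t => u₂ t * φ₂ t)
    (fun t => mul_nonneg (h1 t) (hφ₁ t)) h2 h1 (fun t => mul_nonneg (h2 t) (hφ₂ t)) fun t t' => ?_
  calc u₁ t * φ₁ t * u₂ t' = (u₁ t * u₂ t') * φ₁ t := by ring
    _ ≤ (u₁ (t ⊓ t') * u₂ (t ⊔ t')) * φ₂ (t ⊔ t') :=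
        mul_le_mul (hf t t') (hφ t t') (hφ₁ t) (mul_nonneg (h1 _) (h2 _))
    _ = u₁ (t ⊓ t') * (u₂ (t ⊔ t') * φ₂ (t ⊔ t')) := by ring

theorem cs_stage_zero {u φ : β → ℝ} (h1 : ∀ t, 0 ≤ u t) (h0 : ∑ t, u t = 0) :
    ∑ t, u t * φ t = 0 := by
  have h := (Finset.sum_eq_zero_iff_of_nonneg fun t _ => h1 t).1 h0
  refine Finset.sum_eq_zero fun t ht => ?_
  rw [h t ht, zero_mul]

/-- two-stage Holley, nonnegative observable. -/
theorem cs_stage_holley_nn {w₁ w₂ F : α × β → ℝ} (h1 : ∀ p, 0 ≤ w₁ p) (h2 : ∀ p, 0 ≤ w₂ p)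
    (hm : ∀ a a', (∑ t, w₁ (a, t)) * (∑ t, w₂ (a', t))
      ≤ (∑ t, w₁ (a ⊓ a', t)) * ∑ t, w₂ (a ⊔ a', t))
    (hf : ∀ a a', a ≤ a' → ∀ t t', w₁ (a, t) * w₂ (a', t') ≤ w₁ (a, t ⊓ t') * w₂ (a', t ⊔ t'))
    (hF : Monotone F) (hF0 : ∀ p, 0 ≤ F p) :
    (∑ p, w₁ p * F p) * ∑ p, w₂ p ≤ (∑ p, w₁ p) * ∑ p, w₂ p * F p := by
  simp only [Fintype.sum_prod_type]
  refine four_functions_theorem_univ (fun a => ∑ t, w₁ (a, t) * F (a, t)) (fun a => ∑ t, w₂ (a, t))
    (fun a => ∑ t, w₁ (a, t)) (fun a => ∑ t, w₂ (a, t) * F (a, t))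
    (fun a => Finset.sum_nonneg fun t _ => mul_nonneg (h1 _) (hF0 _))
    (fun a => Finset.sum_nonneg fun t _ => h2 _) (fun a => Finset.sum_nonneg fun t _ => h1 _)
    (fun a => Finset.sum_nonneg fun t _ => mul_nonneg (h2 _) (hF0 _)) fun a a' => ?_
  have hm1 : ∀ a, 0 ≤ ∑ t, w₁ (a, t) := fun a => Finset.sum_nonneg fun t _ => h1 _
  have hm2 : ∀ a, 0 ≤ ∑ t, w₂ (a, t) := fun a => Finset.sum_nonneg fun t _ => h2 _
  have hf4 : 0 ≤ ∑ t, w₂ (a ⊔ a', t) * F (a ⊔ a', t) :=
    Finset.sum_nonneg fun t _ => mul_nonneg (h2 _) (hF0 _)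
  rcases (hm1 a).eq_or_lt with h0 | hpos1
  · rw [cs_stage_zero (fun t => h1 (a, t)) h0.symm, zero_mul]
    exact mul_nonneg (hm1 _) hf4
  rcases (hm2 a').eq_or_lt with h0 | hpos2
  · rw [← h0, mul_zero]
    exact mul_nonneg (hm1 _) hf4
  have hmm := hm a a'
  have hj : 0 < ∑ t, w₂ (a ⊔ a', t) := by
    rcases (hm2 (a ⊔ a')).eq_or_lt with h0 | h
    · rw [← h0, mul_zero] at hmm
      exact absurd hmm (not_le.2 (mul_pos hpos1 hpos2))
    · exact h
  have hst := cs_stage_fib (u₁ := fun t => w₁ (a, t)) (u₂ := fun t => w₂ (a ⊔ a', t))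
    (φ₁ := fun t => F (a, t)) (φ₂ := fun t => F (a ⊔ a', t)) (fun t => h1 _) (fun t => h2 _)
    (fun t => hF0 _) (fun t t' => hF (Prod.mk_le_mk.2 ⟨le_sup_left, le_sup_left⟩))
    (hf a (a ⊔ a') le_sup_left)
  refine le_of_mul_le_mul_right ?_ hj
  calc (∑ t, w₁ (a, t) * F (a, t)) * (∑ t, w₂ (a', t)) * ∑ t, w₂ (a ⊔ a', t)
      = ((∑ t, w₁ (a, t) * F (a, t)) * ∑ t, w₂ (a ⊔ a', t)) * ∑ t, w₂ (a', t) := by ring
    _ ≤ ((∑ t, w₁ (a, t)) * ∑ t, w₂ (a ⊔ a', t) * F (a ⊔ a', t)) * ∑ t, w₂ (a', t) :=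
        mul_le_mul_of_nonneg_right hst (hm2 _)
    _ = ((∑ t, w₁ (a, t)) * ∑ t, w₂ (a', t)) * ∑ t, w₂ (a ⊔ a', t) * F (a ⊔ a', t) := by ring
    _ ≤ ((∑ t, w₁ (a ⊓ a', t)) * ∑ t, w₂ (a ⊔ a', t))
          * ∑ t, w₂ (a ⊔ a', t) * F (a ⊔ a', t) := mul_le_mul_of_nonneg_right hmm hf4
    _ = _ := by ring

/-- two-stage Holley. -/
theorem cs_stage_holley {w₁ w₂ F : α × β → ℝ} (h1 : ∀ p, 0 ≤ w₁ p) (h2 : ∀ p, 0 ≤ w₂ p)
    (hm : ∀ a a', (∑ t, w₁ (a, t)) * (∑ t, w₂ (a', t))
      ≤ (∑ t, w₁ (a ⊓ a', t)) * ∑ t, w₂ (a ⊔ a', t))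
    (hf : ∀ a a', a ≤ a' → ∀ t t', w₁ (a, t) * w₂ (a', t') ≤ w₁ (a, t ⊓ t') * w₂ (a', t ⊔ t'))
    (hF : Monotone F) :
    (∑ p, w₁ p * F p) * ∑ p, w₂ p ≤ (∑ p, w₁ p) * ∑ p, w₂ p * F p := by
  obtain ⟨c, hc⟩ := isz_exists_shift F
  have key := cs_stage_holley_nn (F := fun p => F p + c) h1 h2 hm hf
    (fun p p' hpp => by have := hF hpp; simp only; linarith) hc
  simp only [mul_add, Finset.sum_add_distrib, ← Finset.sum_mul] at key
  nlinarith [key]

/-- two-stage FKG, nonnegative observables. -/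
theorem cs_stage_fkg_nn {w F G : α × β → ℝ} (h1 : ∀ p, 0 ≤ w p)
    (hm : ∀ a a', (∑ t, w (a, t)) * (∑ t, w (a', t)) ≤ (∑ t, w (a ⊓ a', t)) * ∑ t, w (a ⊔ a', t))
    (hf : ∀ a a', a ≤ a' → ∀ t t', w (a, t) * w (a', t') ≤ w (a, t ⊓ t') * w (a', t ⊔ t'))
    (hF : Monotone F) (hG : Monotone G) (hF0 : ∀ p, 0 ≤ F p) (hG0 : ∀ p, 0 ≤ G p) :
    (∑ p, w p * F p) * ∑ p, w p * G p ≤ (∑ p, w p) * ∑ p, w p * (F p * G p) := by
  simp only [Fintype.sum_prod_type]
  refine four_functions_theorem_univ (fun a => ∑ t, w (a, t) * F (a, t))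
    (fun a => ∑ t, w (a, t) * G (a, t))
    (fun a => ∑ t, w (a, t)) (fun a => ∑ t, w (a, t) * (F (a, t) * G (a, t)))
    (fun a => Finset.sum_nonneg fun t _ => mul_nonneg (h1 _) (hF0 _))
    (fun a => Finset.sum_nonneg fun t _ => mul_nonneg (h1 _) (hG0 _))
    (fun a => Finset.sum_nonneg fun t _ => h1 _)
    (fun a => Finset.sum_nonneg fun t _ => mul_nonneg (h1 _) (mul_nonneg (hF0 _) (hG0 _)))
    fun a a' => ?_
  have hm1 : ∀ a, 0 ≤ ∑ t, w (a, t) := fun a => Finset.sum_nonneg fun t _ => h1 _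
  have hfF : ∀ a, 0 ≤ ∑ t, w (a, t) * F (a, t) :=
    fun a => Finset.sum_nonneg fun t _ => mul_nonneg (h1 _) (hF0 _)
  have hfG : ∀ a, 0 ≤ ∑ t, w (a, t) * G (a, t) :=
    fun a => Finset.sum_nonneg fun t _ => mul_nonneg (h1 _) (hG0 _)
  have hf4 : 0 ≤ ∑ t, w (a ⊔ a', t) * (F (a ⊔ a', t) * G (a ⊔ a', t)) :=
    Finset.sum_nonneg fun t _ => mul_nonneg (h1 _) (mul_nonneg (hF0 _) (hG0 _))
  rcases (hm1 a).eq_or_lt with h0 | hpos1
  · rw [cs_stage_zero (fun t => h1 (a, t)) h0.symm, zero_mul]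
    exact mul_nonneg (hm1 _) hf4
  rcases (hm1 a').eq_or_lt with h0 | hpos2
  · rw [cs_stage_zero (fun t => h1 (a', t)) h0.symm, mul_zero]
    exact mul_nonneg (hm1 _) hf4
  have hmm := hm a a'
  have hj : 0 < ∑ t, w (a ⊔ a', t) := by
    rcases (hm1 (a ⊔ a')).eq_or_lt with h0 | h
    · rw [← h0, mul_zero] at hmm
      exact absurd hmm (not_le.2 (mul_pos hpos1 hpos2))
    · exact h
  have hst1 := cs_stage_fib (u₁ := fun t => w (a, t)) (u₂ := fun t => w (a ⊔ a', t))
    (φ₁ := fun t => F (a, t)) (φ₂ := fun t => F (a ⊔ a', t)) (fun t => h1 _) (fun t => h1 _)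
    (fun t => hF0 _) (fun t t' => hF (Prod.mk_le_mk.2 ⟨le_sup_left, le_sup_left⟩))
    (hf a (a ⊔ a') le_sup_left)
  have hst2 := cs_stage_fib (u₁ := fun t => w (a', t)) (u₂ := fun t => w (a ⊔ a', t))
    (φ₁ := fun t => G (a', t)) (φ₂ := fun t => G (a ⊔ a', t)) (fun t => h1 _) (fun t => h1 _)
    (fun t => hG0 _) (fun t t' => hG (Prod.mk_le_mk.2 ⟨le_sup_right, le_sup_left⟩))
    (hf a' (a ⊔ a') le_sup_right)
  have hst3 := fkg (μ := fun t => w (a ⊔ a', t)) (f := fun t => F (a ⊔ a', t))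
    (g := fun t => G (a ⊔ a', t)) (fun t => h1 _) (fun t => hF0 _) (fun t => hG0 _)
    (fun t t' htt => hF (Prod.mk_le_mk.2 ⟨le_rfl, htt⟩))
    (fun t t' htt => hG (Prod.mk_le_mk.2 ⟨le_rfl, htt⟩)) (hf (a ⊔ a') (a ⊔ a') le_rfl)
  set mj := ∑ t, w (a ⊔ a', t) with hmj
  set mi := ∑ t, w (a ⊓ a', t) with hmi
  set ma := ∑ t, w (a, t) with hma
  set ma' := ∑ t, w (a', t) with hma'
  set fa := ∑ t, w (a, t) * F (a, t) with hfa
  set ga := ∑ t, w (a', t) * G (a', t) with hga
  set fj := ∑ t, w (a ⊔ a', t) * F (a ⊔ a', t) with hfj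
  set gj := ∑ t, w (a ⊔ a', t) * G (a ⊔ a', t) with hgj
  set pj := ∑ t, w (a ⊔ a', t) * (F (a ⊔ a', t) * G (a ⊔ a', t)) with hpj
  have hfj0 : 0 ≤ fj := hfF _
  have hgj0 : 0 ≤ gj := hfG _
  have hfa0 : 0 ≤ fa := hfF _
  have hga0 : 0 ≤ ga := hfG _
  refine le_of_mul_le_mul_right ?_ (mul_pos hj hj)
  calc fa * ga * (mj * mj) = (fa * mj) * (ga * mj) := by ring
    _ ≤ (ma * fj) * (ma' * gj) :=
        mul_le_mul hst1 hst2 (mul_nonneg hga0 hj.le) (mul_nonneg hpos1.le hfj0)
    _ = (ma * ma') * (fj * gj) := by ring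
    _ ≤ (mi * mj) * (mj * pj) :=
        mul_le_mul hmm hst3 (mul_nonneg hfj0 hgj0) (mul_nonneg (hm1 _) hj.le)
    _ = mi * pj * (mj * mj) := by ring

/-- two-stage FKG. -/
theorem cs_stage_fkg {w F G : α × β → ℝ} (h1 : ∀ p, 0 ≤ w p)
    (hm : ∀ a a', (∑ t, w (a, t)) * (∑ t, w (a', t)) ≤ (∑ t, w (a ⊓ a', t)) * ∑ t, w (a ⊔ a', t))
    (hf : ∀ a a', a ≤ a' → ∀ t t', w (a, t) * w (a', t') ≤ w (a, t ⊓ t') * w (a', t ⊔ t'))
    (hF : Monotone F) (hG : Monotone G) :
    (∑ p, w p * F p) * ∑ p, w p * G p ≤ (∑ p, w p) * ∑ p, w p * (F p * G p) := by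
  obtain ⟨c, hc⟩ := isz_exists_shift F
  obtain ⟨d, hd⟩ := isz_exists_shift G
  have key := cs_stage_fkg_nn (F := fun p => F p + c) (G := fun p => G p + d) h1 hm hf
    (fun p p' hpp => by have := hF hpp; simp only; linarith)
    (fun p p' hpp => by have := hG hpp; simp only; linarith) hc hd
  have e1 : ∑ a, w a * (F a + c) = (∑ a, w a * F a) + (∑ a, w a) * c := by
    simp only [mul_add, Finset.sum_add_distrib, ← Finset.sum_mul]
  have e2 : ∑ a, w a * (G a + d) = (∑ a, w a * G a) + (∑ a, w a) * d := by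
    simp only [mul_add, Finset.sum_add_distrib, ← Finset.sum_mul]
  have e3 : ∑ a, w a * ((F a + c) * (G a + d)) = (∑ a, w a * (F a * G a))
      + (∑ a, w a * F a) * d + (∑ a, w a * G a) * c + (∑ a, w a) * (c * d) := by
    simp only [Finset.sum_mul, ← Finset.sum_add_distrib]
    refine Finset.sum_congr rfl fun a _ => ?_
    ring
  rw [e1, e2, e3] at key
  nlinarith [key]

end Stage

variable {V ι Y : Type*} [Fintype V] [DecidableEq V] [Fintype ι] [DecidableEq ι] [Fintype Y]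
  [DecidableEq Y]

/-! ## P2: wall factorisation -/

theorem cs_bool_tri : ∀ x1 x2 x3 y1 y2 y3 : Bool, (x1 ≠ x2 → y1 = y2) → (x2 ≠ x3 → y2 = y3) →
    (x3 ≠ x1 → y3 = y1) →
    xor (xor (xor x1 x2 && y1) (xor x2 x3 && y2)) (xor x3 x1 && y3) = false := by decide

theorem cs_bool_swap : ∀ x1 x2 y1 y2 : Bool, (x2 ≠ x1 → y2 = y1) →
    (xor x2 x1 && y2) = (xor x1 x2 && y1) ∧ (x1 ≠ x2 → y1 = y2) := by decide

/-- mod 2 simple connectivity gives the splitting property at every `b`. -/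
theorem cs_split_of_SC (C : CellSys V ι Y) (hSC : C.SC) (b : V → Bool) : C.Split b := by
  intro W hW
  have hn : ∀ e p q, ((C.s e = p ∧ C.t e = q) ∨ (C.s e = q ∧ C.t e = p)) →
      (xor (W (C.s e)) (W (C.t e)) && b (C.s e)) = (xor (W p) (W q) && b p)
        ∧ (W p ≠ W q → b p = b q) := by
    intro e p q h
    rcases h with ⟨h1, h2⟩ | ⟨h1, h2⟩
    · have := hW e
      rw [h1, h2] at this ⊢
      exact ⟨rfl, this⟩
    · have := hW e
      rw [h1, h2] at this ⊢
      exact cs_bool_swap _ _ _ _ this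
  obtain ⟨σ, hσ⟩ := hSC (fun e => xor (W (C.s e)) (W (C.t e)) && b (C.s e)) (by
    rintro e₁ e₂ e₃ ⟨u, v, w, h1, h2, h3⟩
    obtain ⟨a1, b1⟩ := hn e₁ u v h1
    obtain ⟨a2, b2⟩ := hn e₂ v w h2
    obtain ⟨a3, b3⟩ := hn e₃ w u h3
    simp only [a1, a2, a3]
    exact cs_bool_tri _ _ _ _ _ _ b1 b2 b3)
  refine ⟨σ, fun e => ?_⟩
  have h := hσ e
  revert h
  generalize σ (C.s e) = a1
  generalize σ (C.t e) = a2
  generalize W (C.s e) = a3
  generalize W (C.t e) = a4
  generalize b (C.s e) = a5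
  revert a1 a2 a3 a4 a5
  decide

theorem cs_K_pos (C : CellSys V ι Y) : 0 < (iszN Bool C.s C.t univ : ℝ) := by
  have : 0 < iszN Bool C.s C.t univ := by
    unfold iszN
    refine Finset.card_pos.2 ⟨fun _ => true, ?_⟩
    simp
  exact_mod_cast this

/-- pointwise product of two spin configurations. -/
def csX (σ σ' : V → Bool) : V → Bool := fun v => xor (σ v) (σ' v)

theorem cs_X_invol (σ' : V → Bool) : Function.Involutive (fun σ : V → Bool => csX σ σ') := by
  intro σ
  funext v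
  simp [csX]

theorem cs_X_eq_iff (σ σ' : V → Bool) (u v : V) :
    csX σ σ' u = csX σ σ' v ↔ (σ u = σ v ↔ σ' u = σ' v) := by
  unfold csX
  generalize σ u = a1
  generalize σ v = a2
  generalize σ' u = a3
  generalize σ' v = a4
  revert a1 a2 a3 a4
  decide

/-- the number of configurations with the walls of `σ₁`. -/
theorem cs_card_walls (C : CellSys V ι Y) (σ₁ : V → Bool) :
    (univ.filter fun σ : V → Bool => ∀ e, (σ (C.s e) = σ (C.t e) ↔ σ₁ (C.s e) = σ₁ (C.t e))).card
      = iszN Bool C.s C.t univ := by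
  unfold iszN
  refine Finset.card_equiv (cs_X_invol σ₁).toPerm ?_
  intro σ
  simp only [Finset.mem_filter, Finset.mem_univ, true_and, Function.Involutive.coe_toPerm,
    cs_X_eq_iff, forall_true_left]

theorem cs_wall_fiber (C : CellSys V ι Y) {b : V → Bool} (hSp : C.Split b) {ap am : ι → ℝ}
    (hp : ∀ e, ap e ≠ 0 → b (C.s e) = true ∧ b (C.t e) = true)
    (hm : ∀ e, am e ≠ 0 → b (C.s e) = false ∧ b (C.t e) = false) (W : V → Bool) :
    ∑ σ : V → Bool, (∏ e, (if csX W σ (C.s e) = csX W σ (C.t e) then 1 else ap e))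
        * ∏ e, (if σ (C.s e) = σ (C.t e) then 1 else am e)
      = (iszN Bool C.s C.t univ : ℝ) * ∏ e, (if W (C.s e) = W (C.t e) then 1 else ap e + am e) := by
  classical
  by_cases hA : ∃ e, W (C.s e) ≠ W (C.t e) ∧ ap e = 0 ∧ am e = 0
  · obtain ⟨e, hWe, hpe, hme⟩ := hA
    have hR : ∏ e, (if W (C.s e) = W (C.t e) then 1 else ap e + am e) = 0 := by
      refine Finset.prod_eq_zero (Finset.mem_univ e) ?_
      rw [if_neg hWe, hpe, hme, add_zero]
    rw [hR, mul_zero]
    refine Finset.sum_eq_zero fun σ _ => ?_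
    by_cases hσ : σ (C.s e) = σ (C.t e)
    · have : ∏ e, (if csX W σ (C.s e) = csX W σ (C.t e) then 1 else ap e) = 0 := by
        refine Finset.prod_eq_zero (Finset.mem_univ e) ?_
        rw [if_neg, hpe]
        rw [cs_X_eq_iff]
        intro h
        exact hWe (h.2 hσ)
      rw [this, zero_mul]
    · have : ∏ e, (if σ (C.s e) = σ (C.t e) then 1 else am e) = 0 := by
        refine Finset.prod_eq_zero (Finset.mem_univ e) ?_
        rw [if_neg hσ, hme]
      rw [this, mul_zero]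
  · push Not at hA
    have hWb : ∀ e, W (C.s e) ≠ W (C.t e) → b (C.s e) = b (C.t e) := by
      intro e he
      by_cases h1 : ap e = 0
      · have h2 := hm e (hA e he h1)
        rw [h2.1, h2.2]
      · have h2 := hp e h1
        rw [h2.1, h2.2]
    obtain ⟨σ₀, hσ₀⟩ := hSp W hWb
    set σ₁ := csX W σ₀ with hσ₁
    -- walls of σ₁
    have hD1 : ∀ e, σ₁ (C.s e) = σ₁ (C.t e) ↔ ¬ (W (C.s e) ≠ W (C.t e) ∧ b (C.s e) = false) := by
      intro e
      rw [hσ₁, cs_X_eq_iff]
      have h := hσ₀ e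
      revert h
      generalize σ₀ (C.s e) = a1
      generalize σ₀ (C.t e) = a2
      generalize W (C.s e) = a3
      generalize W (C.t e) = a4
      generalize b (C.s e) = a5
      revert a1 a2 a3 a4 a5
      decide
    have hterm : ∀ σ : V → Bool,
        (∏ e, (if csX W σ (C.s e) = csX W σ (C.t e) then 1 else ap e))
          * ∏ e, (if σ (C.s e) = σ (C.t e) then 1 else am e)
        = if (∀ e, (σ (C.s e) = σ (C.t e) ↔ σ₁ (C.s e) = σ₁ (C.t e))) then
            ∏ e, (if W (C.s e) = W (C.t e) then 1 else ap e + am e) else 0 := by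
      intro σ
      by_cases hσ : ∀ e, (σ (C.s e) = σ (C.t e) ↔ σ₁ (C.s e) = σ₁ (C.t e))
      · rw [if_pos hσ, ← Finset.prod_mul_distrib]
        refine Finset.prod_congr rfl fun e _ => ?_
        have h1 := hσ e
        rw [hD1 e] at h1
        by_cases hWe : W (C.s e) = W (C.t e)
        · have h2 : σ (C.s e) = σ (C.t e) := h1.2 (fun h => h.1 hWe)
          have h3 : csX W σ (C.s e) = csX W σ (C.t e) := by
            rw [cs_X_eq_iff]; exact ⟨fun _ => h2, fun _ => hWe⟩
          rw [if_pos hWe, if_pos h2, if_pos h3, one_mul]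
        · rw [if_neg hWe]
          cases hb : b (C.s e)
          · have h2 : ¬ σ (C.s e) = σ (C.t e) := fun h => (h1.1 h) ⟨hWe, hb⟩
            have h3 : csX W σ (C.s e) = csX W σ (C.t e) := by
              rw [cs_X_eq_iff]; exact ⟨fun h => absurd h hWe, fun h => absurd h h2⟩
            have h4 : ap e = 0 := by
              by_contra h
              rw [(hp e h).1] at hb
              exact absurd hb (by decide)
            rw [if_neg h2, if_pos h3, h4, one_mul, zero_add]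
          · have h2 : σ (C.s e) = σ (C.t e) := h1.2 (fun h => by rw [hb] at h; exact absurd h.2 (by decide))
            have h3 : ¬ csX W σ (C.s e) = csX W σ (C.t e) := by
              rw [cs_X_eq_iff]; exact fun h => hWe (h.2 h2)
            have h4 : am e = 0 := by
              by_contra h
              rw [(hm e h).1] at hb
              exact absurd hb (by decide)
            rw [if_pos h2, if_neg h3, h4, mul_one, add_zero]
      · rw [if_neg hσ]
        push Not at hσ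
        obtain ⟨e, he⟩ := hσ
        by_cases h2 : σ (C.s e) = σ (C.t e)
        · -- σ has no wall at e but σ₁ has
          have h5 : W (C.s e) ≠ W (C.t e) ∧ b (C.s e) = false := by
            rcases he with ⟨_, h⟩ | ⟨h, _⟩
            · exact not_not.1 (fun hh => h ((hD1 e).2 hh))
            · exact absurd h2 h
          have h3 : ¬ csX W σ (C.s e) = csX W σ (C.t e) := by
            rw [cs_X_eq_iff]; exact fun h => h5.1 (h.2 h2)
          have h4 : ap e = 0 := by
            by_contra h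
            have := (hp e h).1
            rw [h5.2] at this
            exact absurd this (by decide)
          have : ∏ e, (if csX W σ (C.s e) = csX W σ (C.t e) then 1 else ap e) = 0 := by
            refine Finset.prod_eq_zero (Finset.mem_univ e) ?_
            rw [if_neg h3, h4]
          rw [this, zero_mul]
        · have h5 : ¬ (W (C.s e) ≠ W (C.t e) ∧ b (C.s e) = false) := by
            rcases he with ⟨h, _⟩ | ⟨_, h⟩
            · exact absurd h h2
            · exact (hD1 e).1 h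
          by_cases h6 : am e = 0
          · have : ∏ e, (if σ (C.s e) = σ (C.t e) then 1 else am e) = 0 := by
              refine Finset.prod_eq_zero (Finset.mem_univ e) ?_
              rw [if_neg h2, h6]
            rw [this, mul_zero]
          · have h7 := (hm e h6).1
            have h8 : W (C.s e) = W (C.t e) := by
              by_contra h
              exact h5 ⟨h, h7⟩
            have h3 : ¬ csX W σ (C.s e) = csX W σ (C.t e) := by
              rw [cs_X_eq_iff]; exact fun h => h2 (h.1 h8)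
            have h4 : ap e = 0 := by
              by_contra h
              have := (hp e h).1
              rw [h7] at this
              exact absurd this (by decide)
            have : ∏ e, (if csX W σ (C.s e) = csX W σ (C.t e) then 1 else ap e) = 0 := by
              refine Finset.prod_eq_zero (Finset.mem_univ e) ?_
              rw [if_neg h3, h4]
            rw [this, zero_mul]
    simp_rw [hterm]
    rw [← Finset.sum_filter, Finset.sum_const, nsmul_eq_mul]
    congr 2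
    convert cs_card_walls C σ₁

/-- **wall factorisation**. `K = iszN Bool C.s C.t univ` = number of locally constant spin configurations (`2` on a connected
graph). -/
theorem cs_wall_factor (C : CellSys V ι Y) {b : V → Bool} (hSp : C.Split b) {ap am : ι → ℝ}
    (hp : ∀ e, ap e ≠ 0 → b (C.s e) = true ∧ b (C.t e) = true)
    (hm : ∀ e, am e ≠ 0 → b (C.s e) = false ∧ b (C.t e) = false) :
    iszZ Bool C.s C.t ap * iszZ Bool C.s C.t am
      = (iszN Bool C.s C.t univ : ℝ) * iszZ Bool C.s C.t (fun e => ap e + am e) := by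
  unfold iszZ
  rw [Finset.sum_mul_sum, Finset.sum_comm, Finset.mul_sum]
  have h1 : ∀ σ : V → Bool, ∑ σp : V → Bool,
      (∏ e, (if σp (C.s e) = σp (C.t e) then 1 else ap e))
        * ∏ e, (if σ (C.s e) = σ (C.t e) then 1 else am e)
      = ∑ W : V → Bool, (∏ e, (if csX W σ (C.s e) = csX W σ (C.t e) then 1 else ap e))
        * ∏ e, (if σ (C.s e) = σ (C.t e) then 1 else am e) := by
    intro σ
    exact (Equiv.sum_comp (cs_X_invol σ).toPerm (fun σp : V → Bool =>
      (∏ e, (if σp (C.s e) = σp (C.t e) then 1 else ap e))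
        * ∏ e, (if σ (C.s e) = σ (C.t e) then 1 else am e))).symm
  simp_rw [h1]
  rw [Finset.sum_comm]
  exact Finset.sum_congr rfl fun W _ => cs_wall_fiber C hSp hp hm W

/-! ## the factorised weights -/

namespace CellSys
variable (C : CellSys V ι Y)

open Classical in
/-- allowed wall edges of the open plus cells. -/
noncomputable def op (h : CsHist V ι Y) (b : V → Bool) (τ : Y → SignType) (e : ι) : ℝ :=
  if e ∉ h.E0 ∧ τ (C.cell e) = 1 ∧ C.Hom b (C.cell e) true then 1 else 0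

open Classical in
/-- allowed wall edges of the open minus cells. -/
noncomputable def om (h : CsHist V ι Y) (b : V → Bool) (τ : Y → SignType) (e : ι) : ℝ :=
  if e ∉ h.E0 ∧ τ (C.cell e) = -1 ∧ C.Hom b (C.cell e) false then 1 else 0

open Classical in
/-- factorised weight of `(B, τ)`; equals `K * wt`. -/
noncomputable def wf (h : CsHist V ι Y) (ω : CsOm V Y) : ℝ :=
  if h.OkB ω.1 ∧ h.OkT ω.2 then
    (∏ y, C.kf ω.1 y (ω.2 y)) * iszZ Bool C.s C.t (C.op h ω.1 ω.2)
      * iszZ Bool C.s C.t (C.om h ω.1 ω.2)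
  else 0

open Classical in
/-- cell factor of the first-spin marginal: `r_y(b)` on an unobserved cell, the table constant on an observed one. -/
noncomputable def rf (h : CsHist V ι Y) (b : V → Bool) (y : Y) : ℝ :=
  match h.pT y with
  | none => if C.Cst b y then 1 else C.q y
  | some θ => C.kf b y θ

open Classical in
/-- `a_h^+(b)`. -/
noncomputable def ap (h : CsHist V ι Y) (b : V → Bool) (e : ι) : ℝ :=
  if e ∉ h.E0 ∧ C.Hom b (C.cell e) true then
    (match h.pT (C.cell e) with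
    | none => C.xe e
    | some θ => if θ = 1 then 1 else 0)
  else 0

open Classical in
/-- `a_h^-(b)`. -/
noncomputable def am (h : CsHist V ι Y) (b : V → Bool) (e : ι) : ℝ :=
  if e ∉ h.E0 ∧ C.Hom b (C.cell e) false then
    (match h.pT (C.cell e) with
    | none => C.xe e
    | some θ => if θ = -1 then 1 else 0)
  else 0

open Classical in
/-- **formula (2.5)** (times `K`): first-spin marginal weight. -/
noncomputable def mf (h : CsHist V ι Y) (b : V → Bool) : ℝ :=
  if h.OkB b then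
    (∏ y, C.rf h b y) * iszZ Bool C.s C.t (C.ap h b) * iszZ Bool C.s C.t (C.am h b)
  else 0

end CellSys

variable (C : CellSys V ι Y)

/-! ## P3, P4 -/


theorem cs_sign_cases : ∀ θ : SignType, θ = 0 ∨ θ = -1 ∨ θ = 1 := by decide

theorem cs_kf_nonneg (hC : C.Ok) (B : V → Bool) (y : Y) (θ : SignType) : 0 ≤ C.kf B y θ := by
  unfold CellSys.kf
  have h0 := hC.q0 y
  have h1 := hC.q1 y
  split_ifs <;> linarith

theorem cs_cw_nonneg (hC : C.Ok) (B W : V → Bool) (y : Y) (θ : SignType) : 0 ≤ C.cw B W y θ := by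
  unfold CellSys.cw
  refine mul_nonneg (cs_kf_nonneg C hC B y θ) ?_
  split_ifs <;> norm_num

theorem cs_jw_nonneg (hC : C.Ok) (B W : V → Bool) (τ : Y → SignType) : 0 ≤ C.jw B W τ :=
  Finset.prod_nonneg fun y _ => cs_cw_nonneg C hC B W y (τ y)

theorem cs_wt_nonneg (hC : C.Ok) (h : CsHist V ι Y) (ω : CsOm V Y) : 0 ≤ C.wt h ω := by
  unfold CellSys.wt
  split_ifs
  · refine Finset.sum_nonneg fun W _ => ?_
    split_ifs
    · exact cs_jw_nonneg C hC _ _ _
    · exact le_rfl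
  · exact le_rfl

theorem cs_op_nonneg (h : CsHist V ι Y) (b : V → Bool) (τ : Y → SignType) (e : ι) :
    0 ≤ C.op h b τ e := by
  unfold CellSys.op; split_ifs <;> norm_num

theorem cs_op_le_one (h : CsHist V ι Y) (b : V → Bool) (τ : Y → SignType) (e : ι) :
    C.op h b τ e ≤ 1 := by
  unfold CellSys.op; split_ifs <;> norm_num

theorem cs_om_nonneg (h : CsHist V ι Y) (b : V → Bool) (τ : Y → SignType) (e : ι) :
    0 ≤ C.om h b τ e := by
  unfold CellSys.om; split_ifs <;> norm_num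

theorem cs_om_le_one (h : CsHist V ι Y) (b : V → Bool) (τ : Y → SignType) (e : ι) :
    C.om h b τ e ≤ 1 := by
  unfold CellSys.om; split_ifs <;> norm_num

theorem cs_wf_nonneg (hC : C.Ok) (h : CsHist V ι Y) (ω : CsOm V Y) : 0 ≤ C.wf h ω := by
  unfold CellSys.wf
  split_ifs
  · exact mul_nonneg (mul_nonneg (Finset.prod_nonneg fun y _ => cs_kf_nonneg C hC _ _ _)
      (isz_Z_nonneg _ _ (cs_op_nonneg C h _ _))) (isz_Z_nonneg _ _ (cs_om_nonneg C h _ _))
  · exact le_rfl

open Classical in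
/-- the second-spin sum at fixed `(B, τ)`. -/
theorem cs_wsum (h : CsHist V ι Y) (B : V → Bool) (τ : Y → SignType) :
    ∑ W : V → Bool, (if h.OkW C W then C.jw B W τ else 0)
      = (∏ y, C.kf B y (τ y))
        * iszZ Bool C.s C.t (fun e => if e ∉ h.E0 ∧ τ (C.cell e) ≠ 0 then 1 else 0) := by
  unfold iszZ
  rw [Finset.mul_sum]
  refine Finset.sum_congr rfl fun W _ => ?_
  have h1 : C.jw B W τ = (∏ y, C.kf B y (τ y)) * ∏ y, (if τ y = 0 → C.Cst W y then (1:ℝ) else 0) := by
    unfold CellSys.jw CellSys.cw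
    rw [Finset.prod_mul_distrib]
  have h2 : ∏ y, (if τ y = 0 → C.Cst W y then (1:ℝ) else 0)
      = if ∀ y, τ y = 0 → C.Cst W y then 1 else 0 := by
    rw [Finset.prod_ite_zero]
    simp
  have h3 : ∏ e, (if W (C.s e) = W (C.t e) then (1:ℝ)
        else (if e ∉ h.E0 ∧ τ (C.cell e) ≠ 0 then 1 else 0))
      = if ∀ e, (W (C.s e) = W (C.t e) ∨ (e ∉ h.E0 ∧ τ (C.cell e) ≠ 0)) then 1 else 0 := by
    have : ∀ e, (if W (C.s e) = W (C.t e) then (1:ℝ)
        else (if e ∉ h.E0 ∧ τ (C.cell e) ≠ 0 then 1 else 0))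
        = if (W (C.s e) = W (C.t e) ∨ (e ∉ h.E0 ∧ τ (C.cell e) ≠ 0)) then 1 else 0 := by
      intro e
      by_cases ha : W (C.s e) = W (C.t e)
      · rw [if_pos ha, if_pos (Or.inl ha)]
      · rw [if_neg ha]
        by_cases hb : e ∉ h.E0 ∧ τ (C.cell e) ≠ 0
        · rw [if_pos hb, if_pos (Or.inr hb)]
        · rw [if_neg hb, if_neg (fun hh => hh.elim ha hb)]
    simp_rw [this]
    rw [Finset.prod_ite_zero]
    simp
  rw [h1, h2, h3]
  by_cases hQ : ∀ e, (W (C.s e) = W (C.t e) ∨ (e ∉ h.E0 ∧ τ (C.cell e) ≠ 0))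
  · have hW : h.OkW C W := by
      intro e he
      rcases hQ e with h' | h'
      · exact h'
      · exact absurd he h'.1
    have hT : ∀ y, τ y = 0 → C.Cst W y := by
      intro y hy e he
      rcases hQ e with h' | h'
      · exact h'
      · rw [he] at h'
        exact absurd hy h'.2
    rw [if_pos hQ, if_pos hW, if_pos hT]
  · rw [if_neg hQ, mul_zero]
    by_cases hW : h.OkW C W
    · rw [if_pos hW, if_neg, mul_zero]
      intro hT
      apply hQ
      intro e
      by_cases ha : W (C.s e) = W (C.t e)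
      · exact Or.inl ha
      · refine Or.inr ⟨fun he => ha (hW e he), fun h0 => ha (hT _ h0 e rfl)⟩
    · rw [if_neg hW]

theorem cs_kf_one_ne (B : V → Bool) (y : Y) (hk : C.kf B y 1 ≠ 0) : C.Hom B y true := by
  unfold CellSys.kf at hk
  rw [if_pos rfl] at hk
  by_contra h
  rw [if_neg h] at hk
  exact hk rfl

theorem cs_kf_neg_ne (B : V → Bool) (y : Y) (hk : C.kf B y (-1) ≠ 0) : C.Hom B y false := by
  unfold CellSys.kf at hk
  rw [if_neg (by decide), if_pos rfl] at hk
  by_contra h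
  rw [if_neg h] at hk
  exact hk rfl

/-- P3. -/
theorem cs_wf_eq (hC : C.Ok) (h : CsHist V ι Y) (hSp : ∀ b, h.OkB b → C.Split b) (ω : CsOm V Y) :
    C.wf h ω = (iszN Bool C.s C.t univ : ℝ) * C.wt h ω := by
  classical
  obtain ⟨B, τ⟩ := ω
  unfold CellSys.wf CellSys.wt
  by_cases hok : h.OkB B ∧ h.OkT τ
  · simp only [if_pos hok]
    rw [cs_wsum]
    by_cases hk : ∏ y, C.kf B y (τ y) = 0
    · rw [hk]; ring
    · have hk' : ∀ y, C.kf B y (τ y) ≠ 0 := fun y => (Finset.prod_ne_zero_iff.1 hk) y (Finset.mem_univ y)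
      have hwf := cs_wall_factor C (hSp B hok.1) (ap := C.op h B τ) (am := C.om h B τ)
        (fun e he => by
          unfold CellSys.op at he
          by_cases hc : e ∉ h.E0 ∧ τ (C.cell e) = 1 ∧ C.Hom B (C.cell e) true
          · exact hc.2.2 e rfl
          · rw [if_neg hc] at he; exact absurd rfl he)
        (fun e he => by
          unfold CellSys.om at he
          by_cases hc : e ∉ h.E0 ∧ τ (C.cell e) = -1 ∧ C.Hom B (C.cell e) false
          · exact hc.2.2 e rfl
          · rw [if_neg hc] at he; exact absurd rfl he)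
      have hov : (fun e => C.op h B τ e + C.om h B τ e)
          = fun e => if e ∉ h.E0 ∧ τ (C.cell e) ≠ 0 then (1:ℝ) else 0 := by
        funext e
        unfold CellSys.op CellSys.om
        have hke := hk' (C.cell e)
        by_cases he : e ∈ h.E0
        · simp [he]
        · rcases cs_sign_cases (τ (C.cell e)) with h0 | h0 | h0
          · simp [he, h0]
          · rw [h0] at hke
            have := cs_kf_neg_ne C B _ hke
            simp [he, h0, this]
          · rw [h0] at hke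
            have := cs_kf_one_ne C B _ hke
            simp [he, h0, this]
      rw [hov] at hwf
      rw [mul_assoc, hwf]
      ring
  · simp only [if_neg hok, mul_zero]


theorem cs_sum_sign (f : SignType → ℝ) : ∑ θ, f θ = f 0 + f (-1) + f 1 := by
  rw [show (univ : Finset SignType) = {0, -1, 1} from by decide]
  rw [Finset.sum_insert (by decide), Finset.sum_insert (by decide), Finset.sum_singleton]
  ring

open Classical in
theorem cs_prod_cell_zero (W : V → Bool) (y : Y) :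
    ∏ e ∈ univ.filter (fun e => C.cell e = y), (if W (C.s e) = W (C.t e) then (1:ℝ) else 0)
      = if C.Cst W y then 1 else 0 := by
  rw [Finset.prod_ite_zero]
  have : (∀ e ∈ univ.filter (fun e => C.cell e = y), W (C.s e) = W (C.t e)) ↔ C.Cst W y := by
    simp [CellSys.Cst]
  simp only [this, Finset.prod_const_one]

open Classical in
theorem cs_prod_cell_xe (hC : C.Ok) (W : V → Bool) (y : Y) :
    ∏ e ∈ univ.filter (fun e => C.cell e = y), (if W (C.s e) = W (C.t e) then (1:ℝ) else C.xe e)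
      = if C.Cst W y then 1 else C.q y := by
  by_cases h : C.Cst W y
  · rw [if_pos h]
    refine Finset.prod_eq_one fun e he => ?_
    rw [if_pos (h e (Finset.mem_filter.1 he).2)]
  · rw [if_neg h]
    exact hC.wall W y h

theorem cs_prod_cell_one (W : V → Bool) (y : Y) :
    ∏ e ∈ univ.filter (fun e => C.cell e = y), (if W (C.s e) = W (C.t e) then (1:ℝ) else 1) = 1 := by
  refine Finset.prod_eq_one fun e _ => ?_
  split_ifs <;> rfl

open Classical in
/-- wall parameter of an edge before the equality edges are deleted. -/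
noncomputable def CellSys.a0 (h : CsHist V ι Y) (b : V → Bool) (e : ι) : ℝ :=
  (if C.Hom b (C.cell e) true then
    (match h.pT (C.cell e) with
    | none => C.xe e
    | some θ => if θ = 1 then 1 else 0) else 0)
  + (if C.Hom b (C.cell e) false then
    (match h.pT (C.cell e) with
    | none => C.xe e
    | some θ => if θ = -1 then 1 else 0) else 0)

theorem cs_ap_add_am (h : CsHist V ι Y) (b : V → Bool) (e : ι) :
    C.ap h b e + C.am h b e = if e ∈ h.E0 then 0 else C.a0 h b e := by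
  classical
  unfold CellSys.ap CellSys.am CellSys.a0
  by_cases he : e ∈ h.E0
  · simp [he]
  · by_cases hT : C.Hom b (C.cell e) true <;> by_cases hF : C.Hom b (C.cell e) false <;>
      cases h.pT (C.cell e) <;> simp [he, hT, hF]

theorem cs_hom_cst {b : V → Bool} {y : Y} {β : Bool} (h : C.Hom b y β) : C.Cst b y := by
  intro e he
  rw [(h e he).1, (h e he).2]

theorem cs_hom_excl {b : V → Bool} {y : Y} (hne : ∃ e, C.cell e = y) (h : C.Hom b y true) :
    ¬ C.Hom b y false := by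
  obtain ⟨e, he⟩ := hne
  intro h'
  have h1 := (h e he).1
  rw [(h' e he).1] at h1
  exact absurd h1 (by decide)

open Classical in
/-- the status sum of one cell. -/
theorem cs_status_sum (hC : C.Ok) (h : CsHist V ι Y) (b W : V → Bool) (y : Y) :
    ∑ θ' : SignType, (if (∀ θ, h.pT y = some θ → θ' = θ) then C.cw b W y θ' else 0)
      = C.rf h b y * ∏ e ∈ univ.filter (fun e => C.cell e = y),
          (if W (C.s e) = W (C.t e) then 1 else C.a0 h b e) := by
  rcases hpT : h.pT y with _ | θ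
  · -- unobserved cell
    have hrf : C.rf h b y = if C.Cst b y then 1 else C.q y := by
      unfold CellSys.rf; rw [hpT]
    have ha0 : ∀ e ∈ univ.filter (fun e => C.cell e = y), C.a0 h b e
        = (if C.Hom b y true then C.xe e else 0) + (if C.Hom b y false then C.xe e else 0) := by
      intro e he
      have hy := (Finset.mem_filter.1 he).2
      unfold CellSys.a0
      rw [hy, hpT]
    have hsum : ∑ θ' : SignType, (if (∀ θ, (none : Option SignType) = some θ → θ' = θ)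
        then C.cw b W y θ' else 0) = C.cw b W y 0 + C.cw b W y (-1) + C.cw b W y 1 := by
      rw [cs_sum_sign]
      simp
    rw [hsum, hrf]
    have hc0 : C.cw b W y 0 = (if C.Cst b y then 1 - C.q y else C.q y)
        * (if C.Cst W y then 1 else 0) := by
      unfold CellSys.cw CellSys.kf
      simp
    have hc1 : C.cw b W y 1 = if C.Hom b y true then C.q y else 0 := by
      unfold CellSys.cw CellSys.kf
      simp
    have hc2 : C.cw b W y (-1) = if C.Hom b y false then C.q y else 0 := by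
      unfold CellSys.cw CellSys.kf
      simp
    rw [hc0, hc1, hc2]
    rcases hC.ne y with hne | hq
    · by_cases hT : C.Hom b y true
      · have hF := cs_hom_excl C hne hT
        have hc := cs_hom_cst C hT
        have hprod : ∏ e ∈ univ.filter (fun e => C.cell e = y),
            (if W (C.s e) = W (C.t e) then 1 else C.a0 h b e) = if C.Cst W y then 1 else C.q y := by
          rw [← cs_prod_cell_xe C hC W y]
          refine Finset.prod_congr rfl fun e he => ?_
          rw [ha0 e he, if_pos hT, if_neg hF, add_zero]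
        rw [hprod, if_pos hc, if_pos hc, if_pos hT, if_neg hF]
        by_cases hW : C.Cst W y
        · rw [if_pos hW, if_pos hW]; ring
        · rw [if_neg hW, if_neg hW]; ring
      · by_cases hF : C.Hom b y false
        · have hc := cs_hom_cst C hF
          have hprod : ∏ e ∈ univ.filter (fun e => C.cell e = y),
              (if W (C.s e) = W (C.t e) then 1 else C.a0 h b e)
              = if C.Cst W y then 1 else C.q y := by
            rw [← cs_prod_cell_xe C hC W y]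
            refine Finset.prod_congr rfl fun e he => ?_
            rw [ha0 e he, if_neg hT, if_pos hF, zero_add]
          rw [hprod, if_pos hc, if_pos hc, if_neg hT, if_pos hF]
          by_cases hW : C.Cst W y
          · rw [if_pos hW, if_pos hW]; ring
          · rw [if_neg hW, if_neg hW]; ring
        · have hc : ¬ C.Cst b y := fun hc => (hC.conn b y hc).elim hT hF
          have hprod : ∏ e ∈ univ.filter (fun e => C.cell e = y),
              (if W (C.s e) = W (C.t e) then 1 else C.a0 h b e) = if C.Cst W y then 1 else 0 := by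
            rw [← cs_prod_cell_zero C W y]
            refine Finset.prod_congr rfl fun e he => ?_
            rw [ha0 e he, if_neg hT, if_neg hF, add_zero]
          rw [hprod, if_neg hc, if_neg hc, if_neg hT, if_neg hF]
          ring
    · by_cases hne : ∃ e, C.cell e = y
      · -- same computation with q = 0; redo generically
        by_cases hT : C.Hom b y true
        · have hF := cs_hom_excl C hne hT
          have hc := cs_hom_cst C hT
          have hprod : ∏ e ∈ univ.filter (fun e => C.cell e = y),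
              (if W (C.s e) = W (C.t e) then 1 else C.a0 h b e)
              = if C.Cst W y then 1 else C.q y := by
            rw [← cs_prod_cell_xe C hC W y]
            refine Finset.prod_congr rfl fun e he => ?_
            rw [ha0 e he, if_pos hT, if_neg hF, add_zero]
          rw [hprod, if_pos hc, if_pos hc, if_pos hT, if_neg hF]
          by_cases hW : C.Cst W y
          · rw [if_pos hW, if_pos hW]; ring
          · rw [if_neg hW, if_neg hW]; ring
        · by_cases hF : C.Hom b y false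
          · have hc := cs_hom_cst C hF
            have hprod : ∏ e ∈ univ.filter (fun e => C.cell e = y),
                (if W (C.s e) = W (C.t e) then 1 else C.a0 h b e)
                = if C.Cst W y then 1 else C.q y := by
              rw [← cs_prod_cell_xe C hC W y]
              refine Finset.prod_congr rfl fun e he => ?_
              rw [ha0 e he, if_neg hT, if_pos hF, zero_add]
            rw [hprod, if_pos hc, if_pos hc, if_neg hT, if_pos hF]
            by_cases hW : C.Cst W y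
            · rw [if_pos hW, if_pos hW]; ring
            · rw [if_neg hW, if_neg hW]; ring
          · have hc : ¬ C.Cst b y := fun hc => (hC.conn b y hc).elim hT hF
            have hprod : ∏ e ∈ univ.filter (fun e => C.cell e = y),
                (if W (C.s e) = W (C.t e) then 1 else C.a0 h b e)
                = if C.Cst W y then 1 else 0 := by
              rw [← cs_prod_cell_zero C W y]
              refine Finset.prod_congr rfl fun e he => ?_
              rw [ha0 e he, if_neg hT, if_neg hF, add_zero]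
            rw [hprod, if_neg hc, if_neg hc, if_neg hT, if_neg hF]
            ring
      · -- dummy cell
        push Not at hne
        have hc : C.Cst b y := fun e he => absurd he (hne e)
        have hW : C.Cst W y := fun e he => absurd he (hne e)
        have hemp : univ.filter (fun e => C.cell e = y) = ∅ := by
          refine Finset.filter_eq_empty_iff.2 fun e _ => hne e
        rw [hemp, Finset.prod_empty, if_pos hc, if_pos hc, if_pos hW, hq]
        simp
  · -- observed cell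
    have hrf : C.rf h b y = C.kf b y θ := by
      unfold CellSys.rf; rw [hpT]
    have ha0 : ∀ e ∈ univ.filter (fun e => C.cell e = y), C.a0 h b e
        = (if C.Hom b y true then (if θ = 1 then 1 else 0) else 0)
          + (if C.Hom b y false then (if θ = -1 then 1 else 0) else 0) := by
      intro e he
      have hy := (Finset.mem_filter.1 he).2
      unfold CellSys.a0
      rw [hy, hpT]
    have hsum : ∑ θ' : SignType, (if (∀ θ₁, some θ = some θ₁ → θ' = θ₁)
        then C.cw b W y θ' else 0) = C.cw b W y θ := by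
      have : ∀ θ' : SignType, (∀ θ₁, some θ = some θ₁ → θ' = θ₁) ↔ θ' = θ := by
        intro θ'
        constructor
        · intro hh; exact hh θ rfl
        · intro hh θ₁ h1
          rw [hh]; exact Option.some.inj h1
      simp_rw [this]
      rw [Finset.sum_ite_eq' univ θ]
      simp
    rw [hsum, hrf]
    unfold CellSys.cw
    by_cases hk : C.kf b y θ = 0
    · rw [hk, zero_mul, zero_mul]
    congr 1
    rcases cs_sign_cases θ with h0 | h0 | h0
    · subst h0
      have e1 : (if (0:SignType) = 0 → C.Cst W y then (1:ℝ) else 0)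
          = if C.Cst W y then 1 else 0 := by
        by_cases hW : C.Cst W y
        · rw [if_pos (fun _ => hW), if_pos hW]
        · rw [if_neg (fun hh => hW (hh rfl)), if_neg hW]
      rw [e1, ← cs_prod_cell_zero C W y]
      refine Finset.prod_congr rfl fun e he => ?_
      rw [ha0 e he]
      simp
    · subst h0
      have hF := cs_kf_neg_ne C b y hk
      rw [if_pos (fun hh => absurd hh (by decide)), ← cs_prod_cell_one C W y]
      refine Finset.prod_congr rfl fun e he => ?_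
      rw [ha0 e he, if_pos hF]
      simp
    · subst h0
      have hT := cs_kf_one_ne C b y hk
      rw [if_pos (fun hh => absurd hh (by decide)), ← cs_prod_cell_one C W y]
      refine Finset.prod_congr rfl fun e he => ?_
      rw [ha0 e he, if_pos hT]
      simp

open Classical in
theorem cs_tau_sum (hC : C.Ok) (h : CsHist V ι Y) (b W : V → Bool) :
    ∑ τ : Y → SignType, (if h.OkT τ then C.jw b W τ else 0)
      = (∏ y, C.rf h b y) * ∏ e, (if W (C.s e) = W (C.t e) then 1 else C.a0 h b e) := by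
  have h1 : ∀ τ : Y → SignType, (if h.OkT τ then C.jw b W τ else 0)
      = ∏ y, (if (∀ θ, h.pT y = some θ → τ y = θ) then C.cw b W y (τ y) else 0) := by
    intro τ
    rw [Finset.prod_ite_zero]
    unfold CellSys.jw CsHist.OkT
    simp
  simp_rw [h1]
  have h2 := Finset.prod_univ_sum (fun _ : Y => (univ : Finset SignType))
    (fun y θ' => if (∀ θ, h.pT y = some θ → θ' = θ) then C.cw b W y θ' else 0)
  rw [Fintype.piFinset_univ] at h2
  rw [← h2]
  simp_rw [cs_status_sum C hC h b W]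
  rw [Finset.prod_mul_distrib]
  congr 1
  exact Finset.prod_fiberwise univ C.cell
    (fun e => if W (C.s e) = W (C.t e) then 1 else C.a0 h b e)

open Classical in
theorem cs_okw_prod (h : CsHist V ι Y) (b W : V → Bool) :
    (if h.OkW C W then ∏ e, (if W (C.s e) = W (C.t e) then 1 else C.a0 h b e) else 0)
      = ∏ e, (if W (C.s e) = W (C.t e) then 1 else C.ap h b e + C.am h b e) := by
  by_cases hW : h.OkW C W
  · rw [if_pos hW]
    refine Finset.prod_congr rfl fun e _ => ?_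
    by_cases he : W (C.s e) = W (C.t e)
    · rw [if_pos he, if_pos he]
    · rw [if_neg he, if_neg he, cs_ap_add_am, if_neg (fun h' => he (hW e h'))]
  · rw [if_neg hW]
    unfold CsHist.OkW at hW
    push Not at hW
    obtain ⟨e, he, hne⟩ := hW
    symm
    refine Finset.prod_eq_zero (Finset.mem_univ e) ?_
    rw [if_neg hne, cs_ap_add_am, if_pos he]

/-- P4 = formula (2.5). -/
theorem cs_mf_eq (hC : C.Ok) (h : CsHist V ι Y) (hSp : ∀ b, h.OkB b → C.Split b) (b : V → Bool) :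
    ∑ τ, C.wf h (b, τ) = C.mf h b := by
  classical
  simp_rw [cs_wf_eq C hC h hSp]
  rw [← Finset.mul_sum]
  unfold CellSys.mf
  by_cases hb : h.OkB b
  · rw [if_pos hb]
    have h1 : ∀ τ : Y → SignType, C.wt h (b, τ)
        = ∑ W : V → Bool, (if h.OkW C W then (if h.OkT τ then C.jw b W τ else 0) else 0) := by
      intro τ
      unfold CellSys.wt
      by_cases hτ : h.OkT τ
      · simp only [hb, hτ, and_self, if_true]
      · simp only [hb, hτ, and_false, if_false, ite_self, Finset.sum_const_zero]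
    simp_rw [h1]
    rw [Finset.sum_comm]
    have h2 : ∀ W : V → Bool,
        ∑ τ : Y → SignType, (if h.OkW C W then (if h.OkT τ then C.jw b W τ else 0) else 0)
        = (∏ y, C.rf h b y)
          * ∏ e, (if W (C.s e) = W (C.t e) then 1 else C.ap h b e + C.am h b e) := by
      intro W
      rw [← cs_okw_prod C h b W]
      by_cases hW : h.OkW C W
      · simp only [if_pos hW]
        exact cs_tau_sum C hC h b W
      · simp only [if_neg hW, Finset.sum_const_zero, mul_zero]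
    simp_rw [h2]
    rw [← Finset.mul_sum]
    have hwf := cs_wall_factor C (hSp b hb) (ap := C.ap h b) (am := C.am h b)
      (fun e he => by
        unfold CellSys.ap at he
        by_cases hc : e ∉ h.E0 ∧ C.Hom b (C.cell e) true
        · exact hc.2 e rfl
        · rw [if_neg hc] at he; exact absurd rfl he)
      (fun e he => by
        unfold CellSys.am at he
        by_cases hc : e ∉ h.E0 ∧ C.Hom b (C.cell e) false
        · exact hc.2 e rfl
        · rw [if_neg hc] at he; exact absurd rfl he)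
    unfold iszZ at hwf ⊢
    rw [mul_assoc, hwf]
    ring
  · rw [if_neg hb]
    have h1 : ∀ τ : Y → SignType, C.wt h (b, τ) = 0 := by
      intro τ
      unfold CellSys.wt
      rw [if_neg (fun hh => hb hh.1)]
    simp_rw [h1]
    simp

/-! ## P5, P6 (133) -/

theorem cs_b_le_t {x y : Bool} (h : x ≤ y) (hx : x = true) : y = true := by
  revert h hx; revert x y; decide

theorem cs_b_le_f {x y : Bool} (h : x ≤ y) (hy : y = false) : x = false := by
  revert h hy; revert x y; decide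

theorem cs_b_inf_t {x y : Bool} : x ⊓ y = true ↔ x = true ∧ y = true := by
  cases x <;> cases y <;> decide

theorem cs_b_sup_f {x y : Bool} : x ⊔ y = false ↔ x = false ∧ y = false := by
  cases x <;> cases y <;> decide

theorem cs_b_sup_t {x y : Bool} : x ⊔ y = true ↔ x = true ∨ y = true := by
  cases x <;> cases y <;> decide

theorem cs_b_inf_f {x y : Bool} : x ⊓ y = false ↔ x = false ∨ y = false := by
  cases x <;> cases y <;> decide

/-- `Z(a) Z(b) ≤ Z(m) Z(j)` as soon as `m ≥ a ∧ b`, `j ≥ a ∨ b` coordinatewise. -/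
theorem cs_Z_four (s t : ι → V) {a b m j : ι → ℝ} (ha0 : ∀ i, 0 ≤ a i)
    (ha1 : ∀ i, a i ≤ 1) (hb0 : ∀ i, 0 ≤ b i) (hb1 : ∀ i, b i ≤ 1) (hm : ∀ i, min (a i) (b i) ≤ m i)
    (hj : ∀ i, max (a i) (b i) ≤ j i) :
    iszZ Bool s t a * iszZ Bool s t b ≤ iszZ Bool s t m * iszZ Bool s t j := by
  refine (isz_Z_super (by simp) s t ha0 ha1 hb0 hb1).trans ?_
  have h1 : iszZ Bool s t (a ⊓ b) ≤ iszZ Bool s t m := isz_Z_mono s t (fun i => le_min (ha0 i) (hb0 i)) hm
  have h2 : iszZ Bool s t (a ⊔ b) ≤ iszZ Bool s t j :=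
    isz_Z_mono s t (fun i => (ha0 i).trans (le_max_left _ _)) hj
  exact mul_le_mul h1 h2 (isz_Z_nonneg s t fun i => (ha0 i).trans (le_max_left _ _))
    (isz_Z_nonneg s t fun i => (le_min (ha0 i) (hb0 i)).trans (hm i))

theorem cs_mul3 {k1 k2 p1 p2 m1 m2 k1' k2' p1' p2' m1' m2' : ℝ} (hk : k1 * k2 ≤ k1' * k2')
    (hp : p1 * p2 ≤ p1' * p2') (hm : m1 * m2 ≤ m1' * m2') (a1 : 0 ≤ k1 * k2) (a2 : 0 ≤ p1 * p2)
    (a3 : 0 ≤ m1 * m2) :
    (k1 * p1 * m1) * (k2 * p2 * m2) ≤ (k1' * p1' * m1') * (k2' * p2' * m2') := by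
  calc (k1 * p1 * m1) * (k2 * p2 * m2) = (k1 * k2) * (p1 * p2) * (m1 * m2) := by ring
    _ ≤ (k1' * k2') * (p1' * p2') * (m1' * m2') :=
        mul_le_mul (mul_le_mul hk hp a2 (a1.trans hk)) hm a3 (mul_nonneg (a1.trans hk) (a2.trans hp))
    _ = _ := by ring

theorem cs_hom_mono_t {b c : V → Bool} (hbc : b ≤ c) {y : Y} (h : C.Hom b y true) : C.Hom c y true :=
  fun e he => ⟨cs_b_le_t (hbc _) (h e he).1, cs_b_le_t (hbc _) (h e he).2⟩

theorem cs_hom_mono_f {b c : V → Bool} (hbc : b ≤ c) {y : Y} (h : C.Hom c y false) : C.Hom b y false :=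
  fun e he => ⟨cs_b_le_f (hbc _) (h e he).1, cs_b_le_f (hbc _) (h e he).2⟩

open Classical in
theorem cs_kf_pos (B : V → Bool) (y : Y) : C.kf B y 1 = if C.Hom B y true then C.q y else 0 := by
  unfold CellSys.kf
  rw [if_pos rfl]

open Classical in
theorem cs_kf_neg (B : V → Bool) (y : Y) : C.kf B y (-1) = if C.Hom B y false then C.q y else 0 := by
  unfold CellSys.kf
  rw [if_neg (by decide), if_pos rfl]

open Classical in
theorem cs_kf_zero (B : V → Bool) (y : Y) : C.kf B y 0 = if C.Cst B y then 1 - C.q y else C.q y := by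
  unfold CellSys.kf
  rw [if_neg (by decide), if_neg (by decide)]

/-- the cell table in the fibre over `b ≤ c`. -/
theorem cs_kf_four (hC : C.Ok) {b c : V → Bool} (hbc : b ≤ c) (y : Y) (θ θ' : SignType) :
    C.kf b y θ * C.kf c y θ' ≤ C.kf b y (θ ⊓ θ') * C.kf c y (θ ⊔ θ') := by
  rcases le_total θ θ' with h | h
  · rw [inf_eq_left.2 h, sup_eq_right.2 h]
  rw [inf_eq_right.2 h, sup_eq_left.2 h]
  have hnn : 0 ≤ C.kf b y θ' * C.kf c y θ := mul_nonneg (cs_kf_nonneg C hC _ _ _) (cs_kf_nonneg C hC _ _ _)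
  cases θ <;> cases θ'
  · exact le_rfl
  · -- (0, -1)
    change C.kf b y 0 * C.kf c y (-1) ≤ C.kf b y (-1) * C.kf c y 0
    change 0 ≤ C.kf b y (-1) * C.kf c y 0 at hnn
    by_cases hc : C.Hom c y false
    · have hb := cs_hom_mono_f C hbc hc
      rw [cs_kf_zero, cs_kf_zero, cs_kf_neg, cs_kf_neg, if_pos hc, if_pos hb, if_pos (cs_hom_cst C hc),
        if_pos (cs_hom_cst C hb), mul_comm]
    · rw [cs_kf_neg C c, if_neg hc, mul_zero]; exact hnn
  · exact absurd h (by decide)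
  · exact absurd h (by decide)
  · exact le_rfl
  · exact absurd h (by decide)
  · -- (1, 0)
    change C.kf b y 1 * C.kf c y 0 ≤ C.kf b y 0 * C.kf c y 1
    change 0 ≤ C.kf b y 0 * C.kf c y 1 at hnn
    by_cases hb : C.Hom b y true
    · have hc := cs_hom_mono_t C hbc hb
      rw [cs_kf_zero, cs_kf_zero, cs_kf_pos, cs_kf_pos, if_pos hc, if_pos hb, if_pos (cs_hom_cst C hc),
        if_pos (cs_hom_cst C hb), mul_comm]
    · rw [cs_kf_pos C b, if_neg hb, zero_mul]; exact hnn
  · -- (1, -1)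
    change C.kf b y 1 * C.kf c y (-1) ≤ C.kf b y (-1) * C.kf c y 1
    change 0 ≤ C.kf b y (-1) * C.kf c y 1 at hnn
    by_cases hb : C.Hom b y true
    · by_cases hc : C.Hom c y false
      · rcases hC.ne y with ⟨e, he⟩ | h0
        · have h1 := cs_b_le_t (hbc _) (hb e he).1
          rw [(hc e he).1] at h1
          exact absurd h1 (by decide)
        · rw [cs_kf_pos C b, if_pos hb, h0, zero_mul]; exact hnn
      · rw [cs_kf_neg C c, if_neg hc, mul_zero]; exact hnn
    · rw [cs_kf_pos C b, if_neg hb, zero_mul]; exact hnn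
  · exact le_rfl

theorem cs_s_sup_one_l (θ : SignType) : (1 : SignType) ⊔ θ = 1 := by revert θ; decide
theorem cs_s_sup_one_r (θ : SignType) : θ ⊔ (1 : SignType) = 1 := by revert θ; decide
theorem cs_s_inf_neg_l (θ : SignType) : (-1 : SignType) ⊓ θ = -1 := by revert θ; decide
theorem cs_s_inf_neg_r (θ : SignType) : θ ⊓ (-1 : SignType) = -1 := by revert θ; decide

theorem cs_okT_inf {h₁ h₂ : CsHist V ι Y} (hle : h₁.Le C h₂) {τ τ' : Y → SignType} (h1 : h₁.OkT τ)
    (h2 : h₂.OkT τ') : h₁.OkT (τ ⊓ τ') := by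
  intro y θ hy
  rcases hle.pT y with ⟨n1, _⟩ | ⟨θ₁, θ₂, e1, e2, hθ⟩
  · rw [n1] at hy; cases hy
  · rw [e1] at hy
    cases hy
    rw [Pi.inf_apply, h1 y _ e1, h2 y _ e2]
    exact inf_eq_left.2 hθ

theorem cs_okT_sup {h₁ h₂ : CsHist V ι Y} (hle : h₁.Le C h₂) {τ τ' : Y → SignType} (h1 : h₁.OkT τ)
    (h2 : h₂.OkT τ') : h₂.OkT (τ ⊔ τ') := by
  intro y θ hy
  rcases hle.pT y with ⟨_, n1⟩ | ⟨θ₁, θ₂, e1, e2, hθ⟩
  · rw [n1] at hy; cases hy
  · rw [e2] at hy
    cases hy
    rw [Pi.sup_apply, h1 y _ e1, h2 y _ e2]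
    exact sup_eq_right.2 hθ

theorem cs_op_cases (h : CsHist V ι Y) (b : V → Bool) (τ : Y → SignType) (e : ι) :
    (C.op h b τ e = 1 ∧ e ∉ h.E0 ∧ τ (C.cell e) = 1 ∧ C.Hom b (C.cell e) true) ∨ C.op h b τ e = 0 := by
  unfold CellSys.op
  split_ifs with hh
  · exact Or.inl ⟨rfl, hh⟩
  · exact Or.inr rfl

theorem cs_om_cases (h : CsHist V ι Y) (b : V → Bool) (τ : Y → SignType) (e : ι) :
    (C.om h b τ e = 1 ∧ e ∉ h.E0 ∧ τ (C.cell e) = -1 ∧ C.Hom b (C.cell e) false) ∨ C.om h b τ e = 0 := by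
  unfold CellSys.om
  split_ifs with hh
  · exact Or.inl ⟨rfl, hh⟩
  · exact Or.inr rfl

theorem cs_op_one {h : CsHist V ι Y} {b : V → Bool} {τ : Y → SignType} {e : ι} (h1 : e ∉ h.E0)
    (h2 : τ (C.cell e) = 1) (h3 : C.Hom b (C.cell e) true) : C.op h b τ e = 1 := by
  unfold CellSys.op
  rw [if_pos ⟨h1, h2, h3⟩]

theorem cs_om_one {h : CsHist V ι Y} {b : V → Bool} {τ : Y → SignType} {e : ι} (h1 : e ∉ h.E0)
    (h2 : τ (C.cell e) = -1) (h3 : C.Hom b (C.cell e) false) : C.om h b τ e = 1 := by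
  unfold CellSys.om
  rw [if_pos ⟨h1, h2, h3⟩]

/-- an edge of a plus-homogeneous cell of the lower law which is not a lower equality is not an upper equality. -/
theorem cs_E_up {h₁ h₂ : CsHist V ι Y} (hle : h₁.Le C h₂) {b : V → Bool} (hb : h₁.OkB b) {e : ι}
    (he : e ∉ h₁.E0) (hh : C.Hom b (C.cell e) true) : e ∉ h₂.E0 := by
  intro h2
  rcases hle.E_up e h2 with h | ⟨h, _⟩
  · exact he h
  · have := hb _ _ h
    rw [(hh e rfl).1] at this
    exact absurd this (by decide)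

theorem cs_E_dn {h₁ h₂ : CsHist V ι Y} (hle : h₁.Le C h₂) {c : V → Bool} (hc : h₂.OkB c) {e : ι}
    (he : e ∉ h₂.E0) (hh : C.Hom c (C.cell e) false) : e ∉ h₁.E0 := by
  intro h1
  rcases hle.E_dn e h1 with h | ⟨_, _, h, _⟩
  · exact he h
  · have := hc _ _ h
    rw [(hh e rfl).1] at this
    exact absurd this (by decide)

/-- P5: four-function condition in the status fibre over `b ≤ c`. -/
theorem cs_fibre (hC : C.Ok) {h₁ h₂ : CsHist V ι Y} (hle : h₁.Le C h₂) {b c : V → Bool}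
    (hbc : b ≤ c) (τ τ' : Y → SignType) :
    C.wf h₁ (b, τ) * C.wf h₂ (c, τ') ≤ C.wf h₁ (b, τ ⊓ τ') * C.wf h₂ (c, τ ⊔ τ') := by
  have hnn : 0 ≤ C.wf h₁ (b, τ ⊓ τ') * C.wf h₂ (c, τ ⊔ τ') :=
    mul_nonneg (cs_wf_nonneg C hC _ _) (cs_wf_nonneg C hC _ _)
  by_cases H1 : h₁.OkB b ∧ h₁.OkT τ
  swap
  · have : C.wf h₁ (b, τ) = 0 := by unfold CellSys.wf; rw [if_neg H1]
    rw [this, zero_mul]; exact hnn
  by_cases H2 : h₂.OkB c ∧ h₂.OkT τ'
  swap
  · have : C.wf h₂ (c, τ') = 0 := by unfold CellSys.wf; rw [if_neg H2]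
    rw [this, mul_zero]; exact hnn
  have H3 : h₁.OkB b ∧ h₁.OkT (τ ⊓ τ') := ⟨H1.1, cs_okT_inf C hle H1.2 H2.2⟩
  have H4 : h₂.OkB c ∧ h₂.OkT (τ ⊔ τ') := ⟨H2.1, cs_okT_sup C hle H1.2 H2.2⟩
  unfold CellSys.wf
  simp only
  rw [if_pos H1, if_pos H2, if_pos H3, if_pos H4]
  refine cs_mul3 ?_ ?_ ?_ ?_ ?_ ?_
  · rw [← Finset.prod_mul_distrib, ← Finset.prod_mul_distrib]
    exact Finset.prod_le_prod (fun y _ => mul_nonneg (cs_kf_nonneg C hC _ _ _) (cs_kf_nonneg C hC _ _ _))
      fun y _ => cs_kf_four C hC hbc y (τ y) (τ' y)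
  · refine cs_Z_four C.s C.t (cs_op_nonneg C _ _ _) (cs_op_le_one C _ _ _) (cs_op_nonneg C _ _ _)
      (cs_op_le_one C _ _ _) (fun e => ?_) fun e => ?_
    · rcases cs_op_cases C h₁ b τ e with ⟨e1, a1, a2, a3⟩ | e1
      · rcases cs_op_cases C h₂ c τ' e with ⟨e2, b1, b2, b3⟩ | e2
        · rw [cs_op_one C (τ := τ ⊓ τ') a1 (by rw [Pi.inf_apply, a2, b2]; rfl) a3]
          exact (min_le_left _ _).trans (cs_op_le_one C _ _ _ _)
        · exact (min_le_right _ _).trans (e2.le.trans (cs_op_nonneg C _ _ _ _))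
      · exact (min_le_left _ _).trans (e1.le.trans (cs_op_nonneg C _ _ _ _))
    · refine max_le ?_ ?_
      · rcases cs_op_cases C h₁ b τ e with ⟨e1, a1, a2, a3⟩ | e1
        · rw [cs_op_one C (τ := τ ⊔ τ') (cs_E_up C hle H1.1 a1 a3) (by rw [Pi.sup_apply, a2]; exact cs_s_sup_one_l _)
            (cs_hom_mono_t C hbc a3)]
          exact cs_op_le_one C _ _ _ _
        · exact e1.le.trans (cs_op_nonneg C _ _ _ _)
      · rcases cs_op_cases C h₂ c τ' e with ⟨e2, b1, b2, b3⟩ | e2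
        · rw [cs_op_one C (τ := τ ⊔ τ') b1 (by rw [Pi.sup_apply, b2]; exact cs_s_sup_one_r _) b3]
          exact cs_op_le_one C _ _ _ _
        · exact e2.le.trans (cs_op_nonneg C _ _ _ _)
  · rw [mul_comm (iszZ Bool C.s C.t (C.om h₁ b (τ ⊓ τ')))]
    refine cs_Z_four C.s C.t (cs_om_nonneg C _ _ _) (cs_om_le_one C _ _ _) (cs_om_nonneg C _ _ _)
      (cs_om_le_one C _ _ _) (fun e => ?_) fun e => ?_
    · rcases cs_om_cases C h₁ b τ e with ⟨e1, a1, a2, a3⟩ | e1
      · rcases cs_om_cases C h₂ c τ' e with ⟨e2, b1, b2, b3⟩ | e2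
        · rw [cs_om_one C (τ := τ ⊔ τ') b1 (by rw [Pi.sup_apply, a2, b2]; rfl) b3]
          exact (min_le_left _ _).trans (cs_om_le_one C _ _ _ _)
        · exact (min_le_right _ _).trans (e2.le.trans (cs_om_nonneg C _ _ _ _))
      · exact (min_le_left _ _).trans (e1.le.trans (cs_om_nonneg C _ _ _ _))
    · refine max_le ?_ ?_
      · rcases cs_om_cases C h₁ b τ e with ⟨e1, a1, a2, a3⟩ | e1
        · rw [cs_om_one C (τ := τ ⊓ τ') a1 (by rw [Pi.inf_apply, a2]; exact cs_s_inf_neg_l _) a3]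
          exact cs_om_le_one C _ _ _ _
        · exact e1.le.trans (cs_om_nonneg C _ _ _ _)
      · rcases cs_om_cases C h₂ c τ' e with ⟨e2, b1, b2, b3⟩ | e2
        · rw [cs_om_one C (τ := τ ⊓ τ') (cs_E_dn C hle H2.1 b1 b3) (by rw [Pi.inf_apply, b2]; exact cs_s_inf_neg_r _)
            (cs_hom_mono_f C hbc b3)]
          exact cs_om_le_one C _ _ _ _
        · exact e2.le.trans (cs_om_nonneg C _ _ _ _)
  · exact mul_nonneg (Finset.prod_nonneg fun y _ => cs_kf_nonneg C hC _ _ _)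
      (Finset.prod_nonneg fun y _ => cs_kf_nonneg C hC _ _ _)
  · exact mul_nonneg (isz_Z_nonneg _ _ (cs_op_nonneg C _ _ _)) (isz_Z_nonneg _ _ (cs_op_nonneg C _ _ _))
  · exact mul_nonneg (isz_Z_nonneg _ _ (cs_om_nonneg C _ _ _)) (isz_Z_nonneg _ _ (cs_om_nonneg C _ _ _))

/-! ### P6 -/

theorem cs_b_t_inf (x : Bool) : true ⊓ x = x := by revert x; decide
theorem cs_b_inf_t' (x : Bool) : x ⊓ true = x := by revert x; decide
theorem cs_b_f_sup (x : Bool) : false ⊔ x = x := by revert x; decide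
theorem cs_b_sup_f' (x : Bool) : x ⊔ false = x := by revert x; decide

theorem cs_s_top {θ : SignType} (h : (1 : SignType) ≤ θ) : θ = 1 := by revert h; revert θ; decide
theorem cs_s_bot {θ : SignType} (h : θ ≤ (-1 : SignType)) : θ = -1 := by revert h; revert θ; decide

theorem cs_okB_inf {h₁ h₂ : CsHist V ι Y} (hle : h₁.Le C h₂) {b c : V → Bool} (h1 : h₁.OkB b)
    (h2 : h₂.OkB c) : h₁.OkB (b ⊓ c) := by
  intro v β hv
  rw [Pi.inf_apply, h1 v β hv]
  rcases hle.pB_dn v β hv with h | h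
  · rw [h]; exact cs_b_inf_f.2 (Or.inl rfl)
  · rw [h2 v _ h]; exact cs_b_inf_t' _

theorem cs_okB_sup {h₁ h₂ : CsHist V ι Y} (hle : h₁.Le C h₂) {b c : V → Bool} (h1 : h₁.OkB b)
    (h2 : h₂.OkB c) : h₂.OkB (b ⊔ c) := by
  intro v β hv
  rw [Pi.sup_apply, h2 v β hv]
  rcases hle.pB_up v β hv with h | h
  · rw [h]; exact cs_b_sup_t.2 (Or.inr rfl)
  · rw [h1 v _ h]; exact cs_b_f_sup _

/-- agreement of two first-spin configurations on the sites of a cell. -/
def CellSys.Agr (C : CellSys V ι Y) (b b' : V → Bool) (y : Y) : Prop :=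
  ∀ e, C.cell e = y → b (C.s e) = b' (C.s e) ∧ b (C.t e) = b' (C.t e)

theorem cs_agr_cst {b b' : V → Bool} {y : Y} (h : C.Agr b b' y) : C.Cst b y = C.Cst b' y := by
  refine propext ⟨fun H e he => ?_, fun H e he => ?_⟩
  · rw [← (h e he).1, ← (h e he).2]; exact H e he
  · rw [(h e he).1, (h e he).2]; exact H e he

theorem cs_agr_hom {b b' : V → Bool} {y : Y} (h : C.Agr b b' y) (β : Bool) : C.Hom b y β = C.Hom b' y β := by
  refine propext ⟨fun H e he => ?_, fun H e he => ?_⟩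
  · rw [← (h e he).1, ← (h e he).2]; exact H e he
  · rw [(h e he).1, (h e he).2]; exact H e he

theorem cs_agr_kf {b b' : V → Bool} {y : Y} (h : C.Agr b b' y) (θ : SignType) : C.kf b y θ = C.kf b' y θ := by
  unfold CellSys.kf
  rw [cs_agr_cst C h, cs_agr_hom C h true, cs_agr_hom C h false]

theorem cs_hom_inf_t {b c : V → Bool} {y : Y} (hb : C.Hom b y true) (hc : C.Hom c y true) :
    C.Hom (b ⊓ c) y true :=
  fun e he => ⟨cs_b_inf_t.2 ⟨(hb e he).1, (hc e he).1⟩, cs_b_inf_t.2 ⟨(hb e he).2, (hc e he).2⟩⟩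

theorem cs_hom_sup_f {b c : V → Bool} {y : Y} (hb : C.Hom b y false) (hc : C.Hom c y false) :
    C.Hom (b ⊔ c) y false :=
  fun e he => ⟨cs_b_sup_f.2 ⟨(hb e he).1, (hc e he).1⟩, cs_b_sup_f.2 ⟨(hb e he).2, (hc e he).2⟩⟩

theorem cs_hom_sup_l {b : V → Bool} (c : V → Bool) {y : Y} (hb : C.Hom b y true) : C.Hom (b ⊔ c) y true :=
  cs_hom_mono_t C le_sup_left hb

theorem cs_hom_sup_r (b : V → Bool) {c : V → Bool} {y : Y} (hc : C.Hom c y true) : C.Hom (b ⊔ c) y true :=
  cs_hom_mono_t C le_sup_right hc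

theorem cs_hom_inf_l {b : V → Bool} (c : V → Bool) {y : Y} (hb : C.Hom b y false) : C.Hom (b ⊓ c) y false :=
  cs_hom_mono_f C inf_le_left hb

theorem cs_hom_inf_r (b : V → Bool) {c : V → Bool} {y : Y} (hc : C.Hom c y false) : C.Hom (b ⊓ c) y false :=
  cs_hom_mono_f C inf_le_right hc

theorem cs_agr_inf_of_t_l {b : V → Bool} (c : V → Bool) {y : Y} (hb : C.Hom b y true) : C.Agr (b ⊓ c) c y :=
  fun e he => ⟨by rw [Pi.inf_apply, (hb e he).1]; exact cs_b_t_inf _,
    by rw [Pi.inf_apply, (hb e he).2]; exact cs_b_t_inf _⟩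

theorem cs_agr_inf_of_t_r (b : V → Bool) {c : V → Bool} {y : Y} (hc : C.Hom c y true) : C.Agr (b ⊓ c) b y :=
  fun e he => ⟨by rw [Pi.inf_apply, (hc e he).1]; exact cs_b_inf_t' _,
    by rw [Pi.inf_apply, (hc e he).2]; exact cs_b_inf_t' _⟩

theorem cs_agr_sup_of_f_l {b : V → Bool} (c : V → Bool) {y : Y} (hb : C.Hom b y false) : C.Agr (b ⊔ c) c y :=
  fun e he => ⟨by rw [Pi.sup_apply, (hb e he).1]; exact cs_b_f_sup _,
    by rw [Pi.sup_apply, (hb e he).2]; exact cs_b_f_sup _⟩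

theorem cs_agr_sup_of_f_r (b : V → Bool) {c : V → Bool} {y : Y} (hc : C.Hom c y false) : C.Agr (b ⊔ c) b y :=
  fun e he => ⟨by rw [Pi.sup_apply, (hc e he).1]; exact cs_b_sup_f' _,
    by rw [Pi.sup_apply, (hc e he).2]; exact cs_b_sup_f' _⟩

open Classical in
/-- `r_y(b ∧ c) r_y(b ∨ c) ≥ r_y(b) r_y(c)`. -/
theorem cs_r_four (hC : C.Ok) (b c : V → Bool) (y : Y) :
    (if C.Cst b y then 1 else C.q y) * (if C.Cst c y then 1 else C.q y)
      ≤ (if C.Cst (b ⊓ c) y then 1 else C.q y) * (if C.Cst (b ⊔ c) y then 1 else C.q y) := by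
  have h0 := hC.q0 y
  have h1 := hC.q1 y
  by_cases hb : C.Cst b y
  · rcases hC.conn b y hb with h | h
    · rw [cs_agr_cst C (cs_agr_inf_of_t_l C c h), if_pos hb, if_pos (cs_hom_cst C (cs_hom_sup_l C c h)), mul_comm]
    · rw [cs_agr_cst C (cs_agr_sup_of_f_l C c h), if_pos hb, if_pos (cs_hom_cst C (cs_hom_inf_l C c h))]
  · by_cases hc : C.Cst c y
    · rcases hC.conn c y hc with h | h
      · rw [cs_agr_cst C (cs_agr_inf_of_t_r C b h), if_pos hc, if_pos (cs_hom_cst C (cs_hom_sup_r C b h))]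
      · rw [cs_agr_cst C (cs_agr_sup_of_f_r C b h), if_pos hc, if_pos (cs_hom_cst C (cs_hom_inf_r C b h)), mul_comm]
    · rw [if_neg hb, if_neg hc]
      refine mul_le_mul ?_ ?_ h0 ?_ <;> split_ifs <;> linarith

open Classical in
theorem cs_rf_none {h : CsHist V ι Y} {y : Y} (hn : h.pT y = none) (b : V → Bool) :
    C.rf h b y = if C.Cst b y then 1 else C.q y := by
  unfold CellSys.rf
  rw [hn]

theorem cs_rf_some {h : CsHist V ι Y} {y : Y} {θ : SignType} (hs : h.pT y = some θ) (b : V → Bool) :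
    C.rf h b y = C.kf b y θ := by
  unfold CellSys.rf
  rw [hs]

theorem cs_rf_nonneg (hC : C.Ok) (h : CsHist V ι Y) (b : V → Bool) (y : Y) : 0 ≤ C.rf h b y := by
  classical
  have h0 := hC.q0 y
  cases hn : h.pT y with
  | none => rw [cs_rf_none C hn]; split_ifs <;> linarith
  | some θ => rw [cs_rf_some C hn]; exact cs_kf_nonneg C hC _ _ _

/-- two configurations satisfying the pins agree on a fully pinned cell. -/
theorem cs_full_agr {h : CsHist V ι Y} (hF : h.Full C) {y : Y} {θ : SignType} (hs : h.pT y = some θ)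
    {b b' : V → Bool} (hb : h.OkB b) (hb' : h.OkB b') : C.Agr b b' y := by
  intro e he
  obtain ⟨h1, h2⟩ := hF y θ hs e he
  obtain ⟨β1, e1⟩ := Option.isSome_iff_exists.1 h1
  obtain ⟨β2, e2⟩ := Option.isSome_iff_exists.1 h2
  exact ⟨(hb _ _ e1).trans (hb' _ _ e1).symm, (hb _ _ e2).trans (hb' _ _ e2).symm⟩

/-- value of an allowed plus wall edge. -/
noncomputable def CellSys.vp (C : CellSys V ι Y) (h : CsHist V ι Y) (e : ι) : ℝ :=
  match h.pT (C.cell e) with
  | none => C.xe e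
  | some θ => if θ = 1 then 1 else 0

/-- value of an allowed minus wall edge. -/
noncomputable def CellSys.vm (C : CellSys V ι Y) (h : CsHist V ι Y) (e : ι) : ℝ :=
  match h.pT (C.cell e) with
  | none => C.xe e
  | some θ => if θ = -1 then 1 else 0

theorem cs_vp_nonneg (hC : C.Ok) (h : CsHist V ι Y) (e : ι) : 0 ≤ C.vp h e := by
  unfold CellSys.vp
  cases h.pT (C.cell e) with
  | none => exact hC.x0 e
  | some θ => simp only; split_ifs <;> norm_num

theorem cs_vp_le_one (hC : C.Ok) (h : CsHist V ι Y) (e : ι) : C.vp h e ≤ 1 := by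
  unfold CellSys.vp
  cases h.pT (C.cell e) with
  | none => exact hC.x1 e
  | some θ => simp only; split_ifs <;> norm_num

theorem cs_vm_nonneg (hC : C.Ok) (h : CsHist V ι Y) (e : ι) : 0 ≤ C.vm h e := by
  unfold CellSys.vm
  cases h.pT (C.cell e) with
  | none => exact hC.x0 e
  | some θ => simp only; split_ifs <;> norm_num

theorem cs_vm_le_one (hC : C.Ok) (h : CsHist V ι Y) (e : ι) : C.vm h e ≤ 1 := by
  unfold CellSys.vm
  cases h.pT (C.cell e) with
  | none => exact hC.x1 e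
  | some θ => simp only; split_ifs <;> norm_num

theorem cs_vp_mono {h₁ h₂ : CsHist V ι Y} (hle : h₁.Le C h₂) (e : ι) : C.vp h₁ e ≤ C.vp h₂ e := by
  unfold CellSys.vp
  rcases hle.pT (C.cell e) with ⟨n1, n2⟩ | ⟨θ₁, θ₂, e1, e2, hθ⟩
  · rw [n1, n2]
  · rw [e1, e2]
    simp only
    by_cases h1 : θ₁ = 1
    · have h2 : θ₂ = 1 := cs_s_top (h1 ▸ hθ)
      rw [if_pos h1, if_pos h2]
    · rw [if_neg h1]; split_ifs <;> norm_num

theorem cs_vm_anti {h₁ h₂ : CsHist V ι Y} (hle : h₁.Le C h₂) (e : ι) : C.vm h₂ e ≤ C.vm h₁ e := by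
  unfold CellSys.vm
  rcases hle.pT (C.cell e) with ⟨n1, n2⟩ | ⟨θ₁, θ₂, e1, e2, hθ⟩
  · rw [n1, n2]
  · rw [e1, e2]
    simp only
    by_cases h2 : θ₂ = -1
    · have h1 : θ₁ = -1 := cs_s_bot (h2 ▸ hθ)
      rw [if_pos h1, if_pos h2]
    · rw [if_neg h2]; split_ifs <;> norm_num

theorem cs_ap_cases (h : CsHist V ι Y) (b : V → Bool) (e : ι) :
    (C.ap h b e = C.vp h e ∧ e ∉ h.E0 ∧ C.Hom b (C.cell e) true) ∨ C.ap h b e = 0 := by
  unfold CellSys.ap
  split_ifs with hh
  · exact Or.inl ⟨rfl, hh⟩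
  · exact Or.inr rfl

theorem cs_am_cases (h : CsHist V ι Y) (b : V → Bool) (e : ι) :
    (C.am h b e = C.vm h e ∧ e ∉ h.E0 ∧ C.Hom b (C.cell e) false) ∨ C.am h b e = 0 := by
  unfold CellSys.am
  split_ifs with hh
  · exact Or.inl ⟨rfl, hh⟩
  · exact Or.inr rfl

theorem cs_ap_val {h : CsHist V ι Y} {b : V → Bool} {e : ι} (h1 : e ∉ h.E0) (h2 : C.Hom b (C.cell e) true) :
    C.ap h b e = C.vp h e := by
  unfold CellSys.ap
  rw [if_pos ⟨h1, h2⟩]
  rfl

theorem cs_am_val {h : CsHist V ι Y} {b : V → Bool} {e : ι} (h1 : e ∉ h.E0) (h2 : C.Hom b (C.cell e) false) :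
    C.am h b e = C.vm h e := by
  unfold CellSys.am
  rw [if_pos ⟨h1, h2⟩]
  rfl

theorem cs_ap_nonneg (hC : C.Ok) (h : CsHist V ι Y) (b : V → Bool) (e : ι) : 0 ≤ C.ap h b e := by
  rcases cs_ap_cases C h b e with ⟨h1, _⟩ | h1
  · rw [h1]; exact cs_vp_nonneg C hC _ _
  · exact h1.ge

theorem cs_ap_le_one (hC : C.Ok) (h : CsHist V ι Y) (b : V → Bool) (e : ι) : C.ap h b e ≤ 1 := by
  rcases cs_ap_cases C h b e with ⟨h1, _⟩ | h1
  · rw [h1]; exact cs_vp_le_one C hC _ _
  · rw [h1]; exact zero_le_one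

theorem cs_am_nonneg (hC : C.Ok) (h : CsHist V ι Y) (b : V → Bool) (e : ι) : 0 ≤ C.am h b e := by
  rcases cs_am_cases C h b e with ⟨h1, _⟩ | h1
  · rw [h1]; exact cs_vm_nonneg C hC _ _
  · exact h1.ge

theorem cs_am_le_one (hC : C.Ok) (h : CsHist V ι Y) (b : V → Bool) (e : ι) : C.am h b e ≤ 1 := by
  rcases cs_am_cases C h b e with ⟨h1, _⟩ | h1
  · rw [h1]; exact cs_vm_le_one C hC _ _
  · rw [h1]; exact zero_le_one

theorem cs_mf_nonneg (hC : C.Ok) (h : CsHist V ι Y) (b : V → Bool) : 0 ≤ C.mf h b := by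
  unfold CellSys.mf
  split_ifs
  · exact mul_nonneg (mul_nonneg (Finset.prod_nonneg fun y _ => cs_rf_nonneg C hC _ _ _)
      (isz_Z_nonneg _ _ (cs_ap_nonneg C hC _ _))) (isz_Z_nonneg _ _ (cs_am_nonneg C hC _ _))
  · exact le_rfl

/-- P6: the two-law inequality (2.8). -/
theorem cs_marg (hC : C.Ok) {h₁ h₂ : CsHist V ι Y} (hle : h₁.Le C h₂) (hF₁ : h₁.Full C)
    (hF₂ : h₂.Full C) (b c : V → Bool) :
    C.mf h₁ b * C.mf h₂ c ≤ C.mf h₁ (b ⊓ c) * C.mf h₂ (b ⊔ c) := by
  have hnn : 0 ≤ C.mf h₁ (b ⊓ c) * C.mf h₂ (b ⊔ c) :=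
    mul_nonneg (cs_mf_nonneg C hC _ _) (cs_mf_nonneg C hC _ _)
  by_cases H1 : h₁.OkB b
  swap
  · have : C.mf h₁ b = 0 := by unfold CellSys.mf; rw [if_neg H1]
    rw [this, zero_mul]; exact hnn
  by_cases H2 : h₂.OkB c
  swap
  · have : C.mf h₂ c = 0 := by unfold CellSys.mf; rw [if_neg H2]
    rw [this, mul_zero]; exact hnn
  have H3 : h₁.OkB (b ⊓ c) := cs_okB_inf C hle H1 H2
  have H4 : h₂.OkB (b ⊔ c) := cs_okB_sup C hle H1 H2
  unfold CellSys.mf
  rw [if_pos H1, if_pos H2, if_pos H3, if_pos H4]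
  refine cs_mul3 ?_ ?_ ?_ ?_ ?_ ?_
  · rw [← Finset.prod_mul_distrib, ← Finset.prod_mul_distrib]
    refine Finset.prod_le_prod (fun y _ => mul_nonneg (cs_rf_nonneg C hC _ _ _) (cs_rf_nonneg C hC _ _ _))
      fun y _ => ?_
    rcases hle.pT y with ⟨n1, n2⟩ | ⟨θ₁, θ₂, e1, e2, _⟩
    · rw [cs_rf_none C n1, cs_rf_none C n2, cs_rf_none C n1, cs_rf_none C n2]
      exact cs_r_four C hC b c y
    · rw [cs_rf_some C e1, cs_rf_some C e2, cs_rf_some C e1, cs_rf_some C e2,
        cs_agr_kf C (cs_full_agr C hF₁ e1 H1 H3), cs_agr_kf C (cs_full_agr C hF₂ e2 H2 H4)]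
  · refine cs_Z_four C.s C.t (cs_ap_nonneg C hC _ _) (cs_ap_le_one C hC _ _) (cs_ap_nonneg C hC _ _)
      (cs_ap_le_one C hC _ _) (fun e => ?_) fun e => ?_
    · rcases cs_ap_cases C h₁ b e with ⟨e1, a1, a3⟩ | e1
      · rcases cs_ap_cases C h₂ c e with ⟨e2, b1, b3⟩ | e2
        · rw [cs_ap_val C (b := b ⊓ c) a1 (cs_hom_inf_t C a3 b3), e1]
          exact min_le_left _ _
        · exact (min_le_right _ _).trans (e2.le.trans (cs_ap_nonneg C hC _ _ _))
      · exact (min_le_left _ _).trans (e1.le.trans (cs_ap_nonneg C hC _ _ _))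
    · refine max_le ?_ ?_
      · rcases cs_ap_cases C h₁ b e with ⟨e1, a1, a3⟩ | e1
        · rw [cs_ap_val C (b := b ⊔ c) (cs_E_up C hle H1 a1 a3) (cs_hom_sup_l C c a3), e1]
          exact cs_vp_mono C hle e
        · exact e1.le.trans (cs_ap_nonneg C hC _ _ _)
      · rcases cs_ap_cases C h₂ c e with ⟨e2, b1, b3⟩ | e2
        · rw [cs_ap_val C (b := b ⊔ c) b1 (cs_hom_sup_r C b b3), e2]
        · exact e2.le.trans (cs_ap_nonneg C hC _ _ _)
  · rw [mul_comm (iszZ Bool C.s C.t (C.am h₁ (b ⊓ c)))]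
    refine cs_Z_four C.s C.t (cs_am_nonneg C hC _ _) (cs_am_le_one C hC _ _) (cs_am_nonneg C hC _ _)
      (cs_am_le_one C hC _ _) (fun e => ?_) fun e => ?_
    · rcases cs_am_cases C h₁ b e with ⟨e1, a1, a3⟩ | e1
      · rcases cs_am_cases C h₂ c e with ⟨e2, b1, b3⟩ | e2
        · rw [cs_am_val C (b := b ⊔ c) b1 (cs_hom_sup_f C a3 b3), e2]
          exact min_le_right _ _
        · exact (min_le_right _ _).trans (e2.le.trans (cs_am_nonneg C hC _ _ _))
      · exact (min_le_left _ _).trans (e1.le.trans (cs_am_nonneg C hC _ _ _))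
    · refine max_le ?_ ?_
      · rcases cs_am_cases C h₁ b e with ⟨e1, a1, a3⟩ | e1
        · rw [cs_am_val C (b := b ⊓ c) a1 (cs_hom_inf_l C c a3), e1]
        · exact e1.le.trans (cs_am_nonneg C hC _ _ _)
      · rcases cs_am_cases C h₂ c e with ⟨e2, b1, b3⟩ | e2
        · rw [cs_am_val C (b := b ⊓ c) (cs_E_dn C hle H2 b1 b3) (cs_hom_inf_r C b b3), e2]
          exact cs_vm_anti C hle e
        · exact e2.le.trans (cs_am_nonneg C hC _ _ _)
  · exact mul_nonneg (Finset.prod_nonneg fun y _ => cs_rf_nonneg C hC _ _ _)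
      (Finset.prod_nonneg fun y _ => cs_rf_nonneg C hC _ _ _)
  · exact mul_nonneg (isz_Z_nonneg _ _ (cs_ap_nonneg C hC _ _)) (isz_Z_nonneg _ _ (cs_ap_nonneg C hC _ _))
  · exact mul_nonneg (isz_Z_nonneg _ _ (cs_am_nonneg C hC _ _)) (isz_Z_nonneg _ _ (cs_am_nonneg C hC _ _))

/-! ## P7: exits -/

theorem cs_le_refl (h : CsHist V ι Y) : h.Le C h := by
  refine ⟨fun y => ?_, fun v β hβ => ?_, fun v β hβ => ?_, fun e he => Or.inl he,
    fun e he => Or.inl he⟩
  · rcases hp : h.pT y with _ | θ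
    · exact Or.inl ⟨rfl, rfl⟩
    · exact Or.inr ⟨θ, θ, rfl, rfl, le_rfl⟩
  · cases β
    · exact Or.inr hβ
    · exact Or.inl rfl
  · cases β
    · exact Or.inl rfl
    · exact Or.inr hβ

/-- **Prop 2.4, order** (cross multiplied). -/
theorem cs_order (hC : C.Ok) {h₁ h₂ : CsHist V ι Y} (hle : h₁.Le C h₂) (hF₁ : h₁.Full C)
    (hF₂ : h₂.Full C) (hSp₁ : ∀ b, h₁.OkB b → C.Split b) (hSp₂ : ∀ b, h₂.OkB b → C.Split b)
    {F : CsOm V Y → ℝ} (hF : Monotone F) :
    (∑ ω, C.wt h₁ ω * F ω) * C.Zh h₂ ≤ C.Zh h₁ * ∑ ω, C.wt h₂ ω * F ω := by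
  have key := cs_stage_holley (w₁ := C.wf h₁) (w₂ := C.wf h₂) (F := F) (cs_wf_nonneg C hC h₁)
    (cs_wf_nonneg C hC h₂)
    (fun a a' => by
      rw [cs_mf_eq C hC h₁ hSp₁, cs_mf_eq C hC h₂ hSp₂, cs_mf_eq C hC h₁ hSp₁,
        cs_mf_eq C hC h₂ hSp₂]
      exact cs_marg C hC hle hF₁ hF₂ a a')
    (fun a a' haa t t' => cs_fibre C hC hle haa t t') hF
  have hK := cs_K_pos C
  set K := (iszN Bool C.s C.t univ : ℝ) with hKdef
  simp_rw [cs_wf_eq C hC h₁ hSp₁, cs_wf_eq C hC h₂ hSp₂, mul_assoc, ← Finset.mul_sum] at key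
  unfold CellSys.Zh
  have hKK : 0 < K * K := mul_pos hK hK
  refine le_of_mul_le_mul_left ?_ hKK
  calc K * K * ((∑ ω, C.wt h₁ ω * F ω) * ∑ ω, C.wt h₂ ω)
      = K * (∑ ω, C.wt h₁ ω * F ω) * (K * ∑ ω, C.wt h₂ ω) := by ring
    _ ≤ K * (∑ ω, C.wt h₁ ω) * (K * ∑ ω, C.wt h₂ ω * F ω) := key
    _ = _ := by ring

/-- **Prop 2.4, association** (cross multiplied). -/
theorem cs_assoc (hC : C.Ok) {h : CsHist V ι Y} (hF₁ : h.Full C)
    (hSp : ∀ b, h.OkB b → C.Split b) {F G : CsOm V Y → ℝ} (hF : Monotone F) (hG : Monotone G) :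
    (∑ ω, C.wt h ω * F ω) * (∑ ω, C.wt h ω * G ω) ≤ C.Zh h * ∑ ω, C.wt h ω * (F ω * G ω) := by
  have hle := cs_le_refl C h
  have key := cs_stage_fkg (w := C.wf h) (F := F) (G := G) (cs_wf_nonneg C hC h)
    (fun a a' => by
      rw [cs_mf_eq C hC h hSp, cs_mf_eq C hC h hSp, cs_mf_eq C hC h hSp, cs_mf_eq C hC h hSp]
      exact cs_marg C hC hle hF₁ hF₁ a a')
    (fun a a' haa t t' => cs_fibre C hC hle haa t t') hF hG
  have hK := cs_K_pos C
  set K := (iszN Bool C.s C.t univ : ℝ) with hKdef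
  simp_rw [cs_wf_eq C hC h hSp, mul_assoc, ← Finset.mul_sum] at key
  unfold CellSys.Zh
  have hKK : 0 < K * K := mul_pos hK hK
  refine le_of_mul_le_mul_left ?_ hKK
  calc K * K * ((∑ ω, C.wt h ω * F ω) * ∑ ω, C.wt h ω * G ω)
      = K * (∑ ω, C.wt h ω * F ω) * (K * ∑ ω, C.wt h ω * G ω) := by ring
    _ ≤ K * (∑ ω, C.wt h ω) * (K * ∑ ω, C.wt h ω * (F ω * G ω)) := key
    _ = _ := by ring

/-- normalised order. -/
theorem cs_Ex_order (hC : C.Ok) {h₁ h₂ : CsHist V ι Y} (hle : h₁.Le C h₂) (hF₁ : h₁.Full C)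
    (hF₂ : h₂.Full C) (hSp₁ : ∀ b, h₁.OkB b → C.Split b) (hSp₂ : ∀ b, h₂.OkB b → C.Split b)
    (hZ₁ : 0 < C.Zh h₁) (hZ₂ : 0 < C.Zh h₂) {F : CsOm V Y → ℝ} (hF : Monotone F) :
    C.Ex h₁ F ≤ C.Ex h₂ F := by
  unfold CellSys.Ex
  rw [div_le_div_iff₀ hZ₁ hZ₂]
  have := cs_order C hC hle hF₁ hF₂ hSp₁ hSp₂ hF
  linarith

/-- normalised association. -/
theorem cs_Ex_assoc (hC : C.Ok) {h : CsHist V ι Y} (hF₁ : h.Full C)
    (hSp : ∀ b, h.OkB b → C.Split b) (hZ : 0 < C.Zh h) {F G : CsOm V Y → ℝ} (hF : Monotone F)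
    (hG : Monotone G) : C.Ex h F * C.Ex h G ≤ C.Ex h (fun ω => F ω * G ω) := by
  unfold CellSys.Ex
  rw [div_mul_div_comm, div_le_div_iff₀ (mul_pos hZ hZ) hZ]
  have := cs_assoc C hC hF₁ hSp hF hG
  nlinarith [this, hZ]

/-! ## P8: extra open cells (last sentences of Prop 2.4) -/

/-- **generalised order of histories**: as `CsHist.Le`, but the upper history may observe extra open-plus cells and the lower
history extra open-minus cells. -/
structure CsHist.LeG (C : CellSys V ι Y) (h₁ h₂ : CsHist V ι Y) : Prop where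
  pT_up : ∀ y θ, h₂.pT y = some θ → θ = 1 ∨ ∃ θ₁, h₁.pT y = some θ₁ ∧ θ₁ ≤ θ
  pT_dn : ∀ y θ, h₁.pT y = some θ → θ = -1 ∨ ∃ θ₂, h₂.pT y = some θ₂ ∧ θ ≤ θ₂
  pB_up : ∀ v β, h₂.pB v = some β → β = true ∨ h₁.pB v = some false
  pB_dn : ∀ v β, h₁.pB v = some β → β = false ∨ h₂.pB v = some true
  E_dn : ∀ e ∈ h₁.E0, e ∈ h₂.E0 ∨ (h₁.pB (C.s e) = some true ∧ h₁.pB (C.t e) = some true ∧
    h₂.pB (C.s e) = some true ∧ h₂.pB (C.t e) = some true)
  E_up : ∀ e ∈ h₂.E0, e ∈ h₁.E0 ∨ (h₁.pB (C.s e) = some false ∧ h₁.pB (C.t e) = some false ∧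
    h₂.pB (C.s e) = some false ∧ h₂.pB (C.t e) = some false)

/-- forget the statuses which the other history does not observe. -/
def CsHist.common (h h' : CsHist V ι Y) : CsHist V ι Y :=
  { h with pT := fun y => if (h'.pT y).isSome then h.pT y else none }

theorem cs_common_full {h h' : CsHist V ι Y} (hF : h.Full C) : (h.common h').Full C := by
  intro y θ hy e he
  unfold CsHist.common at hy
  simp only at hy
  by_cases hs : (h'.pT y).isSome
  · rw [if_pos hs] at hy
    exact hF y θ hy e he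
  · rw [if_neg hs] at hy
    exact absurd hy (by simp)

open Classical in
/-- the weight of `h` is the weight of `h.common h'` restricted to the forgotten observations. -/
theorem cs_wt_common (h h' : CsHist V ι Y) (ω : CsOm V Y) :
    C.wt h ω = C.wt (h.common h') ω
      * (if ∀ y θ, h'.pT y = none → h.pT y = some θ → ω.2 y = θ then 1 else 0) := by
  unfold CellSys.wt
  have hB : (h.common h').OkB ω.1 ↔ h.OkB ω.1 := Iff.rfl
  have hW : ∀ W, (h.common h').OkW C W ↔ h.OkW C W := fun W => Iff.rfl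
  have hT : h.OkT ω.2 ↔ ((h.common h').OkT ω.2
      ∧ ∀ y θ, h'.pT y = none → h.pT y = some θ → ω.2 y = θ) := by
    constructor
    · intro hh
      refine ⟨fun y θ hy => ?_, fun y θ _ hy => hh y θ hy⟩
      unfold CsHist.common at hy
      simp only at hy
      by_cases hs : (h'.pT y).isSome
      · rw [if_pos hs] at hy
        exact hh y θ hy
      · rw [if_neg hs] at hy
        exact absurd hy (by simp)
    · rintro ⟨h1, h2⟩ y θ hy
      by_cases hs : (h'.pT y).isSome
      · refine h1 y θ ?_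
        unfold CsHist.common
        simp only
        rw [if_pos hs]
        exact hy
      · exact h2 y θ (by simpa using hs) hy
  by_cases hb : h.OkB ω.1
  · by_cases h1 : (h.common h').OkT ω.2
    · by_cases h2 : ∀ y θ, h'.pT y = none → h.pT y = some θ → ω.2 y = θ
      · rw [if_pos ⟨hb, hT.2 ⟨h1, h2⟩⟩, if_pos ⟨hB.2 hb, h1⟩, if_pos h2, mul_one]
        rfl
      · rw [if_neg (fun hh => h2 (hT.1 hh.2).2), if_neg h2, mul_zero]
    · rw [if_neg (fun hh => h1 (hT.1 hh.2).1), if_neg (fun hh => h1 hh.2), zero_mul]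
  · rw [if_neg (fun hh => hb hh.1), if_neg (fun hh => hb hh.1), zero_mul]

theorem cs_common_le {h₁ h₂ : CsHist V ι Y} (hle : h₁.LeG C h₂) :
    (h₁.common h₂).Le C (h₂.common h₁) := by
  refine ⟨fun y => ?_, hle.pB_up, hle.pB_dn, hle.E_dn, hle.E_up⟩
  unfold CsHist.common
  simp only
  rcases h1 : h₁.pT y with _ | θ₁
  · left
    simp
  · rcases h2 : h₂.pT y with _ | θ₂
    · left
      simp
    · right
      refine ⟨θ₁, θ₂, by simp, by simp, ?_⟩
      rcases hle.pT_up y θ₂ h2 with h | ⟨θ, h3, h4⟩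
      · rw [h]
        exact (show ∀ a : SignType, a ≤ 1 by decide) θ₁
      · rw [h1] at h3
        rw [Option.some.inj h3]
        exact h4

theorem cs_sum_zero_of_Zh (hC : C.Ok) {h : CsHist V ι Y} (hZ : C.Zh h = 0) (F : CsOm V Y → ℝ) :
    ∑ ω, C.wt h ω * F ω = 0 :=
  cs_stage_zero (cs_wt_nonneg C hC h) hZ

theorem cs_Zh_nonneg (hC : C.Ok) (h : CsHist V ι Y) : 0 ≤ C.Zh h :=
  Finset.sum_nonneg fun ω _ => cs_wt_nonneg C hC h ω

/-- **Prop 2.4, order, general form**: extra open-plus cells above, extra open-minus cells below. -/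
theorem cs_order_gen (hC : C.Ok) {h₁ h₂ : CsHist V ι Y} (hle : h₁.LeG C h₂) (hF₁ : h₁.Full C)
    (hF₂ : h₂.Full C) (hSp₁ : ∀ b, h₁.OkB b → C.Split b) (hSp₂ : ∀ b, h₂.OkB b → C.Split b)
    {F : CsOm V Y → ℝ} (hF : Monotone F) :
    (∑ ω, C.wt h₁ ω * F ω) * C.Zh h₂ ≤ C.Zh h₁ * ∑ ω, C.wt h₂ ω * F ω := by
  classical
  rcases (cs_Zh_nonneg C hC h₁).eq_or_lt with hZ1 | hZ1
  · rw [cs_sum_zero_of_Zh C hC hZ1.symm, ← hZ1]; simp
  rcases (cs_Zh_nonneg C hC h₂).eq_or_lt with hZ2 | hZ2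
  · rw [cs_sum_zero_of_Zh C hC hZ2.symm, ← hZ2]; simp
  set k₁ := h₁.common h₂ with hk₁
  set k₂ := h₂.common h₁ with hk₂
  -- the two events
  set D : CsOm V Y → ℝ :=
    fun ω => if ∀ y θ, h₂.pT y = none → h₁.pT y = some θ → ω.2 y = θ then 1 else 0 with hD
  set U : CsOm V Y → ℝ :=
    fun ω => if ∀ y θ, h₁.pT y = none → h₂.pT y = some θ → ω.2 y = θ then 1 else 0 with hU
  have hDm : Monotone (fun ω => - D ω) := by
    intro ω ω' hω
    simp only [hD, neg_le_neg_iff]
    by_cases h' : ∀ y θ, h₂.pT y = none → h₁.pT y = some θ → ω'.2 y = θ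
    · have : ∀ y θ, h₂.pT y = none → h₁.pT y = some θ → ω.2 y = θ := by
        intro y θ hy1 hy2
        have h3 := h' y θ hy1 hy2
        rcases hle.pT_dn y θ hy2 with h4 | ⟨θ₂, h4, _⟩
        · have h5 : ω.2 y ≤ ω'.2 y := hω.2 y
          rw [h3, h4] at h5
          rw [h4]
          revert h5
          generalize ω.2 y = a
          revert a
          decide
        · rw [hy1] at h4
          exact absurd h4 (by simp)
      rw [if_pos h', if_pos this]
    · rw [if_neg h']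
      split_ifs <;> norm_num
  have hUm : Monotone U := by
    intro ω ω' hω
    simp only [hU]
    by_cases h' : ∀ y θ, h₁.pT y = none → h₂.pT y = some θ → ω.2 y = θ
    · have : ∀ y θ, h₁.pT y = none → h₂.pT y = some θ → ω'.2 y = θ := by
        intro y θ hy1 hy2
        have h3 := h' y θ hy1 hy2
        rcases hle.pT_up y θ hy2 with h4 | ⟨θ₂, h4, _⟩
        · have h5 : ω.2 y ≤ ω'.2 y := hω.2 y
          rw [h3, h4] at h5
          rw [h4]
          revert h5
          generalize ω'.2 y = a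
          revert a
          decide
        · rw [hy1] at h4
          exact absurd h4 (by simp)
      rw [if_pos h', if_pos this]
    · rw [if_neg h']
      split_ifs <;> norm_num
  have hw1 : ∀ ω, C.wt h₁ ω = C.wt k₁ ω * D ω := fun ω => cs_wt_common C h₁ h₂ ω
  have hw2 : ∀ ω, C.wt h₂ ω = C.wt k₂ ω * U ω := fun ω => cs_wt_common C h₂ h₁ ω
  have hkF₁ : k₁.Full C := cs_common_full C hF₁
  have hkF₂ : k₂.Full C := cs_common_full C hF₂
  have sa := cs_assoc C hC hkF₁ (h := k₁) hSp₁ hF hDm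
  have sb := cs_order C hC (cs_common_le C hle) hkF₁ hkF₂ hSp₁ hSp₂ hF
  have sc := cs_assoc C hC hkF₂ (h := k₂) hSp₂ hF hUm
  -- rewrite
  have eA1 : ∑ ω, C.wt h₁ ω * F ω = ∑ ω, C.wt k₁ ω * (F ω * D ω) := by
    refine Finset.sum_congr rfl fun ω _ => ?_
    rw [hw1]; ring
  have eZ1 : C.Zh h₁ = ∑ ω, C.wt k₁ ω * D ω := by
    unfold CellSys.Zh
    exact Finset.sum_congr rfl fun ω _ => hw1 ω
  have eA2 : ∑ ω, C.wt h₂ ω * F ω = ∑ ω, C.wt k₂ ω * (F ω * U ω) := by
    refine Finset.sum_congr rfl fun ω _ => ?_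
    rw [hw2]; ring
  have eZ2 : C.Zh h₂ = ∑ ω, C.wt k₂ ω * U ω := by
    unfold CellSys.Zh
    exact Finset.sum_congr rfl fun ω _ => hw2 ω
  simp only [mul_neg, Finset.sum_neg_distrib] at sa
  rw [← eA1, ← eZ1] at sa
  rw [← eA2, ← eZ2] at sc
  set A1 := ∑ ω, C.wt h₁ ω * F ω
  set A2 := ∑ ω, C.wt h₂ ω * F ω
  set a1 := ∑ ω, C.wt k₁ ω * F ω
  set a2 := ∑ ω, C.wt k₂ ω * F ω
  set Z1 := C.Zh h₁
  set Z2 := C.Zh h₂
  set z1 := C.Zh k₁
  set z2 := C.Zh k₂
  have hz1 : 0 < z1 := by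
    refine lt_of_lt_of_le hZ1 ?_
    rw [eZ1]
    refine Finset.sum_le_sum fun ω _ => ?_
    have : D ω ≤ 1 := by simp only [hD]; split_ifs <;> norm_num
    nlinarith [cs_wt_nonneg C hC k₁ ω]
  have hz2 : 0 < z2 := by
    refine lt_of_lt_of_le hZ2 ?_
    rw [eZ2]
    refine Finset.sum_le_sum fun ω _ => ?_
    have : U ω ≤ 1 := by simp only [hU]; split_ifs <;> norm_num
    nlinarith [cs_wt_nonneg C hC k₂ ω]
  -- sa : a1 * (-Z1) ≤ z1 * (-A1);  sb : a1 * z2 ≤ z1 * a2;  sc : a2 * Z2 ≤ z2 * A2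
  have s1 : z1 * A1 ≤ a1 * Z1 := by linarith
  refine le_of_mul_le_mul_left ?_ (mul_pos hz1 hz2)
  calc z1 * z2 * (A1 * Z2) = (z1 * A1) * (z2 * Z2) := by ring
    _ ≤ (a1 * Z1) * (z2 * Z2) := mul_le_mul_of_nonneg_right s1 (mul_pos hz2 hZ2).le
    _ = (a1 * z2) * (Z1 * Z2) := by ring
    _ ≤ (z1 * a2) * (Z1 * Z2) := mul_le_mul_of_nonneg_right sb (mul_pos hZ1 hZ2).le
    _ = (a2 * Z2) * (z1 * Z1) := by ring
    _ ≤ (z2 * A2) * (z1 * Z1) := mul_le_mul_of_nonneg_right sc (mul_pos hz1 hZ1).le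
    _ = z1 * z2 * (Z1 * A2) := by ring

/-- the equation and congruence lemmas of the definitions of this file are generated HERE, once (RULES.md, rule 6; CI board of 40) -/
theorem cs_order_eqns_cite : True := by
  have := @csX.eq_1.{0}
  have := @CellSys.op.eq_1.{0,0,0}
  have := @CellSys.om.eq_1.{0,0,0}
  have := @CellSys.wf.eq_1.{0,0,0}
  have := @CellSys.rf.eq_1.{0,0,0}
  have := @CellSys.ap.eq_1.{0,0,0}
  have := @CellSys.am.eq_1.{0,0,0}
  have := @CellSys.mf.eq_1.{0,0,0}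
  have := @CellSys.a0.eq_1.{0,0,0}
  have := @CellSys.Agr.eq_1.{0,0,0}
  have := @CellSys.vp.eq_1.{0,0,0}
  have := @CellSys.vm.eq_1.{0,0,0}
  have := @CsHist.common.eq_1.{0,0,0}
  have := @csX.congr_simp.{0}
  have := @CellSys.op.congr_simp.{0,0,0}
  have := @CellSys.om.congr_simp.{0,0,0}
  have := @CellSys.wf.congr_simp.{0,0,0}
  have := @CellSys.rf.congr_simp.{0,0,0}
  have := @CellSys.ap.congr_simp.{0,0,0}
  have := @CellSys.am.congr_simp.{0,0,0}
  have := @CellSys.mf.congr_simp.{0,0,0}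
  have := @CellSys.a0.congr_simp.{0,0,0}
  have := @CellSys.Agr.congr_simp.{0,0,0}
  have := @CellSys.vp.congr_simp.{0,0,0}
  have := @CellSys.vm.congr_simp.{0,0,0}
  have := @CsHist.common.congr_simp.{0,0,0}
  trivial

end Claimed.Agent.R291
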