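/-
# Row 291 (S0539): VIRTUAL EDGES on abstract cell systems (helper160)

TEX[annulus:plus-equalities] + 187 G1 A.4(ii) + 55 R2 / X3 (`gl_chain_eq`).

EXITS (the extended system is hidden):
* `C.wtv h Q (b, τ)` : weight under the history `h` and the extra constraints `W p.1 = W p.2`, `p ∈ Q : Finset (V × V)` (ARBITRARY pairs of
  sites, not edges);  `csv_wtv_empty : C.wtv h ∅ = C.wt h`.
* `CsChain C h β u v` : `u`, `v` pinned `β` in `h` and joined by a path of edges of `C` all of whose sites are pinned `β` in `h`.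
* `cs_order_virt` : `h₁.LeG C h₂`; every `p ∈ Q₁ ∪ Q₂` has a chain of the same sign `β` in `h₁` and in `h₂`, `β = +` if `p ∉ Q₂`, `β = -` if
  `p ∉ Q₁`  ⟹  the law `(h₁, Q₁)` is stochastically below the law `(h₂, Q₂)` (cross multiplied, no feasibility hypothesis).
* `cs_assoc_virt` : FKG for the law `(h, Q)`.
INTERNALS (exported): `csvExt C su tu` (virtual edge cells of parameters `q = xe = 1`), `csv_ok`, `csv_split` (Split survives),
`csvHist`, `csv_full`, `csv_leG`, `csv_wt`, `csv_sum` (the law is unchanged: a virtual cell between two sites pinned `β` is open of sign `β` a.s.).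
-/
import Claimed.Agent.R291.Cell.Order

set_option autoImplicit false
set_option linter.unusedSectionVars false
set_option linter.unusedVariables false
set_option linter.unusedSimpArgs false

namespace Claimed.Agent.R291

open Finset

variable {V ι Y J : Type*} [Fintype V] [DecidableEq V] [Fintype ι] [DecidableEq ι] [Fintype Y]
  [DecidableEq Y] [Fintype J] [DecidableEq J]

/-! ## 1. the extended system -/

/-- extension of a cell system by virtual edge cells `j : J` joining `su j` and `tu j`, of parameters `q = xe = 1`. -/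
def csvExt (C : CellSys V ι Y) (su tu : J → V) : CellSys V (ι ⊕ J) (Y ⊕ J) where
  s := Sum.elim C.s su
  t := Sum.elim C.t tu
  cell := Sum.elim (fun e => Sum.inl (C.cell e)) Sum.inr
  q := Sum.elim C.q (fun _ => 1)
  xe := Sum.elim C.xe (fun _ => 1)

variable (C : CellSys V ι Y) (su tu : J → V)

theorem csv_cst_inl (σ : V → Bool) (y : Y) : (csvExt C su tu).Cst σ (Sum.inl y) ↔ C.Cst σ y := by
  constructor
  · intro h e he
    exact h (Sum.inl e) (by simp [csvExt, he])
  · rintro h (e | j) he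
    · exact h e (by simpa [csvExt] using he)
    · simp [csvExt] at he

theorem csv_hom_inl (σ : V → Bool) (y : Y) (β : Bool) :
    (csvExt C su tu).Hom σ (Sum.inl y) β ↔ C.Hom σ y β := by
  constructor
  · intro h e he
    exact h (Sum.inl e) (by simp [csvExt, he])
  · rintro h (e | j) he
    · exact h e (by simpa [csvExt] using he)
    · simp [csvExt] at he

theorem csv_cst_inr (σ : V → Bool) (j : J) :
    (csvExt C su tu).Cst σ (Sum.inr j) ↔ σ (su j) = σ (tu j) := by
  constructor
  · intro h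
    exact h (Sum.inr j) rfl
  · rintro h (e | j') he
    · simp [csvExt] at he
    · have : j' = j := by simpa [csvExt] using he
      subst this
      exact h

theorem csv_hom_inr (σ : V → Bool) (j : J) (β : Bool) :
    (csvExt C su tu).Hom σ (Sum.inr j) β ↔ σ (su j) = β ∧ σ (tu j) = β := by
  constructor
  · intro h
    exact h (Sum.inr j) rfl
  · rintro h (e | j') he
    · simp [csvExt] at he
    · have : j' = j := by simpa [csvExt] using he
      subst this
      exact h

theorem csv_ok (hC : C.Ok) : (csvExt C su tu).Ok := by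
  classical
  refine ⟨?_, ?_, ?_, ?_, ?_, ?_, ?_⟩
  · rintro (y | j)
    · exact hC.q0 y
    · exact zero_le_one
  · rintro (y | j)
    · exact hC.q1 y
    · exact le_rfl
  · rintro (e | j)
    · exact hC.x0 e
    · exact zero_le_one
  · rintro (e | j)
    · exact hC.x1 e
    · exact le_rfl
  · rintro (y | j)
    · rcases hC.ne y with ⟨e, he⟩ | h
      · exact Or.inl ⟨Sum.inl e, by simp [csvExt, he]⟩
      · exact Or.inr h
    · exact Or.inl ⟨Sum.inr j, rfl⟩
  · rintro σ (y | j) h
    · rw [csv_cst_inl] at h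
      rw [csv_hom_inl, csv_hom_inl]
      exact hC.conn σ y h
    · rw [csv_cst_inr] at h
      rw [csv_hom_inr, csv_hom_inr]
      rw [← h]
      cases σ (su j) <;> simp
  · rintro σ (y | j) h
    · rw [csv_cst_inl] at h
      have := hC.wall σ y h
      rw [Finset.prod_filter] at this ⊢
      rw [Fintype.prod_sum_type]
      have h2 : ∏ j : J, (if (csvExt C su tu).cell (Sum.inr j) = Sum.inl y then
          (if σ ((csvExt C su tu).s (Sum.inr j)) = σ ((csvExt C su tu).t (Sum.inr j)) then (1:ℝ)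
            else (csvExt C su tu).xe (Sum.inr j)) else 1) = 1 := by
        refine Finset.prod_eq_one fun j _ => ?_
        rw [if_neg (by simp [csvExt])]
      rw [h2, mul_one]
      rw [show (csvExt C su tu).q (Sum.inl y) = C.q y from rfl, ← this]
      refine Finset.prod_congr rfl fun e _ => ?_
      by_cases hy : C.cell e = y <;> by_cases hs : σ (C.s e) = σ (C.t e) <;>
        simp [csvExt, hy, hs]
    · rw [show (csvExt C su tu).q (Sum.inr j) = 1 from rfl]
      refine Finset.prod_eq_one ?_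
      rintro (e | j') he
      · exact absurd (Finset.mem_filter.1 he).2 (by simp [csvExt])
      · rw [show (csvExt C su tu).xe (Sum.inr j') = 1 from rfl]
        split_ifs <;> rfl


/-! ## 2. histories -/

/-- lift of a history: the virtual cells are not observed, the virtual edges of `E` are equality edges. -/
def csvHist (h : CsHist V ι Y) (E : Finset J) : CsHist V (ι ⊕ J) (Y ⊕ J) where
  pB := h.pB
  pT := Sum.elim h.pT (fun _ => none)
  E0 := h.E0.disjSum E

theorem csv_full {h : CsHist V ι Y} (hF : h.Full C) (E : Finset J) :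
    (csvHist h E).Full (csvExt C su tu) := by
  rintro (y | j) θ hy
  · rintro (e | j') he
    · exact hF y θ hy e (by simpa [csvExt] using he)
    · simp [csvExt] at he
  · simp [csvHist] at hy

theorem csv_okB (h : CsHist V ι Y) (E : Finset J) (b : V → Bool) :
    (csvHist h E).OkB b ↔ h.OkB b := Iff.rfl

theorem csv_okT (h : CsHist V ι Y) (E : Finset J) (τ : Y ⊕ J → SignType) :
    (csvHist h E).OkT τ ↔ h.OkT (fun y => τ (Sum.inl y)) := by
  constructor
  · intro hh y θ hy
    exact hh (Sum.inl y) θ hy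
  · rintro hh (y | j) θ hy
    · exact hh y θ hy
    · simp [csvHist] at hy

theorem csv_okW (h : CsHist V ι Y) (E : Finset J) (W : V → Bool) :
    (csvHist h E).OkW (csvExt C su tu) W ↔ (h.OkW C W ∧ ∀ j ∈ E, W (su j) = W (tu j)) := by
  constructor
  · intro hh
    exact ⟨fun e he => hh (Sum.inl e) (Finset.inl_mem_disjSum.2 he),
      fun j hj => hh (Sum.inr j) (Finset.inr_mem_disjSum.2 hj)⟩
  · rintro ⟨h1, h2⟩ (e | j) he
    · exact h1 e (Finset.inl_mem_disjSum.1 he)
    · exact h2 j (Finset.inr_mem_disjSum.1 he)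

theorem csv_leG {h₁ h₂ : CsHist V ι Y} (hle : h₁.LeG C h₂) {E₁ E₂ : Finset J}
    (hdn : ∀ j ∈ E₁, j ∈ E₂ ∨ (h₁.pB (su j) = some true ∧ h₁.pB (tu j) = some true ∧
      h₂.pB (su j) = some true ∧ h₂.pB (tu j) = some true))
    (hup : ∀ j ∈ E₂, j ∈ E₁ ∨ (h₁.pB (su j) = some false ∧ h₁.pB (tu j) = some false ∧
      h₂.pB (su j) = some false ∧ h₂.pB (tu j) = some false)) :
    (csvHist h₁ E₁).LeG (csvExt C su tu) (csvHist h₂ E₂) := by
  refine ⟨?_, ?_, hle.pB_up, hle.pB_dn, ?_, ?_⟩
  · rintro (y | j) θ hy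
    · exact hle.pT_up y θ hy
    · simp [csvHist] at hy
  · rintro (y | j) θ hy
    · exact hle.pT_dn y θ hy
    · simp [csvHist] at hy
  · rintro (e | j) he
    · rcases hle.E_dn e (Finset.inl_mem_disjSum.1 he) with h | h
      · exact Or.inl (Finset.inl_mem_disjSum.2 h)
      · exact Or.inr h
    · rcases hdn j (Finset.inr_mem_disjSum.1 he) with h | h
      · exact Or.inl (Finset.inr_mem_disjSum.2 h)
      · exact Or.inr h
  · rintro (e | j) he
    · rcases hle.E_up e (Finset.inl_mem_disjSum.1 he) with h | h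
      · exact Or.inl (Finset.inl_mem_disjSum.2 h)
      · exact Or.inr h
    · rcases hup j (Finset.inr_mem_disjSum.1 he) with h | h
      · exact Or.inl (Finset.inr_mem_disjSum.2 h)
      · exact Or.inr h

/-! ## 3. `Split` survives -/

/-- one step of a chain of sites carrying the value `β` of `b`. -/
def CellSys.BStep (b : V → Bool) (β : Bool) (u v : V) : Prop :=
  (∃ e, (C.s e = u ∧ C.t e = v) ∨ (C.s e = v ∧ C.t e = u)) ∧ b u = β ∧ b v = β

theorem csv_bool1 : ∀ a1 a2 a3 a4 : Bool, ((a1 ≠ a2) ↔ (a3 ≠ a4)) → (xor a1 a3 = xor a2 a4) := by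
  decide

theorem csv_bool2 : ∀ a1 a2 a3 a4 : Bool, (xor a1 a3 = xor a2 a4) → ((a1 ≠ a2) ↔ (a3 ≠ a4)) := by
  decide

theorem csv_split {b : V → Bool} (hSp : C.Split b)
    (hch : ∀ j, ∃ β, b (su j) = β ∧ Relation.ReflTransGen (C.BStep b β) (su j) (tu j)) :
    (csvExt C su tu).Split b := by
  intro W hW
  obtain ⟨σ, hσ⟩ := hSp W (fun e he => hW (Sum.inl e) he)
  refine ⟨σ, ?_⟩
  rintro (e | j)
  · exact hσ e
  · obtain ⟨β, hβ, hr⟩ := hch j
    show σ (su j) ≠ σ (tu j) ↔ (W (su j) ≠ W (tu j) ∧ b (su j) = true)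
    cases β
    · -- minus chain: σ is constant along it
      have key : σ (su j) = σ (tu j) := by
        generalize tu j = w at hr
        induction hr with
        | refl => rfl
        | tail _ hstep ih =>
          obtain ⟨⟨e, he⟩, hb1, hb2⟩ := hstep
          rw [ih]
          have h1 := hσ e
          rcases he with ⟨e1, e2⟩ | ⟨e1, e2⟩
          · rw [e1, e2, hb1] at h1
            by_contra hne
            exact absurd (h1.1 hne).2 (by decide)
          · rw [e1, e2, hb2] at h1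
            by_contra hne
            exact absurd (h1.1 (fun hh => hne hh.symm)).2 (by decide)
      rw [hβ]
      constructor
      · intro h; exact absurd key h
      · intro h; exact absurd h.2 (by decide)
    · -- plus chain: σ xor W is constant along it
      have key : xor (σ (su j)) (W (su j)) = xor (σ (tu j)) (W (tu j)) := by
        generalize tu j = w at hr
        induction hr with
        | refl => rfl
        | tail _ hstep ih =>
          obtain ⟨⟨e, he⟩, hb1, hb2⟩ := hstep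
          rw [ih]
          have h1 := hσ e
          rcases he with ⟨e1, e2⟩ | ⟨e1, e2⟩
          · rw [e1, e2, hb1] at h1
            exact csv_bool1 _ _ _ _ (h1.trans (and_iff_left rfl))
          · rw [e1, e2, hb2] at h1
            exact (csv_bool1 _ _ _ _ (h1.trans (and_iff_left rfl))).symm
      rw [hβ]
      exact (csv_bool2 _ _ _ _ key).trans (and_iff_left rfl).symm


/-! ## 4. the law is unchanged -/

open Classical in
/-- weight of `(B, τ)` under the history `h` and the VIRTUAL equalities `W p.1 = W p.2`, `p ∈ Q` (arbitrary pairs of sites). -/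
noncomputable def CellSys.wtv (C : CellSys V ι Y) (h : CsHist V ι Y) (Q : Finset (V × V))
    (ω : CsOm V Y) : ℝ :=
  if h.OkB ω.1 ∧ h.OkT ω.2 then
    ∑ W : V → Bool, (if h.OkW C W ∧ ∀ p ∈ Q, W p.1 = W p.2 then C.jw ω.1 W ω.2 else 0)
  else 0

/-- the status of an open cell of sign `β`. -/
def csvSg (β : Bool) : SignType := if β then 1 else -1

theorem csv_cw_inl (b W : V → Bool) (y : Y) (θ : SignType) :
    (csvExt C su tu).cw b W (Sum.inl y) θ = C.cw b W y θ := by
  unfold CellSys.cw CellSys.kf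
  rw [propext (csv_cst_inl C su tu b y), propext (csv_cst_inl C su tu W y),
    propext (csv_hom_inl C su tu b y true), propext (csv_hom_inl C su tu b y false)]
  rfl

theorem csv_cw_inr {b : V → Bool} (W : V → Bool) {j : J} {β : Bool} (h1 : b (su j) = β)
    (h2 : b (tu j) = β) (θ : SignType) :
    (csvExt C su tu).cw b W (Sum.inr j) θ = if θ = csvSg β then 1 else 0 := by
  classical
  unfold CellSys.cw CellSys.kf
  rw [propext (csv_cst_inr C su tu b j), propext (csv_hom_inr C su tu b j true),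
    propext (csv_hom_inr C su tu b j false), h1, h2,
    show (csvExt C su tu).q (Sum.inr j) = 1 from rfl]
  cases β <;> rcases cs_sign_cases θ with h0 | h0 | h0 <;> subst h0 <;> simp [csvSg]

open Classical in
theorem csv_jw {b : V → Bool} (W : V → Bool) (τ : Y ⊕ J → SignType) {sg : J → Bool}
    (h1 : ∀ j, b (su j) = sg j) (h2 : ∀ j, b (tu j) = sg j) :
    (csvExt C su tu).jw b W τ
      = (if ∀ j, τ (Sum.inr j) = csvSg (sg j) then 1 else 0) * C.jw b W (fun y => τ (Sum.inl y)) := by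
  unfold CellSys.jw
  rw [Fintype.prod_sum_type]
  simp_rw [csv_cw_inl, csv_cw_inr C su tu W (h1 _) (h2 _)]
  rw [Finset.prod_ite_zero, mul_comm]
  simp

open Classical in
theorem csv_wt {h : CsHist V ι Y} (E : Finset J) {sg : J → Bool}
    (h1 : ∀ j, h.pB (su j) = some (sg j)) (h2 : ∀ j, h.pB (tu j) = some (sg j))
    (b : V → Bool) (τ : Y ⊕ J → SignType) :
    (csvExt C su tu).wt (csvHist h E) (b, τ)
      = (if ∀ j, τ (Sum.inr j) = csvSg (sg j) then 1 else 0)
        * C.wtv h (E.image fun j => (su j, tu j)) (b, fun y => τ (Sum.inl y)) := by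
  unfold CellSys.wt CellSys.wtv
  simp only [csv_okB, csv_okT]
  by_cases hok : h.OkB b ∧ h.OkT (fun y => τ (Sum.inl y))
  · rw [if_pos hok, if_pos hok, Finset.mul_sum]
    refine Finset.sum_congr rfl fun W _ => ?_
    have hW : (csvHist h E).OkW (csvExt C su tu) W
        ↔ (h.OkW C W ∧ ∀ p ∈ E.image fun j => (su j, tu j), W p.1 = W p.2) := by
      rw [csv_okW]
      refine and_congr_right fun _ => ?_
      simp only [Finset.mem_image, forall_exists_index, and_imp]
      constructor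
      · rintro hh p j hj rfl
        exact hh j hj
      · intro hh j hj
        exact hh (su j, tu j) j hj rfl
    rw [csv_jw C su tu W τ (fun j => hok.1 _ _ (h1 j)) (fun j => hok.1 _ _ (h2 j))]
    by_cases hw : (csvHist h E).OkW (csvExt C su tu) W
    · rw [if_pos hw, if_pos (hW.1 hw)]
    · rw [if_neg hw, if_neg (fun hh => hw (hW.2 hh)), mul_zero]
  · rw [if_neg hok, if_neg hok, mul_zero]

/-- transfer of sums. -/
theorem csv_sum {h : CsHist V ι Y} (E : Finset J) {sg : J → Bool}
    (h1 : ∀ j, h.pB (su j) = some (sg j)) (h2 : ∀ j, h.pB (tu j) = some (sg j))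
    (F : CsOm V Y → ℝ) :
    ∑ ω : CsOm V (Y ⊕ J), (csvExt C su tu).wt (csvHist h E) ω
        * F (ω.1, fun y => ω.2 (Sum.inl y))
      = ∑ ω : CsOm V Y, C.wtv h (E.image fun j => (su j, tu j)) ω * F ω := by
  classical
  rw [Fintype.sum_prod_type, Fintype.sum_prod_type]
  refine Finset.sum_congr rfl fun b _ => ?_
  rw [← Equiv.sum_comp (Equiv.sumArrowEquivProdArrow Y J SignType).symm, Fintype.sum_prod_type]
  refine Finset.sum_congr rfl fun τ _ => ?_
  simp only [csv_wt C su tu E h1 h2]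
  have e1 : ∀ τJ : J → SignType, ∀ y,
      (Equiv.sumArrowEquivProdArrow Y J SignType).symm (τ, τJ) (Sum.inl y) = τ y := fun _ _ => rfl
  have e2 : ∀ τJ : J → SignType, ∀ j,
      (Equiv.sumArrowEquivProdArrow Y J SignType).symm (τ, τJ) (Sum.inr j) = τJ j := fun _ _ => rfl
  simp only [e1, e2]
  have e3 : ∀ τJ : J → SignType, (∀ j, τJ j = csvSg (sg j)) ↔ τJ = fun j => csvSg (sg j) :=
    fun τJ => ⟨fun hh => funext hh, fun hh j => by rw [hh]⟩
  simp only [e3, ite_mul, one_mul, zero_mul]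
  rw [Finset.sum_ite_eq' univ (fun j => csvSg (sg j))]
  simp


/-! ## 5. EXITS -/

/-- `u` and `v` are pinned `β` in `h` and joined by a path of edges of `C` all of whose sites are pinned `β` in `h`. -/
def CsChain (C : CellSys V ι Y) (h : CsHist V ι Y) (β : Bool) (u v : V) : Prop :=
  h.pB u = some β ∧ h.pB v = some β ∧
    Relation.ReflTransGen (fun a b => (∃ e, (C.s e = a ∧ C.t e = b) ∨ (C.s e = b ∧ C.t e = a)) ∧
      h.pB a = some β ∧ h.pB b = some β) u v

omit [Fintype V] [DecidableEq V] [Fintype ι] [DecidableEq ι] [Fintype Y] [DecidableEq Y] in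
theorem csv_chain_b {h : CsHist V ι Y} {β : Bool} {u v : V} (hc : CsChain C h β u v)
    {b : V → Bool} (hb : h.OkB b) : b u = β ∧ Relation.ReflTransGen (C.BStep b β) u v := by
  refine ⟨hb _ _ hc.1, Relation.ReflTransGen.mono ?_ _ _ hc.2.2⟩
  rintro a c ⟨he, h1, h2⟩
  exact ⟨he, hb _ _ h1, hb _ _ h2⟩

theorem csv_image_filter (Q₁ Q : Finset (V × V)) (hQ : Q₁ ⊆ Q) :
    ((univ : Finset {p // p ∈ Q}).filter fun j => j.1 ∈ Q₁).image (fun j => (j.1.1, j.1.2)) = Q₁ := by
  ext p
  simp only [Finset.mem_image, Finset.mem_filter, Finset.mem_univ, true_and, Subtype.exists,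
    exists_and_left, exists_prop]
  constructor
  · rintro ⟨a, ha, _, rfl⟩
    exact ha
  · intro hp
    exact ⟨p, hp, hQ hp, rfl⟩

/-- **Order with virtual equalities** (187 A.4(ii), 55 R2/X3; contains Prop 2.4, Lemma 9.1, Lemma 9.8). -/
theorem cs_order_virt (hC : C.Ok) {h₁ h₂ : CsHist V ι Y} (hle : h₁.LeG C h₂) (hF₁ : h₁.Full C)
    (hF₂ : h₂.Full C) (hSp₁ : ∀ b, h₁.OkB b → C.Split b) (hSp₂ : ∀ b, h₂.OkB b → C.Split b)
    (Q₁ Q₂ : Finset (V × V))
    (hch : ∀ p ∈ Q₁ ∪ Q₂, ∃ β, CsChain C h₁ β p.1 p.2 ∧ CsChain C h₂ β p.1 p.2 ∧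
      (p ∉ Q₂ → β = true) ∧ (p ∉ Q₁ → β = false))
    {F : CsOm V Y → ℝ} (hF : Monotone F) :
    (∑ ω, C.wtv h₁ Q₁ ω * F ω) * (∑ ω, C.wtv h₂ Q₂ ω)
      ≤ (∑ ω, C.wtv h₁ Q₁ ω) * ∑ ω, C.wtv h₂ Q₂ ω * F ω := by
  classical
  set su : {p // p ∈ Q₁ ∪ Q₂} → V := fun j => j.1.1 with hsu
  set tu : {p // p ∈ Q₁ ∪ Q₂} → V := fun j => j.1.2 with htu
  choose! sg hsg using hch
  set sj : {p // p ∈ Q₁ ∪ Q₂} → Bool := fun j => sg j.1 with hsj
  set E₁ : Finset {p // p ∈ Q₁ ∪ Q₂} := univ.filter fun j => j.1 ∈ Q₁ with hE₁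
  set E₂ : Finset {p // p ∈ Q₁ ∪ Q₂} := univ.filter fun j => j.1 ∈ Q₂ with hE₂
  have hi₁ : E₁.image (fun j => (su j, tu j)) = Q₁ :=
    csv_image_filter Q₁ (Q₁ ∪ Q₂) Finset.subset_union_left
  have hi₂ : E₂.image (fun j => (su j, tu j)) = Q₂ :=
    csv_image_filter Q₂ (Q₁ ∪ Q₂) Finset.subset_union_right
  have hleG : (csvHist h₁ E₁).LeG (csvExt C su tu) (csvHist h₂ E₂) := by
    refine csv_leG C su tu hle ?_ ?_
    · intro j _
      by_cases h2 : j.1 ∈ Q₂
      · exact Or.inl (Finset.mem_filter.2 ⟨Finset.mem_univ _, h2⟩)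
      · obtain ⟨c1, c2, c3, _⟩ := hsg j.1 j.2
        have := c3 h2
        rw [this] at c1 c2
        exact Or.inr ⟨c1.1, c1.2.1, c2.1, c2.2.1⟩
    · intro j _
      by_cases h1 : j.1 ∈ Q₁
      · exact Or.inl (Finset.mem_filter.2 ⟨Finset.mem_univ _, h1⟩)
      · obtain ⟨c1, c2, _, c4⟩ := hsg j.1 j.2
        have := c4 h1
        rw [this] at c1 c2
        exact Or.inr ⟨c1.1, c1.2.1, c2.1, c2.2.1⟩
  have hs₁ : ∀ b, (csvHist h₁ E₁).OkB b → (csvExt C su tu).Split b := fun b hb =>
    csv_split C su tu (hSp₁ b hb) fun j => ⟨sj j, csv_chain_b C (hsg j.1 j.2).1 hb⟩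
  have hs₂ : ∀ b, (csvHist h₂ E₂).OkB b → (csvExt C su tu).Split b := fun b hb =>
    csv_split C su tu (hSp₂ b hb) fun j => ⟨sj j, csv_chain_b C (hsg j.1 j.2).2.1 hb⟩
  have hFm : Monotone (fun ω : CsOm V (Y ⊕ {p // p ∈ Q₁ ∪ Q₂}) =>
      F (ω.1, fun y => ω.2 (Sum.inl y))) := by
    intro ω ω' hω
    exact hF (Prod.mk_le_mk.2 ⟨hω.1, fun y => hω.2 (Sum.inl y)⟩)
  have key := cs_order_gen (csvExt C su tu) (csv_ok C su tu hC) hleG (csv_full C su tu hF₁ E₁)
    (csv_full C su tu hF₂ E₂) hs₁ hs₂ hFm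
  have p1 : ∀ j, h₁.pB (su j) = some (sj j) := fun j => (hsg j.1 j.2).1.1
  have p1' : ∀ j, h₁.pB (tu j) = some (sj j) := fun j => (hsg j.1 j.2).1.2.1
  have p2 : ∀ j, h₂.pB (su j) = some (sj j) := fun j => (hsg j.1 j.2).2.1.1
  have p2' : ∀ j, h₂.pB (tu j) = some (sj j) := fun j => (hsg j.1 j.2).2.1.2.1
  have z1 : (csvExt C su tu).Zh (csvHist h₁ E₁) = ∑ ω, C.wtv h₁ Q₁ ω := by
    have := csv_sum C su tu E₁ p1 p1' (fun _ => 1)
    simp only [mul_one] at this
    rw [hi₁] at this
    exact this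
  have z2 : (csvExt C su tu).Zh (csvHist h₂ E₂) = ∑ ω, C.wtv h₂ Q₂ ω := by
    have := csv_sum C su tu E₂ p2 p2' (fun _ => 1)
    simp only [mul_one] at this
    rw [hi₂] at this
    exact this
  have a1 := csv_sum C su tu E₁ p1 p1' F
  have a2 := csv_sum C su tu E₂ p2 p2' F
  rw [hi₁] at a1
  rw [hi₂] at a2
  rw [a1, a2, z1, z2] at key
  exact key

/-- **Association with virtual equalities.** -/
theorem cs_assoc_virt (hC : C.Ok) {h : CsHist V ι Y} (hF₁ : h.Full C)
    (hSp : ∀ b, h.OkB b → C.Split b) (Q : Finset (V × V))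
    (hch : ∀ p ∈ Q, ∃ β, CsChain C h β p.1 p.2)
    {F G : CsOm V Y → ℝ} (hF : Monotone F) (hG : Monotone G) :
    (∑ ω, C.wtv h Q ω * F ω) * (∑ ω, C.wtv h Q ω * G ω)
      ≤ (∑ ω, C.wtv h Q ω) * ∑ ω, C.wtv h Q ω * (F ω * G ω) := by
  classical
  set su : {p // p ∈ Q} → V := fun j => j.1.1 with hsu
  set tu : {p // p ∈ Q} → V := fun j => j.1.2 with htu
  choose! sg hsg using hch
  set sj : {p // p ∈ Q} → Bool := fun j => sg j.1 with hsj
  set E : Finset {p // p ∈ Q} := univ.filter fun j => j.1 ∈ Q with hE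
  have hi : E.image (fun j => (su j, tu j)) = Q := csv_image_filter Q Q subset_rfl
  have hs : ∀ b, (csvHist h E).OkB b → (csvExt C su tu).Split b := fun b hb =>
    csv_split C su tu (hSp b hb) fun j => ⟨sj j, csv_chain_b C (hsg j.1 j.2) hb⟩
  have hFm : Monotone (fun ω : CsOm V (Y ⊕ {p // p ∈ Q}) => F (ω.1, fun y => ω.2 (Sum.inl y))) := by
    intro ω ω' hω
    exact hF (Prod.mk_le_mk.2 ⟨hω.1, fun y => hω.2 (Sum.inl y)⟩)
  have hGm : Monotone (fun ω : CsOm V (Y ⊕ {p // p ∈ Q}) => G (ω.1, fun y => ω.2 (Sum.inl y))) := by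
    intro ω ω' hω
    exact hG (Prod.mk_le_mk.2 ⟨hω.1, fun y => hω.2 (Sum.inl y)⟩)
  have key := cs_assoc (csvExt C su tu) (csv_ok C su tu hC) (csv_full C su tu hF₁ E) hs hFm hGm
  have p1 : ∀ j, h.pB (su j) = some (sj j) := fun j => (hsg j.1 j.2).1
  have p1' : ∀ j, h.pB (tu j) = some (sj j) := fun j => (hsg j.1 j.2).2.1
  have z1 : (csvExt C su tu).Zh (csvHist h E) = ∑ ω, C.wtv h Q ω := by
    have := csv_sum C su tu E p1 p1' (fun _ => 1)
    simp only [mul_one] at this
    rw [hi] at this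
    exact this
  have a1 := csv_sum C su tu E p1 p1' F
  have a2 := csv_sum C su tu E p1 p1' G
  have a3 := csv_sum C su tu E p1 p1' (fun ω => F ω * G ω)
  rw [hi] at a1 a2 a3
  rw [a1, a2, a3, z1] at key
  exact key

/-- no virtual equality: the ordinary weight. -/
theorem csv_wtv_empty (h : CsHist V ι Y) (ω : CsOm V Y) : C.wtv h ∅ ω = C.wt h ω := by
  classical
  unfold CellSys.wtv CellSys.wt
  have : ∀ W : V → Bool, (h.OkW C W ∧ ∀ p ∈ (∅ : Finset (V × V)), W p.1 = W p.2) ↔ h.OkW C W :=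
    fun W => ⟨fun hh => hh.1, fun hh => ⟨hh, fun p hp => absurd hp (Finset.notMem_empty p)⟩⟩
  by_cases hok : h.OkB ω.1 ∧ h.OkT ω.2
  · rw [if_pos hok, if_pos hok]
    refine Finset.sum_congr rfl fun W _ => ?_
    by_cases hW : h.OkW C W
    · rw [if_pos hW, if_pos ((this W).2 hW)]
    · rw [if_neg hW, if_neg (fun hh => hW ((this W).1 hh))]
  · rw [if_neg hok, if_neg hok]

/-- the equation and congruence lemmas of the definitions of this file are generated HERE, once (RULES.md, rule 6; CI board of 40) -/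
theorem csv_eqns_cite : True := by
  have := @csvExt.eq_1.{0,0,0,0}
  have := @csvHist.eq_1.{0,0,0,0}
  have := @CellSys.BStep.eq_1.{0,0,0}
  have := @CellSys.wtv.eq_1.{0,0,0}
  have := @csvSg.eq_1
  have := @CsChain.eq_1.{0,0,0}
  have := @csvExt.congr_simp.{0,0,0,0}
  have := @csvHist.congr_simp.{0,0,0,0}
  have := @CellSys.BStep.congr_simp.{0,0,0}
  have := @CellSys.wtv.congr_simp.{0,0,0}
  have := @csvSg.congr_simp
  have := @CsChain.congr_simp.{0,0,0}
  trivial

end Claimed.Agent.R291
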