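/-
# Row 291 (S0539), Cell/VirtAd : VIRTUAL TIES ON `ClSys`   (helper160; prefix `cva`)

The adapter of 46 (`Cell/Adapt.lean`, `CellSys` -> `ClSys`) for histories whose second-spin equalities are NOT all edges of cells:
a tie `W u = W v` between two sites joined by a chain (`TscR S.gr`) of common plus pins, or of common minus pins
(TEX[annulus:plus-equalities] = Lemma 9.8; 187 A.4(ii); 278 D1; tool T4 of the chain of Theorem 2.3).

* `cvaCon K P` = `K` without the ties selected by `P` (the VIRTUAL ties), `cvaQ S K P` = the virtual ties as pairs of sites of `cadSys S`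
* `cva_N`, `cva_Z` : THE DICTIONARY `S.N (K.Holds S) G = ∑ p, (cadSys S).wtv (cadHist S (cvaCon K P)) (cvaQ S K P) p * cadF S G p`
* `cva_chain` : a chain of `S.gr` inside a set of sites pinned `β` is a `CsChain` of `cadSys S`
* EXITS  `cva_order` (= `am_order_eq` of `Ann/Model.lean` with its hypotheses unbundled), `cva_assoc` (FKG with virtual ties).
-/
import Claimed.Agent.R291.Cell.Virt
import Claimed.Agent.R291.Defs.Cut

set_option autoImplicit false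
set_option linter.unusedSectionVars false
set_option linter.unusedVariables false
set_option linter.unusedSimpArgs false

namespace Claimed.Agent.R291

open Finset Relation

section

variable {V Y : Type} [DecidableEq V] [DecidableEq Y]

/-! ## 1. the two parts of a constraint -/

open Classical in
/-- the constraint without its virtual ties -/
noncomputable def cvaCon (K : ClCon V Y) (P : V × V → Prop) : ClCon V Y :=
  { K with Eq := K.Eq.filter (fun e => ¬ P e) }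

open Classical in
/-- the virtual ties (the trivial ones are dropped), as pairs of sites of `cadSys S` -/
noncomputable def cvaQ (S : ClSys V Y) (K : ClCon V Y) (P : V × V → Prop) : Finset (CadV S × CadV S) :=
  univ.filter (fun p => (p.1.1, p.2.1) ∈ K.Eq ∧ P (p.1.1, p.2.1) ∧ p.1.1 ≠ p.2.1)

theorem cva_mem_Q (S : ClSys V Y) (K : ClCon V Y) (P : V × V → Prop) (p : CadV S × CadV S) :
    p ∈ cvaQ S K P ↔ (p.1.1, p.2.1) ∈ K.Eq ∧ P (p.1.1, p.2.1) ∧ p.1.1 ≠ p.2.1 := by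
  classical
  unfold cvaQ
  simp only [mem_filter, mem_univ, true_and]

theorem cva_mem_eq (K : ClCon V Y) (P : V × V → Prop) (e : V × V) : e ∈ (cvaCon K P).Eq ↔ e ∈ K.Eq ∧ ¬ P e := by
  classical
  unfold cvaCon
  simp only [mem_filter]

/-- consistency does not see the ties -/
theorem cva_cons (S : ClSys V Y) (K : ClCon V Y) (P : V × V → Prop) (hc : CadCons S K) : CadCons S (cvaCon K P) :=
  ⟨hc.bpA, hc.dis, hc.opC, hc.omC, hc.d1, hc.d2, hc.d3⟩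

/-- the real part is a legal history -/
theorem cva_legal (S : ClSys V Y) (K : ClCon V Y) (P : V × V → Prop) (wp : K.Wp = ∅) (wm : K.Wm = ∅)
    (full : ∀ y ∈ S.C, y ∈ K.Op ∪ K.Om ∪ K.Cl → S.sv y ⊆ K.Bp ∪ K.Bm)
    (hr : ∀ e ∈ K.Eq, ¬ P e → ∃ y ∈ S.C, e.1 ∈ S.sv y ∧ e.2 ∈ S.sv y) : ClLegal S (cvaCon K P) :=
  ⟨wp, wm, full, fun e he => hr e ((cva_mem_eq K P e).1 he).1 ((cva_mem_eq K P e).1 he).2⟩

/-- the constraint = its real part and its virtual ties -/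
theorem cva_holds_split (S : ClSys V Y) (K : ClCon V Y) (P : V × V → Prop) (ω : ClCfg V Y) :
    K.Holds S ω ↔ (cvaCon K P).Holds S ω ∧ ∀ e ∈ K.Eq, P e → (e.1 ∈ ω.W ↔ e.2 ∈ ω.W) := by
  constructor
  · rintro ⟨h1, h2, h3, h4⟩
    exact ⟨⟨h1, h2, fun e he => h3 e ((cva_mem_eq K P e).1 he).1, h4⟩, fun e he _ => h3 e he⟩
  · rintro ⟨⟨h1, h2, h3, h4⟩, h5⟩
    refine ⟨h1, h2, fun e he => ?_, h4⟩
    by_cases hP : P e
    · exact h5 e he hP
    · exact h3 e ((cva_mem_eq K P e).2 ⟨he, hP⟩)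

/-- the virtual ties in the two languages -/
theorem cva_okQ (S : ClSys V Y) (K : ClCon V Y) (P : V × V → Prop)
    (hv : ∀ e ∈ K.Eq, P e → e.1 = e.2 ∨ (e.1 ∈ S.A ∧ e.2 ∈ S.A)) (W : Finset V) :
    (∀ p ∈ cvaQ S K P, cadInd S W p.1 = cadInd S W p.2) ↔ ∀ e ∈ K.Eq, P e → (e.1 ∈ W ↔ e.2 ∈ W) := by
  constructor
  · intro h e he hP
    rcases hv e he hP with h1 | ⟨h1, h2⟩
    · rw [h1]
    · by_cases hne : e.1 = e.2
      · rw [hne]
      · exact (cad_ind_eq S W ⟨e.1, h1⟩ ⟨e.2, h2⟩).1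
          (h (⟨e.1, h1⟩, ⟨e.2, h2⟩) ((cva_mem_Q S K P _).2 ⟨he, hP, hne⟩))
  · intro h p hp
    obtain ⟨h1, h2, _⟩ := (cva_mem_Q S K P p).1 hp
    exact (cad_ind_eq S W p.1 p.2).2 (h _ h1 h2)

/-- the constraint in the two languages -/
theorem cva_holds (S : ClSys V Y) (hS : ClOk S) (K : ClCon V Y) (P : V × V → Prop) (hK : ClLegal S (cvaCon K P))
    (hc : CadCons S K) (hv : ∀ e ∈ K.Eq, P e → e.1 = e.2 ∨ (e.1 ∈ S.A ∧ e.2 ∈ S.A))
    {ω : ClCfg V Y} (hω : ω ∈ S.cfgs) :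
    K.Holds S ω ↔ ((cadHist S (cvaCon K P)).OkB (cadInd S ω.B) ∧ (cadHist S (cvaCon K P)).OkT (cadTau S ω)) ∧
      ((cadHist S (cvaCon K P)).OkW (cadSys S) (cadInd S ω.W) ∧
        ∀ p ∈ cvaQ S K P, cadInd S ω.W p.1 = cadInd S ω.W p.2) := by
  rw [cva_holds_split S K P ω, cad_holds S hS (cvaCon K P) hK (cva_cons S K P hc) hω, cva_okQ S K P hv ω.W]
  tauto

/-! ## 2. the sums -/

/-- THE DICTIONARY with virtual ties -/
theorem cva_N (S : ClSys V Y) (hS : ClOk S) (K : ClCon V Y) (P : V × V → Prop) (hK : ClLegal S (cvaCon K P))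
    (hc : CadCons S K) (hv : ∀ e ∈ K.Eq, P e → e.1 = e.2 ∨ (e.1 ∈ S.A ∧ e.2 ∈ S.A))
    (G : ClCfg V Y → ℝ) (hG : CadInv S G) :
    S.N (K.Holds S) G = ∑ p, (cadSys S).wtv (cadHist S (cvaCon K P)) (cvaQ S K P) p * cadF S G p := by
  classical
  set h := cadHist S (cvaCon K P) with hh
  set C := cadSys S with hC
  set Q := cvaQ S K P with hQ
  let g : CsOm (CadV S) (CadY S) × (CadV S → Bool) → ℝ := fun r =>
    if (h.OkB r.1.1 ∧ h.OkT r.1.2) ∧ (h.OkW C r.2 ∧ ∀ p ∈ Q, r.2 p.1 = r.2 p.2) then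
      C.jw r.1.1 r.2 r.1.2 * cadF S G r.1 else 0
  have e1 : ∀ p : CsOm (CadV S) (CadY S), C.wtv h Q p * cadF S G p = ∑ w : CadV S → Bool, g (p, w) := by
    intro p
    simp only [g]
    unfold CellSys.wtv
    by_cases h1 : h.OkB p.1 ∧ h.OkT p.2
    · rw [if_pos h1, Finset.sum_mul]
      refine Finset.sum_congr rfl fun w _ => ?_
      by_cases h2 : h.OkW C w ∧ ∀ p ∈ Q, w p.1 = w p.2
      · simp only [if_pos h2]
        rw [if_pos ⟨h1, h2⟩]
      · simp only [if_neg h2]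
        rw [if_neg (fun hh => h2 hh.2), zero_mul]
    · rw [if_neg h1, zero_mul]
      refine (Finset.sum_eq_zero fun w _ => ?_).symm
      rw [if_neg (fun hh => h1 hh.1)]
  rw [Finset.sum_congr rfl (fun p _ => e1 p), ← Fintype.sum_prod_type g]
  unfold ClSys.N
  refine Finset.sum_of_injOn (cadPhi S) (cad_phi_inj S) (fun _ _ => Finset.mem_coe.2 (Finset.mem_univ _)) ?_ ?_
  · rintro ⟨⟨b, τ⟩, w⟩ _ hr
    simp only [g]
    by_cases hj : C.jw b w τ = 0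
    · rw [hj, zero_mul, ite_self]
    · obtain ⟨ω, hω, hφ⟩ := cad_supp S hS b w τ hj
      exact absurd ⟨ω, Finset.mem_coe.2 hω, hφ⟩ hr
  · intro ω hω
    simp only [g]
    have h1 : K.Holds S ω ↔ (h.OkB (cadPhi S ω).1.1 ∧ h.OkT (cadPhi S ω).1.2) ∧
        (h.OkW C (cadPhi S ω).2 ∧ ∀ p ∈ Q, (cadPhi S ω).2 p.1 = (cadPhi S ω).2 p.2) :=
      cva_holds S hS K P hK hc hv hω
    have h2 : cadF S G (cadPhi S ω).1 = G ω := cad_F_phi S hG hω
    have h3 : C.jw (cadPhi S ω).1.1 (cadPhi S ω).2 (cadPhi S ω).1.2 = S.wt ω := cad_jw S hS ω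
    rw [h2, h3]
    by_cases hK' : K.Holds S ω
    · rw [if_pos hK', if_pos (h1.1 hK')]
    · rw [if_neg hK', if_neg (fun hh => hK' (h1.2 hh))]

/-- partition functions with virtual ties -/
theorem cva_Z (S : ClSys V Y) (hS : ClOk S) (K : ClCon V Y) (P : V × V → Prop) (hK : ClLegal S (cvaCon K P))
    (hc : CadCons S K) (hv : ∀ e ∈ K.Eq, P e → e.1 = e.2 ∨ (e.1 ∈ S.A ∧ e.2 ∈ S.A)) :
    S.Z (K.Holds S) = ∑ p, (cadSys S).wtv (cadHist S (cvaCon K P)) (cvaQ S K P) p := by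
  rw [dis_Z_eq, cva_N S hS K P hK hc hv _ (cad_inv_const S 1)]
  unfold cadF
  simp

/-! ## 3. chains -/

/-- the ends of a non trivial chain -/
theorem cva_R_mem (S : ClSys V Y) (hS : ClOk S) (T : Set V) {u v : V} (h : TscR S.gr T u v) :
    u = v ∨ ((u ∈ S.A ∧ u ∈ T) ∧ (v ∈ S.A ∧ v ∈ T)) := by
  induction h with
  | refl => exact Or.inl rfl
  | @tail b c _ hbc ih =>
    obtain ⟨⟨_, y, hy, hb, hc⟩, hbT, hcT⟩ := hbc
    right
    rcases ih with rfl | ih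
    · exact ⟨⟨hS.sub y hy hb, hbT⟩, ⟨hS.sub y hy hc, hcT⟩⟩
    · exact ⟨ih.1, ⟨hS.sub y hy hc, hcT⟩⟩

/-- a chain of the graph of `S` inside a set of sites pinned `β` is a chain of `cadSys S` -/
theorem cva_chain (S : ClSys V Y) (hS : ClOk S) (h : CsHist (CadV S) (CadI S) (CadY S)) (β : Bool) (T : Set V)
    (hT : ∀ v : CadV S, v.1 ∈ T → h.pB v = some β) (u v : CadV S) (hu : u.1 ∈ T) (hv : v.1 ∈ T)
    (hR : TscR S.gr T u.1 v.1) : CsChain (cadSys S) h β u v := by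
  refine ⟨hT u hu, hT v hv, ?_⟩
  have key : ∀ w : V, TscR S.gr T u.1 w → ∀ hw : w ∈ S.A,
      ReflTransGen (fun a b => (∃ e, ((cadSys S).s e = a ∧ (cadSys S).t e = b) ∨ ((cadSys S).s e = b ∧ (cadSys S).t e = a)) ∧
        h.pB a = some β ∧ h.pB b = some β) u ⟨w, hw⟩ := by
    intro w hw
    induction hw with
    | refl => intro _; exact ReflTransGen.refl
    | @tail b c _ hbc ih =>
      intro hcA
      obtain ⟨⟨_, y, hy, hb, hc⟩, hbT, hcT⟩ := hbc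
      refine (ih (hS.sub y hy hb)).tail ⟨⟨cadE S hS ⟨y, hy⟩ b c hb hc, Or.inl ⟨rfl, rfl⟩⟩, hT _ hbT, hT _ hcT⟩
  exact key v.1 hR v.2

theorem cva_pB_plus (S : ClSys V Y) (K : ClCon V Y) (v : CadV S) (hv : v.1 ∈ K.Bp) : (cadHist S K).pB v = some true := by
  show (if v.1 ∈ K.Bp then some true else if v.1 ∈ K.Bm then some false else none) = _
  rw [if_pos hv]

theorem cva_pB_minus (S : ClSys V Y) (K : ClCon V Y) (hc : CadCons S K) (v : CadV S) (hv : v.1 ∈ K.Bm) :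
    (cadHist S K).pB v = some false := by
  show (if v.1 ∈ K.Bp then some true else if v.1 ∈ K.Bm then some false else none) = _
  rw [if_neg (fun hh => hc.dis _ hh hv), if_pos hv]

/-! ## 4. EXITS -/

/-- **ORDER WITH VIRTUAL TIES** = `am_order_eq` (tool T4), hypotheses unbundled: `K₁` below `K₂`; a common tie is an edge of a cell or runs
along a chain of common plus pins or of common minus pins; an extra tie below runs along common plus pins, an extra tie above along common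
minus pins. -/
theorem cva_order (S : ClSys V Y) (hS : ClDisk S) (K₁ K₂ : ClCon V Y)
    (wp₁ : K₁.Wp = ∅) (wm₁ : K₁.Wm = ∅) (full₁ : ∀ y ∈ S.C, y ∈ K₁.Op ∪ K₁.Om ∪ K₁.Cl → S.sv y ⊆ K₁.Bp ∪ K₁.Bm)
    (wp₂ : K₂.Wp = ∅) (wm₂ : K₂.Wm = ∅) (full₂ : ∀ y ∈ S.C, y ∈ K₂.Op ∪ K₂.Om ∪ K₂.Cl → S.sv y ⊆ K₂.Bp ∪ K₂.Bm)
    (bp : K₁.Bp ⊆ K₂.Bp) (bm : K₂.Bm ⊆ K₁.Bm) (op : K₁.Op ⊆ K₂.Op) (om : K₂.Om ⊆ K₁.Om)
    (cl1 : K₁.Cl ⊆ K₂.Cl ∪ K₂.Op) (cl2 : K₂.Cl ⊆ K₁.Cl ∪ K₁.Om)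
    (eq_dn : ∀ e ∈ K₁.Eq, (e ∈ K₂.Eq ∧ ((∃ y ∈ S.C, e.1 ∈ S.sv y ∧ e.2 ∈ S.sv y) ∨ TscR S.gr (↑K₁.Bp : Set V) e.1 e.2 ∨
      TscR S.gr (↑K₂.Bm : Set V) e.1 e.2)) ∨ TscR S.gr (↑K₁.Bp : Set V) e.1 e.2)
    (eq_up : ∀ e ∈ K₂.Eq, (e ∈ K₁.Eq ∧ ((∃ y ∈ S.C, e.1 ∈ S.sv y ∧ e.2 ∈ S.sv y) ∨ TscR S.gr (↑K₁.Bp : Set V) e.1 e.2 ∨
      TscR S.gr (↑K₂.Bm : Set V) e.1 e.2)) ∨ TscR S.gr (↑K₂.Bm : Set V) e.1 e.2)
    (F : ClCfg V Y → ℝ) (hF : ClMono S F) :
    S.N (K₁.Holds S) F * S.Z (K₂.Holds S) ≤ S.Z (K₁.Holds S) * S.N (K₂.Holds S) F := by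
  classical
  have hO : ClOk S := hS.toClOk
  by_cases c₁ : CadCons S K₁
  swap
  · rw [cad_N_zero S K₁ c₁, cad_Z_zero S K₁ c₁]
    simp
  by_cases c₂ : CadCons S K₂
  swap
  · rw [cad_N_zero S K₂ c₂, cad_Z_zero S K₂ c₂]
    simp
  set P : V × V → Prop := fun e => TscR S.gr (↑K₁.Bp : Set V) e.1 e.2 ∨ TscR S.gr (↑K₂.Bm : Set V) e.1 e.2 with hP
  have hv : ∀ e : V × V, P e → e.1 = e.2 ∨ (e.1 ∈ S.A ∧ e.2 ∈ S.A) := by
    rintro e (h | h)
    · rcases cva_R_mem S hO _ h with h | h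
      · exact Or.inl h
      · exact Or.inr ⟨h.1.1, h.2.1⟩
    · rcases cva_R_mem S hO _ h with h | h
      · exact Or.inl h
      · exact Or.inr ⟨h.1.1, h.2.1⟩
  have hr₁ : ∀ e ∈ K₁.Eq, ¬ P e → e ∈ K₂.Eq ∧ ∃ y ∈ S.C, e.1 ∈ S.sv y ∧ e.2 ∈ S.sv y := by
    intro e he hn
    rcases eq_dn e he with ⟨h2, h | h | h⟩ | h
    · exact ⟨h2, h⟩
    · exact absurd (Or.inl h) hn
    · exact absurd (Or.inr h) hn
    · exact absurd (Or.inl h) hn
  have hr₂ : ∀ e ∈ K₂.Eq, ¬ P e → e ∈ K₁.Eq ∧ ∃ y ∈ S.C, e.1 ∈ S.sv y ∧ e.2 ∈ S.sv y := by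
    intro e he hn
    rcases eq_up e he with ⟨h2, h | h | h⟩ | h
    · exact ⟨h2, h⟩
    · exact absurd (Or.inl h) hn
    · exact absurd (Or.inr h) hn
    · exact absurd (Or.inr h) hn
  have l₁ : ClLegal S (cvaCon K₁ P) := cva_legal S K₁ P wp₁ wm₁ full₁ fun e he hn => (hr₁ e he hn).2
  have l₂ : ClLegal S (cvaCon K₂ P) := cva_legal S K₂ P wp₂ wm₂ full₂ fun e he hn => (hr₂ e he hn).2
  have hle : ClLe (cvaCon K₁ P) (cvaCon K₂ P) := by
    refine ⟨bp, bm, op, om, cl1, cl2, ?_⟩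
    ext e
    rw [cva_mem_eq, cva_mem_eq]
    exact ⟨fun h => ⟨(hr₁ e h.1 h.2).1, h.2⟩, fun h => ⟨(hr₂ e h.1 h.2).1, h.2⟩⟩
  have c₁' := cva_cons S K₁ P c₁
  have c₂' := cva_cons S K₂ P c₂
  rw [cva_N S hO K₁ P l₁ c₁ (fun e _ => hv e) F (cad_inv_of_mono S hF),
    cva_N S hO K₂ P l₂ c₂ (fun e _ => hv e) F (cad_inv_of_mono S hF),
    cva_Z S hO K₁ P l₁ c₁ (fun e _ => hv e), cva_Z S hO K₂ P l₂ c₂ (fun e _ => hv e)]
  refine cs_order_virt (cadSys S) (cad_ok S hS) (cad_leG S _ _ c₁' c₂' hle) (cad_full S _ l₁) (cad_full S _ l₂)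
    (fun b _ => cad_split S hS b) (fun b _ => cad_split S hS b) _ _ ?_ (cad_mono S hF)
  intro p hp
  have hp' : ((p.1.1, p.2.1) ∈ K₁.Eq ∨ (p.1.1, p.2.1) ∈ K₂.Eq) ∧ P (p.1.1, p.2.1) ∧ p.1.1 ≠ p.2.1 := by
    rcases Finset.mem_union.1 hp with h | h
    · have := (cva_mem_Q S _ P p).1 h
      exact ⟨Or.inl this.1, this.2⟩
    · have := (cva_mem_Q S _ P p).1 h
      exact ⟨Or.inr this.1, this.2⟩
  obtain ⟨hmem, hPp, hne⟩ := hp'
  -- a non trivial pair is not joined by both kinds of chains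
  have hboth : TscR S.gr (↑K₁.Bp : Set V) p.1.1 p.2.1 → TscR S.gr (↑K₂.Bm : Set V) p.1.1 p.2.1 → False := by
    intro h h'
    have a1 := (cva_R_mem S hO _ h).resolve_left hne
    have a2 := (cva_R_mem S hO _ h').resolve_left hne
    exact c₂.dis _ (bp (Finset.mem_coe.1 a1.1.2)) (Finset.mem_coe.1 a2.1.2)
  rcases hPp with hch | hch
  · have a1 := (cva_R_mem S hO _ hch).resolve_left hne
    refine ⟨true, ?_, ?_, fun _ => rfl, fun hn => ?_⟩
    · exact cva_chain S hO _ true _ (fun v hv => cva_pB_plus S (cvaCon K₁ P) v (Finset.mem_coe.1 hv)) p.1 p.2 a1.1.2 a1.2.2 hch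
    · exact cva_chain S hO _ true _ (fun v hv => cva_pB_plus S (cvaCon K₂ P) v (bp (Finset.mem_coe.1 hv))) p.1 p.2 a1.1.2 a1.2.2 hch
    · exfalso
      apply hn
      rw [cva_mem_Q]
      refine ⟨?_, Or.inl hch, hne⟩
      rcases hmem with h | h
      · exact h
      · rcases eq_up _ h with h' | h'
        · exact h'.1
        · exact (hboth hch h').elim
  · have a1 := (cva_R_mem S hO _ hch).resolve_left hne
    refine ⟨false, ?_, ?_, fun hn => ?_, fun _ => rfl⟩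
    · exact cva_chain S hO _ false _ (fun v hv => cva_pB_minus S (cvaCon K₁ P) c₁' v (bm (Finset.mem_coe.1 hv))) p.1 p.2
        a1.1.2 a1.2.2 hch
    · exact cva_chain S hO _ false _ (fun v hv => cva_pB_minus S (cvaCon K₂ P) c₂' v (Finset.mem_coe.1 hv)) p.1 p.2
        a1.1.2 a1.2.2 hch
    · exfalso
      apply hn
      rw [cva_mem_Q]
      refine ⟨?_, Or.inr hch, hne⟩
      rcases hmem with h | h
      · rcases eq_dn _ h with h' | h'
        · exact h'.1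
        · exact (hboth h' hch).elim
      · exact h

/-- **FKG WITH VIRTUAL TIES**: every tie is an edge of a cell or runs along a chain of plus pins or of minus pins. -/
theorem cva_assoc (S : ClSys V Y) (hS : ClDisk S) (K : ClCon V Y)
    (wp : K.Wp = ∅) (wm : K.Wm = ∅) (full : ∀ y ∈ S.C, y ∈ K.Op ∪ K.Om ∪ K.Cl → S.sv y ⊆ K.Bp ∪ K.Bm)
    (eq : ∀ e ∈ K.Eq, (∃ y ∈ S.C, e.1 ∈ S.sv y ∧ e.2 ∈ S.sv y) ∨ TscR S.gr (↑K.Bp : Set V) e.1 e.2 ∨
      TscR S.gr (↑K.Bm : Set V) e.1 e.2)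
    (F G : ClCfg V Y → ℝ) (hF : ClMono S F) (hG : ClMono S G) :
    S.N (K.Holds S) F * S.N (K.Holds S) G ≤ S.Z (K.Holds S) * S.N (K.Holds S) (fun ω => F ω * G ω) := by
  classical
  have hO : ClOk S := hS.toClOk
  by_cases c : CadCons S K
  swap
  · rw [cad_N_zero S K c, cad_Z_zero S K c]
    simp
  set P : V × V → Prop := fun e => TscR S.gr (↑K.Bp : Set V) e.1 e.2 ∨ TscR S.gr (↑K.Bm : Set V) e.1 e.2 with hP
  have hv : ∀ e : V × V, P e → e.1 = e.2 ∨ (e.1 ∈ S.A ∧ e.2 ∈ S.A) := by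
    rintro e (h | h)
    · rcases cva_R_mem S hO _ h with h | h
      · exact Or.inl h
      · exact Or.inr ⟨h.1.1, h.2.1⟩
    · rcases cva_R_mem S hO _ h with h | h
      · exact Or.inl h
      · exact Or.inr ⟨h.1.1, h.2.1⟩
  have l : ClLegal S (cvaCon K P) := cva_legal S K P wp wm full fun e he hn => by
    rcases eq e he with h | h | h
    · exact h
    · exact absurd (Or.inl h) hn
    · exact absurd (Or.inr h) hn
  have c' := cva_cons S K P c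
  rw [cva_N S hO K P l c (fun e _ => hv e) F (cad_inv_of_mono S hF),
    cva_N S hO K P l c (fun e _ => hv e) G (cad_inv_of_mono S hG),
    cva_N S hO K P l c (fun e _ => hv e) _ (cad_inv_mul S (cad_inv_of_mono S hF) (cad_inv_of_mono S hG)),
    cva_Z S hO K P l c (fun e _ => hv e)]
  refine cs_assoc_virt (cadSys S) (cad_ok S hS) (cad_full S _ l) (fun b _ => cad_split S hS b) _ ?_
    (cad_mono S hF) (cad_mono S hG)
  intro p hp
  obtain ⟨_, hPp, hne⟩ := (cva_mem_Q S _ P p).1 hp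
  rcases hPp with hch | hch
  · have a1 := (cva_R_mem S hO _ hch).resolve_left hne
    exact ⟨true, cva_chain S hO _ true _ (fun v hv => cva_pB_plus S (cvaCon K P) v (Finset.mem_coe.1 hv)) p.1 p.2
      a1.1.2 a1.2.2 hch⟩
  · have a1 := (cva_R_mem S hO _ hch).resolve_left hne
    exact ⟨false, cva_chain S hO _ false _ (fun v hv => cva_pB_minus S (cvaCon K P) c' v (Finset.mem_coe.1 hv)) p.1 p.2
      a1.1.2 a1.2.2 hch⟩

end

/-- the equation and congruence lemmas of the definitions of this file are generated HERE, once (RULES.md, rule 6; CI board of 40) -/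
theorem cva_eqns_cite : True := by
  have := @cvaCon.eq_1
  have := @cvaQ.eq_1
  have := @cvaCon.congr_simp
  have := @cvaQ.congr_simp
  trivial

end Claimed.Agent.R291
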