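/-
# Row 291 (S0539), Cell/Host : THE ORDER THEOREMS FOR SYSTEMS WHICH ARE DISKS ONLY RELATIVELY TO THEIR PINS   (helper160; prefix `chs`)

The engine (`Cell/Order.lean`: `cs_assoc`, `cs_order_gen`; `Cell/Virt.lean`: `cs_order_virt`) asks the splitting property `C.Split b` ONLY for the
first spins `b` which satisfy the pins of the history.   `ClDisk S` asks it for all `B`.   Here:

* `ClSplitAt S B`  the splitting property of `S` at ONE first spin `B` (the clause `split` of `ClDisk`, at `B`)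
* `ClRel S Pp Pm`  RELATIVE DISK: `ClOk`, cells of at most 3 sites, `ClSplitAt S B` for every `B ⊆ S.A` with `Pp ⊆ B`, `B ∩ Pm = ∅`
* `chs_assoc`, `chs_order`, `chs_order_eq`, `chs_assoc_eq` = `dis_assoc`, `dis_order`, `am_order_eq`, `cva_assoc` for a relative disk and histories which contain its pins
* **HOST** `chs_inn_rel` : `S` a disk, `I ⊆ S.A`, `σ` constant on every crossing cell of `I`  ⟹  `S.inn I` is a disk relatively to the pins `B = σ` on the layer `cuLay S I`
  (extend `B` by `σ` and `W` by minus outside `I`: the crossing cells are `B`-constant, `W` is constant on the outer cells; restrict the split to `I`).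
  Examples: the mixed cylinder inside its capped ambient; any domain between two contours.
* EXITS `chs_host_assoc`, `chs_host_order` (= `ams_host_assoc`, `ams_host_order` of `Ann/ModelS.lean`, hypotheses unbundled), `chs_host_order_eq` (virtual ties).
-/
import Claimed.Agent.R291.Cell.VirtAd

set_option autoImplicit false
set_option linter.unusedSectionVars false
set_option linter.unusedVariables false
set_option linter.unusedSimpArgs false

namespace Claimed.Agent.R291

open Finset Relation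

section

variable {V Y : Type} [DecidableEq V] [DecidableEq Y]

/-! ## 1. relative disks -/

/-- the splitting property at the first spin `B` -/
def ClSplitAt (S : ClSys V Y) (B : Finset V) : Prop :=
  ∀ W ⊆ S.A, (∀ y ∈ S.C, ¬ ClConst B (S.sv y) → ClConst W (S.sv y)) →
    ∃ W₁ ⊆ S.A, ∀ y ∈ S.C,
      (S.sv y ⊆ B → ∀ u ∈ S.sv y, ∀ v ∈ S.sv y, ((u ∈ W₁ ↔ v ∈ W₁) ↔ (u ∈ W ↔ v ∈ W))) ∧
      (¬ S.sv y ⊆ B → ClConst W₁ (S.sv y))

/-- a disk relatively to the plus pins `Pp` and the minus pins `Pm` -/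
structure ClRel (S : ClSys V Y) (Pp Pm : Finset V) : Prop extends ClOk S where
  card : ∀ y ∈ S.C, (S.sv y).card ≤ 3
  split : ∀ B ⊆ S.A, Pp ⊆ B → (∀ v ∈ Pm, v ∉ B) → ClSplitAt S B

/-- a disk is a disk relatively to any pins -/
theorem chs_of_disk (S : ClSys V Y) (hS : ClDisk S) (Pp Pm : Finset V) : ClRel S Pp Pm :=
  { toClOk := hS.toClOk, card := hS.card, split := fun B hB _ _ => hS.split B hB }

/-- more pins -/
theorem chs_rel_mono (S : ClSys V Y) {Pp Pm Pp' Pm' : Finset V} (h : ClRel S Pp Pm) (hp : Pp ⊆ Pp') (hm : Pm ⊆ Pm') : ClRel S Pp' Pm' :=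
  { toClOk := h.toClOk, card := h.card, split := fun B hB h1 h2 => h.split B hB (hp.trans h1) fun v hv => h2 v (hm hv) }

/-! ## 2. the adapter, relative form (proofs of helper46, `Cell/Adapt.lean`, with the weaker hypotheses) -/

/-- admissibility of the parameters -/
theorem chs_ok (S : ClSys V Y) (hO : ClOk S) (hcard : ∀ y ∈ S.C, (S.sv y).card ≤ 3) : (cadSys S).Ok := by
  refine ⟨fun y => (hO.q0 y.1 y.2).le, fun y => hO.q1 y.1 y.2, fun e => cad_X_nonneg S _,
    fun e => cad_X_le_one S _ (hO.q1 _ ((cad_mem_es S e.1).1 e.2).1), fun y => ?_, fun σ y h => ?_,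
    fun σ y h => ?_⟩
  · obtain ⟨v, hv⟩ := hO.ne y.1 y.2
    exact Or.inl ⟨cadE S hO y v v hv hv, rfl⟩
  · exact cad_ok_conn S hO σ y h
  · have e1 : ∏ e ∈ univ.filter (fun e => (cadSys S).cell e = y),
        (if σ ((cadSys S).s e) = σ ((cadSys S).t e) then 1 else (cadSys S).xe e)
        = ∏ e ∈ univ.filter (fun e => (cadSys S).cell e = y),
        (fun u v => if σ u = σ v then 1 else cadX S y.1) ((cadSys S).s e) ((cadSys S).t e) := by
      refine Finset.prod_congr rfl fun e he => ?_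
      have h2 : e.1.1 = y.1 := congrArg Subtype.val (Finset.mem_filter.1 he).2
      show _ = if σ ((cadSys S).s e) = σ ((cadSys S).t e) then 1 else cadX S y.1
      rw [← h2]
      rfl
    rw [e1, cad_prod_cell S hO y (fun u v => if σ u = σ v then 1 else cadX S y.1), cad_wall_pure]
    rw [cad_cst S hO] at h
    set a := ((cadSv S y.1).filter (fun v => σ v = true)).card with ha
    set b := ((cadSv S y.1).filter (fun v => σ v = false)).card with hb
    have hab : a + b = (S.sv y.1).card := by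
      rw [← cad_card_sv S hO y, ha, hb, ← Finset.card_filter_add_card_filter_not (s := cadSv S y.1) (fun v => σ v = true)]
      congr 2
      ext v; simp
    have hc := hcard y.1 y.2
    have ha0 : 0 < a := by
      rw [ha, Finset.card_pos]
      by_contra hne
      rw [Finset.not_nonempty_iff_eq_empty, Finset.filter_eq_empty_iff] at hne
      refine h fun u v hu hv => ?_
      have h1 := hne ((cad_mem_sv S _ _).2 hu)
      have h2 := hne ((cad_mem_sv S _ _).2 hv)
      simp only [Bool.not_eq_true] at h1 h2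
      rw [h1, h2]
    have hb0 : 0 < b := by
      rw [hb, Finset.card_pos]
      by_contra hne
      rw [Finset.not_nonempty_iff_eq_empty, Finset.filter_eq_empty_iff] at hne
      refine h fun u v hu hv => ?_
      have h1 := hne ((cad_mem_sv S _ _).2 hu)
      have h2 := hne ((cad_mem_sv S _ _).2 hv)
      simp only [Bool.not_eq_false] at h1 h2
      rw [h1, h2]
    have hq : 0 ≤ S.q y.1 := (hO.q0 y.1 y.2).le
    show cadX S y.1 ^ (2 * (a * b)) = S.q y.1
    unfold cadX
    by_cases h3 : (S.sv y.1).card = 3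
    · rw [if_pos h3]
      have hab2 : a * b = 2 := by
        have : a = 1 ∨ a = 2 := by omega
        rcases this with h | h
        · have : b = 2 := by omega
          rw [h, this]
        · have : b = 1 := by omega
          rw [h, this]
      rw [hab2]
      show Real.sqrt (Real.sqrt (S.q y.1)) ^ (2 * 2) = _
      rw [pow_mul, Real.sq_sqrt (Real.sqrt_nonneg _), Real.sq_sqrt hq]
    · rw [if_neg h3]
      have h1 : a = 1 := by omega
      have h2 : b = 1 := by omega
      rw [h1, h2]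
      show Real.sqrt (S.q y.1) ^ 2 = _
      rw [Real.sq_sqrt hq]

/-- the splitting property of the engine at `b`, from the splitting property at the plus set of `b` -/
theorem chs_split (S : ClSys V Y) (hO : ClOk S) (b : CadV S → Bool) (hsplit : ClSplitAt S (cadSet S b)) : (cadSys S).Split b := by
  intro W hW
  have hW' : ∀ y : CadY S, ∀ u v : CadV S, u.1 ∈ S.sv y.1 → v.1 ∈ S.sv y.1 → W u ≠ W v → b u = b v :=
    fun y u v hu hv => hW (cadE S hO y u.1 v.1 hu hv)
  have key : ∀ y : CadY S, ∀ u v z : CadV S, u.1 ∈ S.sv y.1 → v.1 ∈ S.sv y.1 → z.1 ∈ S.sv y.1 →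
      W u ≠ W v → b z = b u := by
    intro y u v z hu hv hz huv
    by_cases h1 : W z = W u
    · have h2 : W z ≠ W v := h1 ▸ huv
      exact (hW' y z v hz hv h2).trans (hW' y u v hu hv huv).symm
    · exact hW' y z u hz hu h1
  obtain ⟨W₁, hW₁, hsp⟩ := hsplit (cadSet S W) (cad_set_sub S W) (by
    intro y hy hB
    by_contra hWc
    rw [← cad_const S hO _ ⟨y, hy⟩, cad_ind_set, cad_cst S hO] at hB hWc
    simp only [not_forall] at hWc
    obtain ⟨u, v, hu, hv, huv⟩ := hWc
    exact hB fun u' v' hu' hv' => (key ⟨y, hy⟩ u v u' hu hv hu' huv).trans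
      (key ⟨y, hy⟩ u v v' hu hv hv' huv).symm)
  refine ⟨cadInd S W₁, fun e => ?_⟩
  have h1 := (cad_mem_es S e.1).1 e.2
  set y : CadY S := (cadSys S).cell e with hy
  set u : CadV S := (cadSys S).s e with hu
  set v : CadV S := (cadSys S).t e with hv
  have hu' : u.1 ∈ S.sv y.1 := h1.2.2.2.1
  have hv' : v.1 ∈ S.sv y.1 := h1.2.2.2.2
  have hWe : W u = W v ↔ (u.1 ∈ cadSet S W ↔ v.1 ∈ cadSet S W) := by
    rw [cad_mem_set', cad_mem_set', Bool.eq_iff_iff]
  by_cases hsub : S.sv y.1 ⊆ cadSet S b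
  · have h2 := (hsp y.1 y.2).1 hsub u.1 hu' v.1 hv'
    have h3 : b u = true := (cad_mem_set' S b u).1 (hsub hu')
    rw [Ne, Ne, cad_ind_eq, h2, hWe]
    exact ⟨fun h => ⟨h, h3⟩, fun h => h.1⟩
  · have h2 := (hsp y.1 y.2).2 hsub
    rw [← cad_const S hO, cad_cst S hO] at h2
    constructor
    · intro h
      exact absurd (h2 u v hu' hv') h
    · rintro ⟨h3, h4⟩
      exfalso
      refine hsub fun z hz => ?_
      have h5 := key y u v ⟨z, hO.sub y.1 y.2 hz⟩ hu' hv' hz h3
      exact (cad_mem_set' S b ⟨z, hO.sub y.1 y.2 hz⟩).2 (h5.trans h4)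

/-- the splitting property for the first spins which satisfy the pins of a history containing the pins of the relative disk -/
theorem chs_split_hist (S : ClSys V Y) {Pp Pm : Finset V} (hS : ClRel S Pp Pm) (K : ClCon V Y) (hc : CadCons S K) (hp : Pp ⊆ K.Bp)
    (hm : Pm ⊆ K.Bm) (b : CadV S → Bool) (hb : (cadHist S K).OkB b) : (cadSys S).Split b := by
  refine chs_split S hS.toClOk b ?_
  rw [← cad_ind_set S b, cad_okB S K hc (cad_set_sub S b)] at hb
  exact hS.split _ (cad_set_sub S b) (hp.trans hb.1) fun v hv => hb.2 v (hm hv)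

/-! ## 3. the order theorems for a relative disk -/

/-- (ORD-A) = `dis_assoc` for a relative disk -/
theorem chs_assoc (S : ClSys V Y) {Pp Pm : Finset V} (hS : ClRel S Pp Pm) (K : ClCon V Y) (hK : ClLegal S K) (hp : Pp ⊆ K.Bp) (hm : Pm ⊆ K.Bm)
    (F G : ClCfg V Y → ℝ) (hF : ClMono S F) (hG : ClMono S G) :
    S.N (K.Holds S) F * S.N (K.Holds S) G ≤ S.Z (K.Holds S) * S.N (K.Holds S) (fun ω => F ω * G ω) := by
  have hO : ClOk S := hS.toClOk
  by_cases hc : CadCons S K
  · rw [cad_N S hO K hK hc F (cad_inv_of_mono S hF), cad_N S hO K hK hc G (cad_inv_of_mono S hG),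
      cad_Z S hO K hK hc,
      cad_N S hO K hK hc _ (cad_inv_mul S (cad_inv_of_mono S hF) (cad_inv_of_mono S hG))]
    exact cs_assoc (cadSys S) (chs_ok S hO hS.card) (cad_full S K hK) (chs_split_hist S hS K hc hp hm)
      (cad_mono S hF) (cad_mono S hG)
  · rw [cad_N_zero S K hc, cad_Z_zero S K hc]
    simp

/-- (ORD-B) = `dis_order`, each history with its own relative disk structure -/
theorem chs_order (S : ClSys V Y) {Pp₁ Pm₁ Pp₂ Pm₂ : Finset V} (hS₁ : ClRel S Pp₁ Pm₁) (hS₂ : ClRel S Pp₂ Pm₂) (K₁ K₂ : ClCon V Y)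
    (h₁ : ClLegal S K₁) (h₂ : ClLegal S K₂) (hp₁ : Pp₁ ⊆ K₁.Bp) (hm₁ : Pm₁ ⊆ K₁.Bm) (hp₂ : Pp₂ ⊆ K₂.Bp) (hm₂ : Pm₂ ⊆ K₂.Bm)
    (hle : ClLe K₁ K₂) (F : ClCfg V Y → ℝ) (hF : ClMono S F) :
    S.N (K₁.Holds S) F * S.Z (K₂.Holds S) ≤ S.Z (K₁.Holds S) * S.N (K₂.Holds S) F := by
  have hO : ClOk S := hS₁.toClOk
  by_cases c₁ : CadCons S K₁
  · by_cases c₂ : CadCons S K₂
    · rw [cad_N S hO K₁ h₁ c₁ F (cad_inv_of_mono S hF), cad_N S hO K₂ h₂ c₂ F (cad_inv_of_mono S hF),
        cad_Z S hO K₁ h₁ c₁, cad_Z S hO K₂ h₂ c₂]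
      exact cs_order_gen (cadSys S) (chs_ok S hO hS₁.card) (cad_leG S K₁ K₂ c₁ c₂ hle) (cad_full S K₁ h₁)
        (cad_full S K₂ h₂) (chs_split_hist S hS₁ K₁ c₁ hp₁ hm₁) (chs_split_hist S hS₂ K₂ c₂ hp₂ hm₂) (cad_mono S hF)
    · rw [cad_N_zero S K₂ c₂, cad_Z_zero S K₂ c₂]
      simp
  · rw [cad_N_zero S K₁ c₁, cad_Z_zero S K₁ c₁]
    simp

/-! ## 4. HOST -/

/-- the extension of a first spin of `I` by the sign function outside `I` -/
def chsExt (S : ClSys V Y) (σ : V → Bool) (I B : Finset V) : Finset V := B ∪ (S.A \ I).filter (fun v => σ v = true)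

theorem chs_mem_ext (S : ClSys V Y) (σ : V → Bool) (I B : Finset V) (v : V) :
    v ∈ chsExt S σ I B ↔ v ∈ B ∨ ((v ∈ S.A ∧ v ∉ I) ∧ σ v = true) := by
  unfold chsExt
  rw [Finset.mem_union, Finset.mem_filter, Finset.mem_sdiff]

/-- **HOST**: an inner system of a disk, with its layer pinned by a sign function which is constant on the crossing cells, splits -/
theorem chs_inn_split (S : ClSys V Y) (hS : ClDisk S) (σ : V → Bool) (I : Finset V) (hI : I ⊆ S.A)
    (hσ : ∀ y ∈ S.C, clCross S I y → ∀ u ∈ S.sv y, ∀ v ∈ S.sv y, σ u = σ v) (B : Finset V) (hB : B ⊆ I)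
    (hlay : ∀ v ∈ cuLay S I, (v ∈ B ↔ σ v = true)) : ClSplitAt (S.inn I) B := by
  intro W hW hBW
  have hWI : W ⊆ I := hW
  have hO : ClOk S := hS.toClOk
  set B' := chsExt S σ I B with hB'
  have hmemI : ∀ v ∈ I, (v ∈ B' ↔ v ∈ B) := by
    intro v hv
    rw [hB', chs_mem_ext]
    exact ⟨fun h => h.elim id fun h' => absurd hv h'.1.2, Or.inl⟩
  have hmemO : ∀ v ∈ S.A, v ∉ I → (v ∈ B' ↔ σ v = true) := by
    intro v hvA hv
    rw [hB', chs_mem_ext]
    exact ⟨fun h => h.elim (fun h' => absurd (hB h') hv) fun h' => h'.2, fun h => Or.inr ⟨⟨hvA, hv⟩, h⟩⟩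
  have hB'A : B' ⊆ S.A := by
    intro v hv
    rw [hB', chs_mem_ext] at hv
    rcases hv with h | h
    · exact hI (hB h)
    · exact h.1.1
  -- on a crossing cell the extended spin is `σ`
  have hcr : ∀ y ∈ S.C, clCross S I y → ∀ v ∈ S.sv y, (v ∈ B' ↔ σ v = true) := by
    intro y hy hc v hv
    by_cases hvI : v ∈ I
    · rw [hmemI v hvI]
      refine hlay v ?_
      unfold cuLay
      obtain ⟨_, w, hw, hwI⟩ := hc
      exact Finset.mem_filter.2 ⟨hvI, y, hy, hv, fun h => hwI (h hw)⟩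
    · exact hmemO v (hO.sub y hy hv) hvI
  obtain ⟨W₁, hW₁, hsp⟩ := hS.split B' hB'A W (hWI.trans hI) (by
    intro y hy hnc
    by_cases hin : S.sv y ⊆ I
    · -- a cell inside `I`
      refine hBW y (Finset.mem_filter.2 ⟨hy, hin⟩) fun hc => hnc ?_
      rcases hc with h | h
      · exact Or.inl fun v hv => (hmemI v (hin hv)).2 (h hv)
      · exact Or.inr fun v hv hv' => h v hv ((hmemI v (hin hv)).1 hv')
    · by_cases hc : clCross S I y
      · -- a crossing cell is constant for the extended spin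
        exfalso
        apply hnc
        obtain ⟨v0, hv0⟩ := hO.ne y hy
        by_cases hs : σ v0 = true
        · exact Or.inl fun v hv => (hcr y hy hc v hv).2 ((hσ y hy hc v hv v0 hv0).trans hs)
        · exact Or.inr fun v hv hv' => hs ((hσ y hy hc v0 hv0 v hv).trans ((hcr y hy hc v hv).1 hv'))
      · -- an outer cell: `W` is empty there
        refine Or.inr fun v hv hvW => hc ⟨⟨v, hv, hWI hvW⟩, ?_⟩
        by_contra hall
        push Not at hall
        exact hin hall)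
  refine ⟨W₁ ∩ I, Finset.inter_subset_right, fun y hy => ?_⟩
  have hyC : y ∈ S.C := (Finset.mem_filter.1 hy).1
  have hin : S.sv y ⊆ I := (Finset.mem_filter.1 hy).2
  have hsub : S.sv y ⊆ B ↔ S.sv y ⊆ B' :=
    ⟨fun h v hv => (hmemI v (hin hv)).2 (h hv), fun h v hv => (hmemI v (hin hv)).1 (h hv)⟩
  have hW1 : ∀ v ∈ S.sv y, (v ∈ W₁ ∩ I ↔ v ∈ W₁) := fun v hv =>
    ⟨fun h => (Finset.mem_inter.1 h).1, fun h => Finset.mem_inter.2 ⟨h, hin hv⟩⟩
  constructor
  · intro h u hu v hv
    rw [hW1 u hu, hW1 v hv]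
    exact (hsp y hyC).1 (hsub.1 h) u hu v hv
  · intro h
    rcases (hsp y hyC).2 (fun h' => h (hsub.2 h')) with h1 | h1
    · exact Or.inl fun v hv => (hW1 v hv).2 (h1 hv)
    · exact Or.inr fun v hv hv' => h1 v hv ((hW1 v hv).1 hv')

/-- the inner system is sane -/
theorem chs_inn_ok (S : ClSys V Y) (hS : ClOk S) (I : Finset V) : ClOk (S.inn I) :=
  ⟨fun y hy => (Finset.mem_filter.1 hy).2, fun y hy => hS.ne y (Finset.mem_filter.1 hy).1,
    fun y hy => hS.q0 y (Finset.mem_filter.1 hy).1, fun y hy => hS.q1 y (Finset.mem_filter.1 hy).1⟩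

/-- **HOST**: the inner system is a disk relatively to the pins `B = σ` on its layer -/
theorem chs_inn_rel (S : ClSys V Y) (hS : ClDisk S) (σ : V → Bool) (I : Finset V) (hI : I ⊆ S.A)
    (hσ : ∀ y ∈ S.C, clCross S I y → ∀ u ∈ S.sv y, ∀ v ∈ S.sv y, σ u = σ v) :
    ClRel (S.inn I) ((cuLay S I).filter (fun v => σ v = true)) ((cuLay S I).filter (fun v => σ v = false)) :=
  { toClOk := chs_inn_ok S hS.toClOk I
    card := fun y hy => hS.card y (Finset.mem_filter.1 hy).1
    split := fun B hB h1 h2 => chs_inn_split S hS σ I hI hσ B hB fun v hv => by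
      constructor
      · intro hvB
        by_contra hs
        exact h2 v (Finset.mem_filter.2 ⟨hv, by simpa using hs⟩) hvB
      · intro hs
        exact h1 (Finset.mem_filter.2 ⟨hv, hs⟩) }

/-! ## 5. EXITS -/

/-- **HOST, association** = `ams_host_assoc` (`Ann/ModelS.lean`) -/
theorem chs_host_assoc (S : ClSys V Y) (hS : ClDisk S) (σ : V → Bool) (I : Finset V) (hI : I ⊆ S.A)
    (hσ : ∀ y ∈ S.C, clCross S I y → ∀ u ∈ S.sv y, ∀ v ∈ S.sv y, σ u = σ v)
    (K : ClCon V Y) (hK : ClLegal (S.inn I) K)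
    (hp : ∀ v ∈ cuLay S I, σ v = true → v ∈ K.Bp) (hm : ∀ v ∈ cuLay S I, σ v = false → v ∈ K.Bm)
    (F G : ClCfg V Y → ℝ) (hF : ClMono (S.inn I) F) (hG : ClMono (S.inn I) G) :
    (S.inn I).N (K.Holds (S.inn I)) F * (S.inn I).N (K.Holds (S.inn I)) G ≤
      (S.inn I).Z (K.Holds (S.inn I)) * (S.inn I).N (K.Holds (S.inn I)) (fun ω => F ω * G ω) :=
  chs_assoc (S.inn I) (chs_inn_rel S hS σ I hI hσ) K hK
    (fun v hv => hp v (Finset.mem_filter.1 hv).1 (Finset.mem_filter.1 hv).2)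
    (fun v hv => hm v (Finset.mem_filter.1 hv).1 (Finset.mem_filter.1 hv).2) F G hF hG

/-- **HOST, order** = `ams_host_order` (`Ann/ModelS.lean`); the two sign functions need not be ordered (the histories are) -/
theorem chs_host_order (S : ClSys V Y) (hS : ClDisk S) (σ₁ σ₂ : V → Bool) (I : Finset V) (hI : I ⊆ S.A)
    (a₁ : ∀ y ∈ S.C, clCross S I y → ∀ u ∈ S.sv y, ∀ v ∈ S.sv y, σ₁ u = σ₁ v)
    (a₂ : ∀ y ∈ S.C, clCross S I y → ∀ u ∈ S.sv y, ∀ v ∈ S.sv y, σ₂ u = σ₂ v) (K₁ K₂ : ClCon V Y)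
    (h₁ : ClLegal (S.inn I) K₁) (h₂ : ClLegal (S.inn I) K₂)
    (hp₁ : ∀ v ∈ cuLay S I, σ₁ v = true → v ∈ K₁.Bp) (hm₁ : ∀ v ∈ cuLay S I, σ₁ v = false → v ∈ K₁.Bm)
    (hp₂ : ∀ v ∈ cuLay S I, σ₂ v = true → v ∈ K₂.Bp) (hm₂ : ∀ v ∈ cuLay S I, σ₂ v = false → v ∈ K₂.Bm)
    (hle : ClLe K₁ K₂) (F : ClCfg V Y → ℝ) (hF : ClMono (S.inn I) F) :
    (S.inn I).N (K₁.Holds (S.inn I)) F * (S.inn I).Z (K₂.Holds (S.inn I)) ≤
      (S.inn I).Z (K₁.Holds (S.inn I)) * (S.inn I).N (K₂.Holds (S.inn I)) F :=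
  chs_order (S.inn I) (chs_inn_rel S hS σ₁ I hI a₁) (chs_inn_rel S hS σ₂ I hI a₂) K₁ K₂ h₁ h₂
    (fun v hv => hp₁ v (Finset.mem_filter.1 hv).1 (Finset.mem_filter.1 hv).2)
    (fun v hv => hm₁ v (Finset.mem_filter.1 hv).1 (Finset.mem_filter.1 hv).2)
    (fun v hv => hp₂ v (Finset.mem_filter.1 hv).1 (Finset.mem_filter.1 hv).2)
    (fun v hv => hm₂ v (Finset.mem_filter.1 hv).1 (Finset.mem_filter.1 hv).2) hle F hF

end

/-- the equation and congruence lemmas of the definitions of this file are generated HERE, once -/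
theorem chs_eqns_cite : True := by
  have := @ClSplitAt.eq_1
  have := @chsExt.eq_1
  have := @ClSplitAt.congr_simp
  have := @chsExt.congr_simp
  trivial

end Claimed.Agent.R291
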