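/-
# Row 291 (S0539), Cell/Adapt : THE ADAPTER  `CellSys` (160, engine of ORDER)  ->  `ClSys` (115 / 146, carrier of DIS and ANN)   (helper46; prefix `cad`)

EXITS: `cad_assoc` (= `dis_assoc` verbatim), `cad_order` (= `dis_order` verbatim).

DESIGN.
 A. `cadSys S : CellSys {v // v ∈ S.A} {e // e ∈ cadEs S} {y // y ∈ S.C}`; the edges of a cell are ALL ordered pairs `(y, u, v)`, `u v ∈ S.sv y`,
    loops included (a one-site cell has its loop).  `xe = q^(1/4)` on a 3-site cell (a non constant spin changes on 4 ordered pairs),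
    `q^(1/2)` on a 2-site cell.  `cad_ok : ClDisk S → (cadSys S).Ok`, `cad_split : ClDisk S → ∀ b, (cadSys S).Split b`.
 B. `cadPhi S : ClCfg V Y → (b, τ, w)` is injective on `S.cfgs`, and its range contains the support of the joint weight: ONE application of
    `Finset.sum_of_injOn` gives `cad_N : S.N (K.Holds S) G = ∑ p, (cadSys S).wt (cadHist S K) p * cadF S G p`.
 C. `cadF S G = G ∘ cadPsi S`, `cadPsi` = clamped section of `cadPhi`; it is monotone, so `ClMono S G → Monotone (cadF S G)`.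
 D. a constraint without any configuration has `N = Z = 0`; otherwise it is consistent (`CadCons`) and `cadHist` represents it.
-/
import Claimed.Agent.R291.Cell.Order
import Claimed.Agent.R291.Defs.Dis

set_option autoImplicit false
set_option linter.unusedSectionVars false
set_option linter.unusedVariables false
set_option linter.unusedSimpArgs false

namespace Claimed.Agent.R291

open Finset

section

variable {V Y : Type} [DecidableEq V] [DecidableEq Y]

/-! ## A. the cell system -/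

/-- the edges: (cell, site, site), all ordered pairs of sites of the cell, loops included -/
def cadEs (S : ClSys V Y) : Finset (Y × V × V) :=
  (S.C ×ˢ S.A ×ˢ S.A).filter (fun e => e.2.1 ∈ S.sv e.1 ∧ e.2.2 ∈ S.sv e.1)

theorem cad_mem_es (S : ClSys V Y) (e : Y × V × V) :
    e ∈ cadEs S ↔ e.1 ∈ S.C ∧ e.2.1 ∈ S.A ∧ e.2.2 ∈ S.A ∧ e.2.1 ∈ S.sv e.1 ∧ e.2.2 ∈ S.sv e.1 := by
  unfold cadEs
  simp only [mem_filter, mem_product]
  tauto

/-- sites -/
abbrev CadV (S : ClSys V Y) := {v // v ∈ S.A}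
/-- cells -/
abbrev CadY (S : ClSys V Y) := {y // y ∈ S.C}
/-- edges -/
abbrev CadI (S : ClSys V Y) := {e // e ∈ cadEs S}

/-- wall parameter of the ordered pairs of a cell -/
noncomputable def cadX (S : ClSys V Y) (y : Y) : ℝ :=
  if (S.sv y).card = 3 then Real.sqrt (Real.sqrt (S.q y)) else Real.sqrt (S.q y)

/-- the abstract cell system of `S` -/
noncomputable def cadSys (S : ClSys V Y) : CellSys (CadV S) (CadI S) (CadY S) where
  s e := ⟨e.1.2.1, ((cad_mem_es S e.1).1 e.2).2.1⟩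
  t e := ⟨e.1.2.2, ((cad_mem_es S e.1).1 e.2).2.2.1⟩
  cell e := ⟨e.1.1, ((cad_mem_es S e.1).1 e.2).1⟩
  q y := S.q y.1
  xe e := cadX S e.1.1

/-- an edge -/
def cadE (S : ClSys V Y) (hS : ClOk S) (y : CadY S) (u v : V) (hu : u ∈ S.sv y.1) (hv : v ∈ S.sv y.1) : CadI S :=
  ⟨(y.1, u, v), (cad_mem_es S _).2 ⟨y.2, hS.sub y.1 y.2 hu, hS.sub y.1 y.2 hv, hu, hv⟩⟩

/-- `Cst` in site language -/
theorem cad_cst (S : ClSys V Y) (hS : ClOk S) (σ : CadV S → Bool) (y : CadY S) :
    (cadSys S).Cst σ y ↔ ∀ u v : CadV S, u.1 ∈ S.sv y.1 → v.1 ∈ S.sv y.1 → σ u = σ v := by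
  constructor
  · intro h u v hu hv
    exact h (cadE S hS y u.1 v.1 hu hv) rfl
  · intro h e he
    have h1 := (cad_mem_es S e.1).1 e.2
    have h2 : e.1.1 = y.1 := congrArg Subtype.val he
    exact h _ _ (h2 ▸ h1.2.2.2.1) (h2 ▸ h1.2.2.2.2)

/-- `Hom` in site language -/
theorem cad_hom (S : ClSys V Y) (hS : ClOk S) (σ : CadV S → Bool) (y : CadY S) (β : Bool) :
    (cadSys S).Hom σ y β ↔ ∀ u : CadV S, u.1 ∈ S.sv y.1 → σ u = β := by
  constructor
  · intro h u hu
    exact (h (cadE S hS y u.1 u.1 hu hu) rfl).1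
  · intro h e he
    have h1 := (cad_mem_es S e.1).1 e.2
    have h2 : e.1.1 = y.1 := congrArg Subtype.val he
    exact ⟨h _ (h2 ▸ h1.2.2.2.1), h _ (h2 ▸ h1.2.2.2.2)⟩

/-- the sites of a cell, in the subtype -/
def cadSv (S : ClSys V Y) (y : Y) : Finset (CadV S) := (S.sv y).subtype (· ∈ S.A)

theorem cad_mem_sv (S : ClSys V Y) (y : Y) (u : CadV S) : u ∈ cadSv S y ↔ u.1 ∈ S.sv y := by
  unfold cadSv; simp

theorem cad_card_sv (S : ClSys V Y) (hS : ClOk S) (y : CadY S) : (cadSv S y.1).card = (S.sv y.1).card := by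
  unfold cadSv
  rw [Finset.card_subtype, Finset.filter_true_of_mem (fun v hv => hS.sub y.1 y.2 hv)]

/-- a product over the edges of a cell is a double product over its sites -/
theorem cad_prod_cell (S : ClSys V Y) (hS : ClOk S) (y : CadY S) (φ : CadV S → CadV S → ℝ) :
    ∏ e ∈ univ.filter (fun e => (cadSys S).cell e = y), φ ((cadSys S).s e) ((cadSys S).t e)
      = ∏ u ∈ cadSv S y.1, ∏ v ∈ cadSv S y.1, φ u v := by
  rw [← Finset.prod_product']
  refine Finset.prod_bij' (fun e _ => ((cadSys S).s e, (cadSys S).t e))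
    (fun p hp => cadE S hS y p.1.1 p.2.1 ((cad_mem_sv S _ _).1 (Finset.mem_product.1 hp).1)
      ((cad_mem_sv S _ _).1 (Finset.mem_product.1 hp).2)) ?_ ?_ ?_ ?_ ?_
  · intro e he
    have h1 := (cad_mem_es S e.1).1 e.2
    have h2 : e.1.1 = y.1 := congrArg Subtype.val (Finset.mem_filter.1 he).2
    rw [Finset.mem_product, cad_mem_sv, cad_mem_sv]
    exact ⟨h2 ▸ h1.2.2.2.1, h2 ▸ h1.2.2.2.2⟩
  · intro p hp
    exact Finset.mem_filter.2 ⟨Finset.mem_univ _, rfl⟩
  · intro e he
    have h2 : e.1.1 = y.1 := congrArg Subtype.val (Finset.mem_filter.1 he).2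
    apply Subtype.ext
    show (y.1, e.1.2.1, e.1.2.2) = e.1
    rw [← h2]
  · intro p hp
    rfl
  · intro e he
    rfl

/-- pure counting lemma: the ordered pairs on which a spin changes -/
theorem cad_wall_pure {α : Type} [DecidableEq α] (s : Finset α) (σ : α → Bool) (x : ℝ) :
    ∏ u ∈ s, ∏ v ∈ s, (if σ u = σ v then 1 else x)
      = x ^ (2 * ((s.filter (fun v => σ v = true)).card * (s.filter (fun v => σ v = false)).card)) := by
  have h1 : ∀ u, ∏ v ∈ s, (if σ u = σ v then (1:ℝ) else x)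
      = x ^ (s.filter (fun v => σ v = !σ u)).card := by
    intro u
    rw [Finset.prod_ite, Finset.prod_const_one, one_mul, Finset.prod_const]
    congr 2
    ext v
    cases σ u <;> cases σ v <;> simp
  simp_rw [h1]
  rw [← Finset.prod_filter_mul_prod_filter_not s (fun u => σ u = true)]
  have h2 : ∏ u ∈ s.filter (fun u => σ u = true), x ^ (s.filter (fun v => σ v = !σ u)).card
      = (x ^ (s.filter (fun v => σ v = false)).card) ^ (s.filter (fun v => σ v = true)).card := by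
    rw [← Finset.prod_const]
    refine Finset.prod_congr rfl fun u hu => ?_
    rw [(Finset.mem_filter.1 hu).2]
    rfl
  have h3 : ∏ u ∈ s.filter (fun u => ¬ σ u = true), x ^ (s.filter (fun v => σ v = !σ u)).card
      = (x ^ (s.filter (fun v => σ v = true)).card) ^ (s.filter (fun v => σ v = false)).card := by
    have e : s.filter (fun u => ¬ σ u = true) = s.filter (fun u => σ u = false) := by
      ext v; simp
    rw [e, ← Finset.prod_const]
    refine Finset.prod_congr rfl fun u hu => ?_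
    rw [(Finset.mem_filter.1 hu).2]
    rfl
  rw [h2, h3, ← pow_mul, ← pow_mul, ← pow_add]
  congr 1
  ring

theorem cad_X_nonneg (S : ClSys V Y) (y : Y) : 0 ≤ cadX S y := by
  unfold cadX; split_ifs <;> exact Real.sqrt_nonneg _

theorem cad_X_le_one (S : ClSys V Y) (y : Y) (h1 : S.q y ≤ 1) : cadX S y ≤ 1 := by
  have h2 : Real.sqrt (S.q y) ≤ 1 := Real.sqrt_le_one.2 h1 
  unfold cadX; split_ifs
  · exact Real.sqrt_le_one.2 h2
  · exact h2

/-- cells are connected -/
theorem cad_ok_conn (S : ClSys V Y) (hO : ClOk S) (σ : CadV S → Bool) (y : CadY S) (h : (cadSys S).Cst σ y) :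
    (cadSys S).Hom σ y true ∨ (cadSys S).Hom σ y false := by
  obtain ⟨v, hv⟩ := hO.ne y.1 y.2
  rw [cad_cst S hO] at h
  rw [cad_hom S hO, cad_hom S hO]
  rcases hb : σ ⟨v, hO.sub y.1 y.2 hv⟩ with _ | _
  · exact Or.inr fun u hu => (h u ⟨v, hO.sub y.1 y.2 hv⟩ hu hv).trans hb
  · exact Or.inl fun u hu => (h u ⟨v, hO.sub y.1 y.2 hv⟩ hu hv).trans hb

/-- admissibility of the parameters -/
theorem cad_ok (S : ClSys V Y) (hS : ClDisk S) : (cadSys S).Ok := by
  have hO : ClOk S := hS.toClOk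
  refine ⟨fun y => (hO.q0 y.1 y.2).le, fun y => hO.q1 y.1 y.2, fun e => cad_X_nonneg S _,
    fun e => cad_X_le_one S _ (hO.q1 _ ((cad_mem_es S e.1).1 e.2).1), fun y => ?_, fun σ y h => ?_,
    fun σ y h => ?_⟩
  · obtain ⟨v, hv⟩ := hO.ne y.1 y.2
    exact Or.inl ⟨cadE S hO y v v hv hv, rfl⟩
  · exact cad_ok_conn S hO σ y h
  · have e1 : ∏ e ∈ univ.filter (fun e => (cadSys S).cell e = y),
        (if σ ((cadSys S).s e) = σ ((cadSys S).t e) then 1 else (cadSys S).xe e)
        = ∏ e ∈ univ.filter (fun e => (cadSys S).cell e = y),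
        (fun u v => if σ u = σ v then 1 else cadX S y.1) ((cadSys S).s e) ((cadSys S).t e) := by
      refine Finset.prod_congr rfl fun e he => ?_
      have h2 : e.1.1 = y.1 := congrArg Subtype.val (Finset.mem_filter.1 he).2
      show _ = if σ ((cadSys S).s e) = σ ((cadSys S).t e) then 1 else cadX S y.1
      rw [← h2]
      rfl
    rw [e1, cad_prod_cell S hO y (fun u v => if σ u = σ v then 1 else cadX S y.1), cad_wall_pure]
    rw [cad_cst S hO] at h
    set a := ((cadSv S y.1).filter (fun v => σ v = true)).card with ha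
    set b := ((cadSv S y.1).filter (fun v => σ v = false)).card with hb
    have hab : a + b = (S.sv y.1).card := by
      rw [← cad_card_sv S hO y, ha, hb, ← Finset.card_filter_add_card_filter_not (s := cadSv S y.1) (fun v => σ v = true)]
      congr 2
      ext v; simp
    have hc := hS.card y.1 y.2
    have ha0 : 0 < a := by
      rw [ha, Finset.card_pos]
      by_contra hne
      rw [Finset.not_nonempty_iff_eq_empty, Finset.filter_eq_empty_iff] at hne
      refine h fun u v hu hv => ?_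
      have h1 := hne ((cad_mem_sv S _ _).2 hu)
      have h2 := hne ((cad_mem_sv S _ _).2 hv)
      simp only [Bool.not_eq_true] at h1 h2
      rw [h1, h2]
    have hb0 : 0 < b := by
      rw [hb, Finset.card_pos]
      by_contra hne
      rw [Finset.not_nonempty_iff_eq_empty, Finset.filter_eq_empty_iff] at hne
      refine h fun u v hu hv => ?_
      have h1 := hne ((cad_mem_sv S _ _).2 hu)
      have h2 := hne ((cad_mem_sv S _ _).2 hv)
      simp only [Bool.not_eq_false] at h1 h2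
      rw [h1, h2]
    have hq : 0 ≤ S.q y.1 := (hO.q0 y.1 y.2).le
    show cadX S y.1 ^ (2 * (a * b)) = S.q y.1
    unfold cadX
    by_cases h3 : (S.sv y.1).card = 3
    · rw [if_pos h3]
      have hab2 : a * b = 2 := by
        have : a = 1 ∨ a = 2 := by omega
        rcases this with h | h
        · have : b = 2 := by omega
          rw [h, this]
        · have : b = 1 := by omega
          rw [h, this]
      rw [hab2]
      show Real.sqrt (Real.sqrt (S.q y.1)) ^ (2 * 2) = _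
      rw [pow_mul, Real.sq_sqrt (Real.sqrt_nonneg _), Real.sq_sqrt hq]
    · rw [if_neg h3]
      have h1 : a = 1 := by omega
      have h2 : b = 1 := by omega
      rw [h1, h2]
      show Real.sqrt (S.q y.1) ^ 2 = _
      rw [Real.sq_sqrt hq]

/-! ## A2. spins as sets; the splitting property -/

/-- indicator of a set of sites -/
def cadInd (S : ClSys V Y) (P : Finset V) : CadV S → Bool := fun v => decide (v.1 ∈ P)

/-- the plus set of a spin -/
def cadSet (S : ClSys V Y) (b : CadV S → Bool) : Finset V :=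
  (univ.filter (fun v => b v = true)).map (Function.Embedding.subtype _)

theorem cad_mem_set (S : ClSys V Y) (b : CadV S → Bool) (v : V) :
    v ∈ cadSet S b ↔ ∃ h : v ∈ S.A, b ⟨v, h⟩ = true := by
  unfold cadSet
  simp only [mem_map, mem_filter, mem_univ, true_and, Function.Embedding.coe_subtype, Subtype.exists,
    exists_and_right, exists_eq_right]

theorem cad_mem_set' (S : ClSys V Y) (b : CadV S → Bool) (v : CadV S) : v.1 ∈ cadSet S b ↔ b v = true := by
  rw [cad_mem_set]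
  exact ⟨fun ⟨_, h⟩ => h, fun h => ⟨v.2, h⟩⟩

theorem cad_set_sub (S : ClSys V Y) (b : CadV S → Bool) : cadSet S b ⊆ S.A := fun v hv =>
  ((cad_mem_set S b v).1 hv).1

theorem cad_ind_set (S : ClSys V Y) (b : CadV S → Bool) : cadInd S (cadSet S b) = b := by
  funext v
  unfold cadInd
  rw [Bool.eq_iff_iff, decide_eq_true_iff, cad_mem_set']

theorem cad_set_ind (S : ClSys V Y) {P : Finset V} (hP : P ⊆ S.A) : cadSet S (cadInd S P) = P := by
  ext v
  rw [cad_mem_set]
  unfold cadInd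
  simp only [decide_eq_true_eq, exists_prop]
  exact ⟨fun h => h.2, fun h => ⟨hP h, h⟩⟩

theorem cad_ind_true (S : ClSys V Y) (P : Finset V) (v : CadV S) : cadInd S P v = true ↔ v.1 ∈ P := by
  unfold cadInd; simp

theorem cad_ind_false (S : ClSys V Y) (P : Finset V) (v : CadV S) : cadInd S P v = false ↔ v.1 ∉ P := by
  unfold cadInd; simp

theorem cad_ind_eq (S : ClSys V Y) (P : Finset V) (u v : CadV S) :
    cadInd S P u = cadInd S P v ↔ (u.1 ∈ P ↔ v.1 ∈ P) := by
  unfold cadInd; simp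

theorem cad_hom_t (S : ClSys V Y) (hS : ClOk S) (P : Finset V) (y : CadY S) :
    (cadSys S).Hom (cadInd S P) y true ↔ S.sv y.1 ⊆ P := by
  rw [cad_hom S hS]
  constructor
  · intro h v hv
    exact (cad_ind_true S P ⟨v, hS.sub y.1 y.2 hv⟩).1 (h _ hv)
  · intro h u hu
    exact (cad_ind_true S P u).2 (h hu)

theorem cad_hom_f (S : ClSys V Y) (hS : ClOk S) (P : Finset V) (y : CadY S) :
    (cadSys S).Hom (cadInd S P) y false ↔ ∀ v ∈ S.sv y.1, v ∉ P := by
  rw [cad_hom S hS]
  constructor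
  · intro h v hv
    exact (cad_ind_false S P ⟨v, hS.sub y.1 y.2 hv⟩).1 (h _ hv)
  · intro h u hu
    exact (cad_ind_false S P u).2 (h _ hu)

theorem cad_const (S : ClSys V Y) (hS : ClOk S) (P : Finset V) (y : CadY S) :
    (cadSys S).Cst (cadInd S P) y ↔ ClConst P (S.sv y.1) := by
  constructor
  · intro h
    rcases (cad_ok_conn S hS _ y h) with h1 | h1
    · exact Or.inl ((cad_hom_t S hS P y).1 h1)
    · exact Or.inr ((cad_hom_f S hS P y).1 h1)
  · rintro (h | h)
    · exact cs_hom_cst _ ((cad_hom_t S hS P y).2 h)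
    · exact cs_hom_cst _ ((cad_hom_f S hS P y).2 h)

/-- the splitting property, from `ClDisk.split` -/
theorem cad_split (S : ClSys V Y) (hS : ClDisk S) (b : CadV S → Bool) : (cadSys S).Split b := by
  intro W hW
  have hO : ClOk S := hS.toClOk
  have hW' : ∀ y : CadY S, ∀ u v : CadV S, u.1 ∈ S.sv y.1 → v.1 ∈ S.sv y.1 → W u ≠ W v → b u = b v :=
    fun y u v hu hv => hW (cadE S hO y u.1 v.1 hu hv)
  have key : ∀ y : CadY S, ∀ u v z : CadV S, u.1 ∈ S.sv y.1 → v.1 ∈ S.sv y.1 → z.1 ∈ S.sv y.1 →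
      W u ≠ W v → b z = b u := by
    intro y u v z hu hv hz huv
    by_cases h1 : W z = W u
    · have h2 : W z ≠ W v := h1 ▸ huv
      exact (hW' y z v hz hv h2).trans (hW' y u v hu hv huv).symm
    · exact hW' y z u hz hu h1
  obtain ⟨W₁, hW₁, hsp⟩ := hS.split (cadSet S b) (cad_set_sub S b) (cadSet S W) (cad_set_sub S W) (by
    intro y hy hB
    by_contra hWc
    rw [← cad_const S hO _ ⟨y, hy⟩, cad_ind_set, cad_cst S hO] at hB hWc
    simp only [not_forall] at hWc
    obtain ⟨u, v, hu, hv, huv⟩ := hWc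
    exact hB fun u' v' hu' hv' => (key ⟨y, hy⟩ u v u' hu hv hu' huv).trans
      (key ⟨y, hy⟩ u v v' hu hv hv' huv).symm)
  refine ⟨cadInd S W₁, fun e => ?_⟩
  have h1 := (cad_mem_es S e.1).1 e.2
  set y : CadY S := (cadSys S).cell e with hy
  set u : CadV S := (cadSys S).s e with hu
  set v : CadV S := (cadSys S).t e with hv
  have hu' : u.1 ∈ S.sv y.1 := h1.2.2.2.1
  have hv' : v.1 ∈ S.sv y.1 := h1.2.2.2.2
  have hWe : W u = W v ↔ (u.1 ∈ cadSet S W ↔ v.1 ∈ cadSet S W) := by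
    rw [cad_mem_set', cad_mem_set', Bool.eq_iff_iff]
  by_cases hsub : S.sv y.1 ⊆ cadSet S b
  · have h2 := (hsp y.1 y.2).1 hsub u.1 hu' v.1 hv'
    have h3 : b u = true := (cad_mem_set' S b u).1 (hsub hu')
    rw [Ne, Ne, cad_ind_eq, h2, hWe]
    exact ⟨fun h => ⟨h, h3⟩, fun h => h.1⟩
  · have h2 := (hsp y.1 y.2).2 hsub
    rw [← cad_const S hO, cad_cst S hO] at h2
    constructor
    · intro h
      exact absurd (h2 u v hu' hv') h
    · rintro ⟨h3, h4⟩
      exfalso
      refine hsub fun z hz => ?_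
      have h5 := key y u v ⟨z, hO.sub y.1 y.2 hz⟩ hu' hv' hz h3
      exact (cad_mem_set' S b ⟨z, hO.sub y.1 y.2 hz⟩).2 (h5.trans h4)

/-! ## B. configurations -/

/-- the status function of a configuration -/
def cadTau (S : ClSys V Y) (ω : ClCfg V Y) : CadY S → SignType :=
  fun y => if y.1 ∈ ω.O then (if S.sv y.1 ⊆ ω.B then 1 else -1) else 0

/-- the translation of a configuration -/
def cadPhi (S : ClSys V Y) (ω : ClCfg V Y) : CsOm (CadV S) (CadY S) × (CadV S → Bool) :=
  ((cadInd S ω.B, cadTau S ω), cadInd S ω.W)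

theorem cad_tau_one (S : ClSys V Y) (ω : ClCfg V Y) (y : CadY S) : cadTau S ω y = 1 ↔ clTau S ω y.1 = 1 := by
  unfold cadTau clTau
  split_ifs <;> simp

theorem cad_tau_neg (S : ClSys V Y) (ω : ClCfg V Y) (y : CadY S) : cadTau S ω y = -1 ↔ clTau S ω y.1 = -1 := by
  unfold cadTau clTau
  split_ifs <;> simp

theorem cad_tau_zero (S : ClSys V Y) (ω : ClCfg V Y) (y : CadY S) : cadTau S ω y = 0 ↔ y.1 ∉ ω.O := by
  unfold cadTau
  split_ifs <;> simp_all

/-- the cell table -/
theorem cad_cw (S : ClSys V Y) (hS : ClOk S) (ω : ClCfg V Y) (y : CadY S) :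
    (cadSys S).cw (cadInd S ω.B) (cadInd S ω.W) y (cadTau S ω y)
      = clCellW (S.q y.1) (ClConst ω.B (S.sv y.1)) (ClConst ω.W (S.sv y.1)) (y.1 ∈ ω.O) := by
  classical
  unfold CellSys.cw clCellW
  by_cases hO : y.1 ∈ ω.O
  · by_cases hB : S.sv y.1 ⊆ ω.B
    · have h1 : cadTau S ω y = 1 := by unfold cadTau; rw [if_pos hO, if_pos hB]
      have h2 : ClConst ω.B (S.sv y.1) := Or.inl hB
      rw [h1, cs_kf_pos, if_pos ((cad_hom_t S hS _ y).2 hB), if_pos hO, if_pos h2,
        if_pos (fun h => absurd h (by decide)), mul_one]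
      rfl
    · have h1 : cadTau S ω y = -1 := by unfold cadTau; rw [if_pos hO, if_neg hB]
      rw [h1, cs_kf_neg, if_pos hO, if_pos (fun h => absurd h (by decide)), mul_one]
      by_cases hc : ∀ v ∈ S.sv y.1, v ∉ ω.B
      · have h2 : ClConst ω.B (S.sv y.1) := Or.inr hc
        rw [if_pos ((cad_hom_f S hS _ y).2 hc), if_pos h2]
        rfl
      · have h2 : ¬ ClConst ω.B (S.sv y.1) := fun h => h.elim hB hc
        rw [if_neg (fun h => hc ((cad_hom_f S hS _ y).1 h)), if_neg h2]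
  · have h1 : cadTau S ω y = 0 := by unfold cadTau; rw [if_neg hO]
    rw [h1, cs_kf_zero, if_neg hO]
    by_cases hW : ClConst ω.W (S.sv y.1)
    · rw [if_pos (fun _ => (cad_const S hS _ y).2 hW), if_pos hW, mul_one]
      by_cases hB : ClConst ω.B (S.sv y.1)
      · rw [if_pos ((cad_const S hS _ y).2 hB), if_pos hB]
        rfl
      · rw [if_neg (fun h => hB ((cad_const S hS _ y).1 h)), if_neg hB]
        rfl
    · have h2 : ¬ ((0 : SignType) = 0 → (cadSys S).Cst (cadInd S ω.W) y) :=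
        fun h => hW ((cad_const S hS _ y).1 (h rfl))
      rw [if_neg h2, if_neg hW, mul_zero]

/-- the joint weight -/
theorem cad_jw (S : ClSys V Y) (hS : ClOk S) (ω : ClCfg V Y) :
    (cadSys S).jw (cadInd S ω.B) (cadInd S ω.W) (cadTau S ω) = S.wt ω := by
  unfold CellSys.jw ClSys.wt
  rw [← Finset.prod_coe_sort S.C]
  exact Finset.prod_congr rfl fun y _ => cad_cw S hS ω y

/-- the translation is injective on the configurations of the system -/
theorem cad_phi_inj (S : ClSys V Y) : Set.InjOn (cadPhi S) (S.cfgs : Set (ClCfg V Y)) := by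
  intro ω hω ω' hω' h
  rw [Finset.mem_coe, cl_mem_cfgs] at hω hω'
  unfold cadPhi at h
  simp only [Prod.mk.injEq] at h
  obtain ⟨⟨h1, h2⟩, h3⟩ := h
  refine ClCfg.ext ?_ ?_ ?_
  · rw [← cad_set_ind S hω.1, h1, cad_set_ind S hω'.1]
  · rw [← cad_set_ind S hω.2.1, h3, cad_set_ind S hω'.2.1]
  · ext y
    by_cases hy : y ∈ S.C
    · have h4 := cad_tau_zero S ω ⟨y, hy⟩
      have h5 := cad_tau_zero S ω' ⟨y, hy⟩
      rw [h2] at h4
      exact not_iff_not.1 (h4.symm.trans h5)
    · exact ⟨fun h => absurd (hω.2.2 h) hy, fun h => absurd (hω'.2.2 h) hy⟩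

/-- the range of the translation contains the support of the joint weight -/
theorem cad_supp (S : ClSys V Y) (hS : ClOk S) (b w : CadV S → Bool) (τ : CadY S → SignType)
    (h : (cadSys S).jw b w τ ≠ 0) : ∃ ω ∈ S.cfgs, cadPhi S ω = ((b, τ), w) := by
  classical
  refine ⟨⟨cadSet S b, cadSet S w, (univ.filter (fun y => τ y ≠ 0)).map (Function.Embedding.subtype _)⟩,
    (cl_mem_cfgs S _).2 ⟨cad_set_sub S b, cad_set_sub S w, ?_⟩, ?_⟩
  · intro y hy
    simp only [mem_map, mem_filter, mem_univ, true_and, Function.Embedding.coe_subtype] at hy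
    obtain ⟨a, _, rfl⟩ := hy
    exact a.2
  · unfold cadPhi
    simp only [cad_ind_set]
    congr 2
    funext y
    have hy : (cadSys S).kf b y (τ y) ≠ 0 := by
      unfold CellSys.jw at h
      have := Finset.prod_ne_zero_iff.1 h y (Finset.mem_univ _)
      unfold CellSys.cw at this
      exact left_ne_zero_of_mul this
    have hmem : y.1 ∈ (univ.filter (fun y => τ y ≠ 0)).map (Function.Embedding.subtype (· ∈ S.C)) ↔ τ y ≠ 0 := by
      simp only [mem_map, mem_filter, mem_univ, true_and, Function.Embedding.coe_subtype]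
      constructor
      · rintro ⟨a, ha, hay⟩
        rwa [Subtype.ext hay] at ha
      · intro h
        exact ⟨y, h, rfl⟩
    unfold cadTau
    simp only
    rcases cs_sign_cases (τ y) with h0 | h0 | h0
    · rw [if_neg (fun hh => (hmem.1 hh) h0), h0]
    · rw [h0] at hy
      have h1 := cs_kf_neg_ne _ b y hy
      rw [← cad_ind_set S b, cad_hom_f S hS] at h1
      obtain ⟨v, hv⟩ := hS.ne y.1 y.2
      rw [if_pos (hmem.2 (by rw [h0]; decide)), if_neg (fun hh => h1 v hv (hh hv)), h0]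
    · rw [h0] at hy
      have h1 := cs_kf_one_ne _ b y hy
      rw [← cad_ind_set S b, cad_hom_t S hS] at h1
      rw [if_pos (hmem.2 (by rw [h0]; decide)), if_pos h1, h0]

/-! ## C. observables -/

/-- the open cells of a pair (first spin, statuses), clamped: a status `+` counts only on a plus cell, a status `-` only on a cell
which is not a plus cell -/
def cadOpen (S : ClSys V Y) (p : CsOm (CadV S) (CadY S)) : Finset Y :=
  (univ.filter (fun y : CadY S => (p.2 y = 1 ∧ S.sv y.1 ⊆ cadSet S p.1) ∨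
    (p.2 y = -1 ∧ ¬ S.sv y.1 ⊆ cadSet S p.1))).map (Function.Embedding.subtype _)

theorem cad_mem_open (S : ClSys V Y) (p : CsOm (CadV S) (CadY S)) (y : CadY S) :
    y.1 ∈ cadOpen S p ↔ ((p.2 y = 1 ∧ S.sv y.1 ⊆ cadSet S p.1) ∨ (p.2 y = -1 ∧ ¬ S.sv y.1 ⊆ cadSet S p.1)) := by
  unfold cadOpen
  simp only [mem_map, mem_filter, mem_univ, true_and, Function.Embedding.coe_subtype]
  constructor
  · rintro ⟨a, ha, hay⟩
    rwa [Subtype.ext hay] at ha
  · intro h
    exact ⟨y, h, rfl⟩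

/-- the clamped section of the translation -/
def cadPsi (S : ClSys V Y) (p : CsOm (CadV S) (CadY S)) : ClCfg V Y := ⟨cadSet S p.1, ∅, cadOpen S p⟩

/-- the translation of an observable -/
def cadF (S : ClSys V Y) (G : ClCfg V Y → ℝ) : CsOm (CadV S) (CadY S) → ℝ := fun p => G (cadPsi S p)

theorem cad_tau_psi (S : ClSys V Y) (p : CsOm (CadV S) (CadY S)) (y : CadY S) :
    clTau S (cadPsi S p) y.1 = if p.2 y = 1 ∧ S.sv y.1 ⊆ cadSet S p.1 then 1
      else if p.2 y = -1 ∧ ¬ S.sv y.1 ⊆ cadSet S p.1 then -1 else 0 := by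
  unfold clTau
  show (if y.1 ∈ cadOpen S p then (if S.sv y.1 ⊆ cadSet S p.1 then (1 : ℤ) else -1) else 0) = _
  by_cases h1 : p.2 y = 1 ∧ S.sv y.1 ⊆ cadSet S p.1
  · rw [if_pos ((cad_mem_open S p y).2 (Or.inl h1)), if_pos h1.2, if_pos h1]
  · by_cases h2 : p.2 y = -1 ∧ ¬ S.sv y.1 ⊆ cadSet S p.1
    · rw [if_pos ((cad_mem_open S p y).2 (Or.inr h2)), if_neg h2.2, if_neg h1, if_pos h2]
    · rw [if_neg (fun h => ((cad_mem_open S p y).1 h).elim h1 h2), if_neg h1, if_neg h2]

theorem cad_set_mono (S : ClSys V Y) {b b' : CadV S → Bool} (h : b ≤ b') : cadSet S b ⊆ cadSet S b' := by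
  intro v hv
  rw [cad_mem_set] at hv ⊢
  obtain ⟨hA, hb⟩ := hv
  exact ⟨hA, cs_b_le_t (h ⟨v, hA⟩) hb⟩

/-- an increasing observable is translated into a monotone function -/
theorem cad_mono (S : ClSys V Y) {G : ClCfg V Y → ℝ} (hG : ClMono S G) : Monotone (cadF S G) := by
  intro p p' hpp
  have hB : cadSet S p.1 ⊆ cadSet S p'.1 := cad_set_mono S hpp.1
  refine hG _ _ hB fun y hy => ?_
  have hτ : p.2 ⟨y, hy⟩ ≤ p'.2 ⟨y, hy⟩ := hpp.2 ⟨y, hy⟩
  rw [cad_tau_psi S p ⟨y, hy⟩, cad_tau_psi S p' ⟨y, hy⟩]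
  by_cases h1 : p.2 ⟨y, hy⟩ = 1 ∧ S.sv y ⊆ cadSet S p.1
  · have h2 : p'.2 ⟨y, hy⟩ = 1 ∧ S.sv y ⊆ cadSet S p'.1 :=
      ⟨cs_s_top (h1.1 ▸ hτ), h1.2.trans hB⟩
    rw [if_pos h1, if_pos h2]
  · rw [if_neg h1]
    by_cases h2 : p.2 ⟨y, hy⟩ = -1 ∧ ¬ S.sv y ⊆ cadSet S p.1
    · rw [if_pos h2]
      split_ifs <;> norm_num
    · rw [if_neg h2]
      have h3 : ¬ (p'.2 ⟨y, hy⟩ = -1 ∧ ¬ S.sv y ⊆ cadSet S p'.1) := fun h =>
        h2 ⟨cs_s_bot (h.1 ▸ hτ), fun hh => h.2 (hh.trans hB)⟩
      rw [if_neg h3]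
      split_ifs <;> norm_num

/-- `G` is a function of the first spin and of the statuses -/
def CadInv (S : ClSys V Y) (G : ClCfg V Y → ℝ) : Prop :=
  ∀ ω ω' : ClCfg V Y, ω.B = ω'.B → (∀ y ∈ S.C, clTau S ω y = clTau S ω' y) → G ω = G ω'

theorem cad_inv_of_mono (S : ClSys V Y) {G : ClCfg V Y → ℝ} (hG : ClMono S G) : CadInv S G :=
  fun ω ω' h1 h2 => le_antisymm (hG ω ω' h1.subset fun y hy => (h2 y hy).le)
    (hG ω' ω h1.symm.subset fun y hy => (h2 y hy).ge)

theorem cad_inv_mul (S : ClSys V Y) {F G : ClCfg V Y → ℝ} (hF : CadInv S F) (hG : CadInv S G) :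
    CadInv S (fun ω => F ω * G ω) := fun ω ω' h1 h2 => by
  show F ω * G ω = F ω' * G ω'
  rw [hF ω ω' h1 h2, hG ω ω' h1 h2]

theorem cad_inv_const (S : ClSys V Y) (c : ℝ) : CadInv S (fun _ => c) := fun _ _ _ _ => rfl

/-- the translated observable at a translated configuration -/
theorem cad_F_phi (S : ClSys V Y) {G : ClCfg V Y → ℝ} (hG : CadInv S G) {ω : ClCfg V Y} (hω : ω ∈ S.cfgs) :
    cadF S G (cadPhi S ω).1 = G ω := by
  rw [cl_mem_cfgs] at hω
  have hB : cadSet S (cadInd S ω.B) = ω.B := cad_set_ind S hω.1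
  refine hG _ _ hB fun y hy => ?_
  rw [cad_tau_psi S _ ⟨y, hy⟩]
  show (if cadTau S ω ⟨y, hy⟩ = 1 ∧ S.sv y ⊆ cadSet S (cadInd S ω.B) then (1 : ℤ)
      else if cadTau S ω ⟨y, hy⟩ = -1 ∧ ¬ S.sv y ⊆ cadSet S (cadInd S ω.B) then -1 else 0) = _
  rw [hB]
  unfold cadTau clTau
  simp only
  by_cases hO : y ∈ ω.O
  · by_cases hs : S.sv y ⊆ ω.B
    · simp [hO, hs]
    · simp [hO, hs]
  · simp [hO]

/-! ## D. histories -/

/-- the translation of a constraint -/
def cadHist (S : ClSys V Y) (K : ClCon V Y) : CsHist (CadV S) (CadI S) (CadY S) where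
  pB v := if v.1 ∈ K.Bp then some true else if v.1 ∈ K.Bm then some false else none
  pT y := if y.1 ∈ K.Op then some 1 else if y.1 ∈ K.Om then some (-1) else if y.1 ∈ K.Cl then some 0 else none
  E0 := univ.filter (fun e => (e.1.2.1, e.1.2.2) ∈ K.Eq)

/-- consistency of a constraint -/
structure CadCons (S : ClSys V Y) (K : ClCon V Y) : Prop where
  bpA : K.Bp ⊆ S.A
  dis : ∀ v ∈ K.Bp, v ∉ K.Bm
  opC : K.Op ⊆ S.C
  omC : K.Om ⊆ S.C
  d1 : ∀ y ∈ K.Op, y ∉ K.Om
  d2 : ∀ y ∈ K.Op, y ∉ K.Cl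
  d3 : ∀ y ∈ K.Om, y ∉ K.Cl

theorem cad_tau_mem (S : ClSys V Y) (ω : ClCfg V Y) (y : Y) (h : clTau S ω y ≠ 0) : y ∈ ω.O := by
  by_contra hh
  exact h ((dis_tau_zero S ω y).2 hh)

/-- a constraint satisfied by a configuration of the system is consistent -/
theorem cad_cons (S : ClSys V Y) (K : ClCon V Y) {ω : ClCfg V Y} (hω : ω ∈ S.cfgs) (h : K.Holds S ω) :
    CadCons S K := by
  rw [cl_mem_cfgs] at hω
  obtain ⟨h1, h2, h3, h4, h5, h6, h7, h8⟩ := h
  refine ⟨h1.trans hω.1, fun v hv hv' => h2 v hv' (h1 hv), fun y hy => ?_, fun y hy => ?_,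
    fun y hy hy' => ?_, fun y hy hy' => ?_, fun y hy hy' => ?_⟩
  · exact hω.2.2 (cad_tau_mem S ω y (by rw [h4 y hy]; norm_num))
  · exact hω.2.2 (cad_tau_mem S ω y (by rw [h5 y hy]; norm_num))
  · have := (h4 y hy).symm.trans (h5 y hy')
    norm_num at this
  · exact h6 y hy' (cad_tau_mem S ω y (by rw [h4 y hy]; norm_num))
  · exact h6 y hy' (cad_tau_mem S ω y (by rw [h5 y hy]; norm_num))

theorem cad_okB (S : ClSys V Y) (K : ClCon V Y) (hc : CadCons S K) {B : Finset V} (hB : B ⊆ S.A) :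
    (cadHist S K).OkB (cadInd S B) ↔ (K.Bp ⊆ B ∧ ∀ v ∈ K.Bm, v ∉ B) := by
  constructor
  · intro h
    refine ⟨fun v hv => ?_, fun v hv hvB => ?_⟩
    · have h1 : (cadHist S K).pB ⟨v, hc.bpA hv⟩ = some true := by
        show (if v ∈ K.Bp then some true else if v ∈ K.Bm then some false else none) = _
        rw [if_pos hv]
      exact (cad_ind_true S B ⟨v, hc.bpA hv⟩).1 (h _ _ h1)
    · have h1 : (cadHist S K).pB ⟨v, hB hvB⟩ = some false := by
        show (if v ∈ K.Bp then some true else if v ∈ K.Bm then some false else none) = _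
        rw [if_neg (fun hh => hc.dis v hh hv), if_pos hv]
      exact (cad_ind_false S B ⟨v, hB hvB⟩).1 (h _ _ h1) hvB
  · rintro ⟨h1, h2⟩ v β hβ
    have hβ' : (if v.1 ∈ K.Bp then some true else if v.1 ∈ K.Bm then some false else none) = some β := hβ
    by_cases hp : v.1 ∈ K.Bp
    · rw [if_pos hp] at hβ'
      rw [← Option.some.inj hβ']
      exact (cad_ind_true S B v).2 (h1 hp)
    · rw [if_neg hp] at hβ'
      by_cases hm : v.1 ∈ K.Bm
      · rw [if_pos hm] at hβ'
        rw [← Option.some.inj hβ']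
        exact (cad_ind_false S B v).2 (h2 _ hm)
      · rw [if_neg hm] at hβ'
        exact absurd hβ' (by simp)

theorem cad_okT (S : ClSys V Y) (K : ClCon V Y) (hc : CadCons S K) {ω : ClCfg V Y} (hO : ω.O ⊆ S.C) :
    (cadHist S K).OkT (cadTau S ω) ↔
      ((∀ y ∈ K.Op, clTau S ω y = 1) ∧ (∀ y ∈ K.Om, clTau S ω y = -1) ∧ (∀ y ∈ K.Cl, y ∉ ω.O)) := by
  have hpT : ∀ y : CadY S, (cadHist S K).pT y = if y.1 ∈ K.Op then some 1 else if y.1 ∈ K.Om then some (-1)
      else if y.1 ∈ K.Cl then some 0 else none := fun _ => rfl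
  constructor
  · intro h
    refine ⟨fun y hy => ?_, fun y hy => ?_, fun y hy hyO => ?_⟩
    · have h1 : (cadHist S K).pT ⟨y, hc.opC hy⟩ = some 1 := by
        rw [hpT, if_pos hy]
      exact (cad_tau_one S ω ⟨y, hc.opC hy⟩).1 (h _ _ h1)
    · have h1 : (cadHist S K).pT ⟨y, hc.omC hy⟩ = some (-1) := by
        rw [hpT, if_neg (fun hh => hc.d1 y hh hy), if_pos hy]
      exact (cad_tau_neg S ω ⟨y, hc.omC hy⟩).1 (h _ _ h1)
    · have h1 : (cadHist S K).pT ⟨y, hO hyO⟩ = some 0 := by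
        rw [hpT, if_neg (fun hh => hc.d2 y hh hy), if_neg (fun hh => hc.d3 y hh hy), if_pos hy]
      exact (cad_tau_zero S ω ⟨y, hO hyO⟩).1 (h _ _ h1) hyO
  · rintro ⟨h1, h2, h3⟩ y θ hθ
    rw [hpT] at hθ
    by_cases hp : y.1 ∈ K.Op
    · rw [if_pos hp] at hθ
      rw [← Option.some.inj hθ]
      exact (cad_tau_one S ω y).2 (h1 _ hp)
    · rw [if_neg hp] at hθ
      by_cases hm : y.1 ∈ K.Om
      · rw [if_pos hm] at hθ
        rw [← Option.some.inj hθ]
        exact (cad_tau_neg S ω y).2 (h2 _ hm)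
      · rw [if_neg hm] at hθ
        by_cases hl : y.1 ∈ K.Cl
        · rw [if_pos hl] at hθ
          rw [← Option.some.inj hθ]
          exact (cad_tau_zero S ω y).2 (h3 _ hl)
        · rw [if_neg hl] at hθ
          exact absurd hθ (by simp)

theorem cad_okW (S : ClSys V Y) (hS : ClOk S) (K : ClCon V Y) (hK : ClLegal S K) (W : Finset V) :
    (cadHist S K).OkW (cadSys S) (cadInd S W) ↔ ∀ e ∈ K.Eq, (e.1 ∈ W ↔ e.2 ∈ W) := by
  constructor
  · intro h e he
    obtain ⟨y, hy, h1, h2⟩ := hK.eq e he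
    have h3 := h (cadE S hS ⟨y, hy⟩ e.1 e.2 h1 h2) (Finset.mem_filter.2 ⟨Finset.mem_univ _, he⟩)
    exact (cad_ind_eq S W _ _).1 h3
  · intro h e he
    exact (cad_ind_eq S W _ _).2 (h _ (Finset.mem_filter.1 he).2)

/-- the constraint in the two languages -/
theorem cad_holds (S : ClSys V Y) (hS : ClOk S) (K : ClCon V Y) (hK : ClLegal S K) (hc : CadCons S K)
    {ω : ClCfg V Y} (hω : ω ∈ S.cfgs) :
    K.Holds S ω ↔ ((cadHist S K).OkB (cadInd S ω.B) ∧ (cadHist S K).OkT (cadTau S ω)) ∧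
      (cadHist S K).OkW (cadSys S) (cadInd S ω.W) := by
  rw [cl_mem_cfgs] at hω
  rw [cad_okB S K hc hω.1, cad_okT S K hc hω.2.2, cad_okW S hS K hK]
  unfold ClCon.Holds
  rw [hK.wp, hK.wm]
  simp only [Finset.empty_subset, Finset.notMem_empty, false_imp_iff, implies_true, and_true]
  tauto

/-! ## E. the sums -/

/-- THE DICTIONARY: unnormalised expectations in the two languages -/
theorem cad_N (S : ClSys V Y) (hS : ClOk S) (K : ClCon V Y) (hK : ClLegal S K) (hc : CadCons S K)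
    (G : ClCfg V Y → ℝ) (hG : CadInv S G) :
    S.N (K.Holds S) G = ∑ p, (cadSys S).wt (cadHist S K) p * cadF S G p := by
  classical
  set h := cadHist S K with hh
  set C := cadSys S with hC
  let g : CsOm (CadV S) (CadY S) × (CadV S → Bool) → ℝ := fun r =>
    if (h.OkB r.1.1 ∧ h.OkT r.1.2) ∧ h.OkW C r.2 then C.jw r.1.1 r.2 r.1.2 * cadF S G r.1 else 0
  have e1 : ∀ p : CsOm (CadV S) (CadY S), C.wt h p * cadF S G p = ∑ w : CadV S → Bool, g (p, w) := by
    intro p
    simp only [g]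
    unfold CellSys.wt
    by_cases h1 : h.OkB p.1 ∧ h.OkT p.2
    · rw [if_pos h1, Finset.sum_mul]
      refine Finset.sum_congr rfl fun w _ => ?_
      by_cases h2 : h.OkW C w
      · simp only [if_pos h2]
        rw [if_pos ⟨h1, h2⟩]
      · simp only [if_neg h2]
        rw [if_neg (fun hh => h2 hh.2), zero_mul]
    · rw [if_neg h1, zero_mul]
      refine (Finset.sum_eq_zero fun w _ => ?_).symm
      rw [if_neg (fun hh => h1 hh.1)]
  rw [Finset.sum_congr rfl (fun p _ => e1 p), ← Fintype.sum_prod_type g]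
  unfold ClSys.N
  refine Finset.sum_of_injOn (cadPhi S) (cad_phi_inj S) (fun _ _ => Finset.mem_coe.2 (Finset.mem_univ _)) ?_ ?_
  · rintro ⟨⟨b, τ⟩, w⟩ _ hr
    simp only [g]
    by_cases hj : C.jw b w τ = 0
    · rw [hj, zero_mul, ite_self]
    · obtain ⟨ω, hω, hφ⟩ := cad_supp S hS b w τ hj
      exact absurd ⟨ω, Finset.mem_coe.2 hω, hφ⟩ hr
  · intro ω hω
    simp only [g]
    have h1 : K.Holds S ω ↔ (h.OkB (cadPhi S ω).1.1 ∧ h.OkT (cadPhi S ω).1.2) ∧ h.OkW C (cadPhi S ω).2 :=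
      cad_holds S hS K hK hc hω
    have h2 : cadF S G (cadPhi S ω).1 = G ω := cad_F_phi S hG hω
    have h3 : C.jw (cadPhi S ω).1.1 (cadPhi S ω).2 (cadPhi S ω).1.2 = S.wt ω := cad_jw S hS ω
    rw [h2, h3]
    by_cases hK' : K.Holds S ω
    · rw [if_pos hK', if_pos (h1.1 hK')]
    · rw [if_neg hK', if_neg (fun hh => hK' (h1.2 hh))]

/-- partition functions in the two languages -/
theorem cad_Z (S : ClSys V Y) (hS : ClOk S) (K : ClCon V Y) (hK : ClLegal S K) (hc : CadCons S K) :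
    S.Z (K.Holds S) = (cadSys S).Zh (cadHist S K) := by
  rw [dis_Z_eq, cad_N S hS K hK hc _ (cad_inv_const S 1)]
  unfold CellSys.Zh cadF
  simp

/-- a constraint without configuration -/
theorem cad_N_zero (S : ClSys V Y) (K : ClCon V Y) (hc : ¬ CadCons S K) (G : ClCfg V Y → ℝ) :
    S.N (K.Holds S) G = 0 := by
  classical
  unfold ClSys.N
  refine Finset.sum_eq_zero fun ω hω => ?_
  rw [if_neg (fun h => hc (cad_cons S K hω h))]

theorem cad_Z_zero (S : ClSys V Y) (K : ClCon V Y) (hc : ¬ CadCons S K) : S.Z (K.Holds S) = 0 := by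
  rw [dis_Z_eq, cad_N_zero S K hc]

/-- legality gives fullness -/
theorem cad_full (S : ClSys V Y) (K : ClCon V Y) (hK : ClLegal S K) : (cadHist S K).Full (cadSys S) := by
  intro y θ hθ e he
  have hpT : (if y.1 ∈ K.Op then some (1 : SignType) else if y.1 ∈ K.Om then some (-1)
      else if y.1 ∈ K.Cl then some 0 else none) = some θ := hθ
  have hy : y.1 ∈ K.Op ∪ K.Om ∪ K.Cl := by
    simp only [Finset.mem_union]
    by_contra hn
    simp only [not_or] at hn
    rw [if_neg hn.1.1, if_neg hn.1.2, if_neg hn.2] at hpT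
    exact absurd hpT (by simp)
  have hf := hK.full y.1 y.2 hy
  have h1 := (cad_mem_es S e.1).1 e.2
  have h2 : e.1.1 = y.1 := congrArg Subtype.val he
  have key : ∀ v : CadV S, v.1 ∈ S.sv y.1 → ((cadHist S K).pB v).isSome := by
    intro v hv
    show (if v.1 ∈ K.Bp then some true else if v.1 ∈ K.Bm then some false else none).isSome
    rcases Finset.mem_union.1 (hf hv) with h | h
    · rw [if_pos h]; rfl
    · by_cases h' : v.1 ∈ K.Bp
      · rw [if_pos h']; rfl
      · rw [if_neg h', if_pos h]; rfl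
  exact ⟨key _ (h2 ▸ h1.2.2.2.1), key _ (h2 ▸ h1.2.2.2.2)⟩

/-- the order of histories in the two languages -/
theorem cad_leG (S : ClSys V Y) (K₁ K₂ : ClCon V Y) (c₁ : CadCons S K₁) (c₂ : CadCons S K₂) (hle : ClLe K₁ K₂) :
    (cadHist S K₁).LeG (cadSys S) (cadHist S K₂) := by
  have hpT : ∀ (K : ClCon V Y) (y : CadY S), (cadHist S K).pT y = if y.1 ∈ K.Op then some 1
      else if y.1 ∈ K.Om then some (-1) else if y.1 ∈ K.Cl then some 0 else none := fun _ _ => rfl
  have hpB : ∀ (K : ClCon V Y) (v : CadV S), (cadHist S K).pB v = if v.1 ∈ K.Bp then some true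
      else if v.1 ∈ K.Bm then some false else none := fun _ _ => rfl
  have hE : (cadHist S K₁).E0 = (cadHist S K₂).E0 := by
    unfold cadHist
    simp only [hle.eq]
  refine ⟨fun y θ hθ => ?_, fun y θ hθ => ?_, fun v β hβ => ?_, fun v β hβ => ?_,
    fun e he => Or.inl (hE ▸ he), fun e he => Or.inl (hE ▸ he)⟩
  · rw [hpT] at hθ
    by_cases hp : y.1 ∈ K₂.Op
    · rw [if_pos hp] at hθ
      exact Or.inl (Option.some.inj hθ).symm
    · rw [if_neg hp] at hθ
      right
      by_cases hm : y.1 ∈ K₂.Om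
      · rw [if_pos hm] at hθ
        have hm1 := hle.om hm
        refine ⟨-1, ?_, (Option.some.inj hθ).le⟩
        rw [hpT, if_neg (fun hh => c₁.d1 _ hh hm1), if_pos hm1]
      · rw [if_neg hm] at hθ
        by_cases hl : y.1 ∈ K₂.Cl
        · rw [if_pos hl] at hθ
          rw [← Option.some.inj hθ]
          rcases Finset.mem_union.1 (hle.cl2 hl) with h | h
          · refine ⟨0, ?_, le_rfl⟩
            rw [hpT, if_neg (fun hh => c₁.d2 _ hh h), if_neg (fun hh => c₁.d3 _ hh h), if_pos h]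
          · refine ⟨-1, ?_, by decide⟩
            rw [hpT, if_neg (fun hh => c₁.d1 _ hh h), if_pos h]
        · rw [if_neg hl] at hθ
          exact absurd hθ (by simp)
  · rw [hpT] at hθ
    by_cases hp : y.1 ∈ K₁.Op
    · rw [if_pos hp] at hθ
      right
      refine ⟨1, ?_, (Option.some.inj hθ).ge⟩
      rw [hpT, if_pos (hle.op hp)]
    · rw [if_neg hp] at hθ
      by_cases hm : y.1 ∈ K₁.Om
      · rw [if_pos hm] at hθ
        exact Or.inl (Option.some.inj hθ).symm
      · rw [if_neg hm] at hθ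
        by_cases hl : y.1 ∈ K₁.Cl
        · rw [if_pos hl] at hθ
          rw [← Option.some.inj hθ]
          right
          rcases Finset.mem_union.1 (hle.cl1 hl) with h | h
          · refine ⟨0, ?_, le_rfl⟩
            rw [hpT, if_neg (fun hh => c₂.d2 _ hh h), if_neg (fun hh => c₂.d3 _ hh h), if_pos h]
          · refine ⟨1, ?_, by decide⟩
            rw [hpT, if_pos h]
        · rw [if_neg hl] at hθ
          exact absurd hθ (by simp)
  · rw [hpB] at hβ
    by_cases hp : v.1 ∈ K₂.Bp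
    · rw [if_pos hp] at hβ
      exact Or.inl (Option.some.inj hβ).symm
    · rw [if_neg hp] at hβ
      by_cases hm : v.1 ∈ K₂.Bm
      · right
        rw [hpB, if_neg (fun hh => hp (hle.bp hh)), if_pos (hle.bm hm)]
      · rw [if_neg hm] at hβ
        exact absurd hβ (by simp)
  · rw [hpB] at hβ
    by_cases hp : v.1 ∈ K₁.Bp
    · right
      rw [hpB, if_pos (hle.bp hp)]
    · rw [if_neg hp] at hβ
      by_cases hm : v.1 ∈ K₁.Bm
      · rw [if_pos hm] at hβ
        exact Or.inl (Option.some.inj hβ).symm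
      · rw [if_neg hm] at hβ
        exact absurd hβ (by simp)

/-! ## F. EXITS -/

/-- (ORD-A) = `dis_assoc` verbatim -/
theorem cad_assoc (S : ClSys V Y) (hS : ClDisk S) (K : ClCon V Y) (hK : ClLegal S K)
    (F G : ClCfg V Y → ℝ) (hF : ClMono S F) (hG : ClMono S G) :
    S.N (K.Holds S) F * S.N (K.Holds S) G ≤ S.Z (K.Holds S) * S.N (K.Holds S) (fun ω => F ω * G ω) := by
  have hO : ClOk S := hS.toClOk
  by_cases hc : CadCons S K
  · rw [cad_N S hO K hK hc F (cad_inv_of_mono S hF), cad_N S hO K hK hc G (cad_inv_of_mono S hG),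
      cad_Z S hO K hK hc,
      cad_N S hO K hK hc _ (cad_inv_mul S (cad_inv_of_mono S hF) (cad_inv_of_mono S hG))]
    exact cs_assoc (cadSys S) (cad_ok S hS) (cad_full S K hK) (fun b _ => cad_split S hS b)
      (cad_mono S hF) (cad_mono S hG)
  · rw [cad_N_zero S K hc, cad_Z_zero S K hc]
    simp

/-- (ORD-B) = `dis_order` verbatim -/
theorem cad_order (S : ClSys V Y) (hS : ClDisk S) (K₁ K₂ : ClCon V Y) (h₁ : ClLegal S K₁) (h₂ : ClLegal S K₂)
    (hle : ClLe K₁ K₂) (F : ClCfg V Y → ℝ) (hF : ClMono S F) :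
    S.N (K₁.Holds S) F * S.Z (K₂.Holds S) ≤ S.Z (K₁.Holds S) * S.N (K₂.Holds S) F := by
  have hO : ClOk S := hS.toClOk
  by_cases c₁ : CadCons S K₁
  · by_cases c₂ : CadCons S K₂
    · rw [cad_N S hO K₁ h₁ c₁ F (cad_inv_of_mono S hF), cad_N S hO K₂ h₂ c₂ F (cad_inv_of_mono S hF),
        cad_Z S hO K₁ h₁ c₁, cad_Z S hO K₂ h₂ c₂]
      exact cs_order_gen (cadSys S) (cad_ok S hS) (cad_leG S K₁ K₂ c₁ c₂ hle) (cad_full S K₁ h₁)
        (cad_full S K₂ h₂) (fun b _ => cad_split S hS b) (fun b _ => cad_split S hS b) (cad_mono S hF)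
    · rw [cad_N_zero S K₂ c₂, cad_Z_zero S K₂ c₂]
      simp
  · rw [cad_N_zero S K₁ c₁, cad_Z_zero S K₁ c₁]
    simp

end

end Claimed.Agent.R291
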